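import Vale.Agent.P224.MathlibUsed
import Vale.Agent.P224.Defs
import Vale.Agent.P224.Bdl.B2

/-! The least Clifford volume is the one of the balanced product:
`leastClifford m = cliffordVol m (m / 2)` for every `m ≥ 2`. -/

noncomputable section

open Real Set

namespace Vale.Agent.P224.RIG

/-- Log-convexity of the Gamma function at the midpoint. -/
theorem gamma_mid {x : ℝ} (hx : 0 < x) : Gamma (x + 1 / 2) ^ 2 ≤ Gamma x * Gamma (x + 1) := by
  have h := Real.Gamma_mul_add_mul_le_rpow_Gamma_mul_rpow_Gamma (s := x) (t := x + 1)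
    (a := 1 / 2) (b := 1 / 2) hx (by linarith) (by norm_num) (by norm_num) (by norm_num)
  have e : 1 / 2 * x + 1 / 2 * (x + 1) = x + 1 / 2 := by ring
  rw [e] at h
  have g0 : 0 < Gamma (x + 1 / 2) := Gamma_pos_of_pos (by linarith)
  have g1 : 0 < Gamma x := Gamma_pos_of_pos hx
  have g2 : 0 < Gamma (x + 1) := Gamma_pos_of_pos (by linarith)
  calc Gamma (x + 1 / 2) ^ 2 ≤ (Gamma x ^ (1 / 2 : ℝ) * Gamma (x + 1) ^ (1 / 2 : ℝ)) ^ 2 :=
        pow_le_pow_left₀ g0.le h 2
    _ = Gamma x * Gamma (x + 1) := by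
        rw [mul_pow, ← Real.sqrt_eq_rpow, ← Real.sqrt_eq_rpow, Real.sq_sqrt g1.le,
          Real.sq_sqrt g2.le]

/-- `Γ(x + 1/2)² / (Γ(x)² x) · e^(1/(4x))`. -/
def bG (x : ℝ) : ℝ := Gamma (x + 1 / 2) ^ 2 / (Gamma x ^ 2 * x) * exp (1 / (4 * x))

theorem bG_step {x : ℝ} (hx : 0 < x) : bG (x + 1) ≤ bG x := by
  have g0 : 0 < Gamma (x + 1 / 2) := Gamma_pos_of_pos (by linarith)
  have g1 : 0 < Gamma x := Gamma_pos_of_pos hx
  have e1 : Gamma (x + 1 + 1 / 2) = (x + 1 / 2) * Gamma (x + 1 / 2) := by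
    rw [show x + 1 + 1 / 2 = (x + 1 / 2) + 1 by ring, Gamma_add_one (by linarith)]
  have e2 : Gamma (x + 1) = x * Gamma x := Gamma_add_one hx.ne'
  have e3 : exp (1 / (4 * (x + 1))) = exp (1 / (4 * x)) * exp (-(1 / (4 * x * (x + 1)))) := by
    rw [← exp_add]
    congr 1
    field_simp
    ring
  have h1 : (1 + 1 / (4 * x * (x + 1))) * exp (-(1 / (4 * x * (x + 1)))) ≤ 1 := by
    have h2 := Real.add_one_le_exp (1 / (4 * x * (x + 1)))
    rw [exp_neg]
    have h3 := exp_pos (1 / (4 * x * (x + 1)))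
    rw [mul_inv_le_iff₀ h3]
    linarith
  have h2 : bG (x + 1) = bG x * ((1 + 1 / (4 * x * (x + 1))) *
      exp (-(1 / (4 * x * (x + 1))))) := by
    unfold bG
    rw [e1, e2, e3]
    field_simp
    ring
  have h3 : 0 ≤ bG x := by
    unfold bG
    positivity
  rw [h2]
  exact mul_le_of_le_one_right h3 h1

theorem bG_steps {x : ℝ} (hx : 0 < x) (n : ℕ) : bG (x + n) ≤ bG x := by
  induction n with
  | zero => simp
  | succ n ih =>
    have h := bG_step (x := x + n) (by positivity)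
    push_cast
    rw [← add_assoc]
    exact h.trans ih

theorem bG_lower {x : ℝ} (hx : 0 < x) : x / (x + 1 / 2) ≤ bG x := by
  have h := gamma_mid (x := x + 1 / 2) (by linarith)
  have g0 : 0 < Gamma (x + 1 / 2) := Gamma_pos_of_pos (by linarith)
  have g1 : 0 < Gamma x := Gamma_pos_of_pos hx
  rw [show x + 1 / 2 + 1 / 2 = x + 1 by ring, Gamma_add_one hx.ne',
    Gamma_add_one (s := x + 1 / 2) (by linarith)] at h
  have h1 : x / (x + 1 / 2) ≤ Gamma (x + 1 / 2) ^ 2 / (Gamma x ^ 2 * x) := by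
    rw [div_le_div_iff₀ (by linarith) (by positivity)]
    nlinarith
  have h2 : 1 ≤ exp (1 / (4 * x)) := Real.one_le_exp (by positivity)
  have h3 : 0 ≤ Gamma (x + 1 / 2) ^ 2 / (Gamma x ^ 2 * x) := by positivity
  unfold bG
  calc x / (x + 1 / 2) ≤ Gamma (x + 1 / 2) ^ 2 / (Gamma x ^ 2 * x) := h1
    _ ≤ _ := le_mul_of_one_le_right h3 h2

theorem one_le_bG {x : ℝ} (hx : 0 < x) : 1 ≤ bG x := by
  by_contra hcon
  push Not at hcon
  obtain ⟨n, hn⟩ := exists_nat_gt (1 / (1 - bG x))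
  have hd : 0 < 1 - bG x := by linarith
  have h1 : (x + n) / (x + n + 1 / 2) ≤ bG x := (bG_lower (by positivity)).trans (bG_steps hx n)
  rw [div_le_iff₀ (by positivity)] at h1
  rw [div_lt_iff₀ hd] at hn
  have hn0 : (0 : ℝ) ≤ n := Nat.cast_nonneg n
  nlinarith

/-- The lower bound of the Gamma ratio. -/
theorem gamma_ratio {x : ℝ} (hx : 0 < x) :
    exp (-(1 / (4 * x))) * (Gamma x * Gamma (x + 1)) ≤ Gamma (x + 1 / 2) ^ 2 := by
  have h := one_le_bG hx
  have g0 : 0 < Gamma (x + 1 / 2) := Gamma_pos_of_pos (by linarith)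
  have g1 : 0 < Gamma x := Gamma_pos_of_pos hx
  unfold bG at h
  rw [Gamma_add_one hx.ne', exp_neg]
  have he := exp_pos (1 / (4 * x))
  rw [inv_mul_le_iff₀ he]
  rw [div_mul_eq_mul_div, le_div_iff₀ (by positivity)] at h
  nlinarith

/-- The entropy inequality `(1 + u) log (1 + u) + (1 - u) log (1 - u) ≥ u²`. -/
theorem entropy {u : ℝ} (h0 : 0 ≤ u) (h1 : u < 1) :
    u ^ 2 ≤ (1 + u) * log (1 + u) + (1 - u) * log (1 - u) := by
  have hd : ∀ t ∈ Ico (0 : ℝ) 1, HasDerivAt
      (fun t : ℝ => (1 + t) * log (1 + t) + (1 - t) * log (1 - t) - t ^ 2)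
      (log (1 + t) - log (1 - t) - 2 * t) t := by
    rintro t ⟨ht0, ht1⟩
    have a1 : HasDerivAt (fun t : ℝ => 1 + t) 1 t := (hasDerivAt_id t).const_add 1
    have a2 : HasDerivAt (fun t : ℝ => 1 - t) (-1) t := (hasDerivAt_id t).const_sub 1
    have b1 := a1.mul (a1.log (by linarith))
    have b2 := a2.mul (a2.log (by linarith))
    have b3 : HasDerivAt (fun t : ℝ => t ^ 2) (2 * t) t := by
      simpa using hasDerivAt_pow 2 t
    have b4 := (b1.add b2).sub b3
    have c1 : (1 + t) ≠ 0 := by linarith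
    have c2 : (1 - t) ≠ 0 := by linarith
    have e : 1 * log (1 + t) + (1 + t) * (1 / (1 + t)) + (-1 * log (1 - t) + (1 - t) * (-1 / (1 - t)))
        - 2 * t = log (1 + t) - log (1 - t) - 2 * t := by
      field_simp
      ring
    rw [← e]
    exact b4
  have hmono : MonotoneOn (fun t : ℝ => (1 + t) * log (1 + t) + (1 - t) * log (1 - t) - t ^ 2)
      (Ico (0 : ℝ) 1) := by
    apply monotoneOn_of_deriv_nonneg (convex_Ico 0 1)
    · exact fun t ht => (hd t ht).continuousAt.continuousWithinAt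
    · intro t ht
      rw [interior_Ico] at ht
      exact (hd t ⟨ht.1.le, ht.2⟩).differentiableAt.differentiableWithinAt
    · intro t ht
      rw [interior_Ico] at ht
      rw [(hd t ⟨ht.1.le, ht.2⟩).deriv]
      have hs := Real.hasSum_log_sub_log_of_abs_lt_one (x := t) (by rw [abs_of_pos ht.1]; exact ht.2)
      have := hs.summable.sum_le_tsum {0} (fun i _ => by
        have := ht.1
        positivity)
      rw [hs.tsum_eq] at this
      simp at this
      linarith
  have h := hmono (left_mem_Ico.2 one_pos) ⟨h0, h1⟩ h0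
  simp at h
  linarith

/-- The logarithm of `k^(k/2) σ_k`. -/
def lg (k : ℕ) : ℝ :=
  (k : ℝ) / 2 * log k + log 2 + ((k : ℝ) + 1) / 2 * log π - log (Gamma (((k : ℝ) + 1) / 2))

theorem lg_convex {n : ℕ} (hn : 1 ≤ n) : 2 * lg (n + 1) ≤ lg n + lg (n + 2) := by
  have hn' : (1 : ℝ) ≤ n := by exact_mod_cast hn
  have hK : (0 : ℝ) < (n : ℝ) + 1 := by linarith
  have e := entropy (u := 1 / ((n : ℝ) + 1)) (by positivity) (by
    rw [div_lt_one hK]; linarith)
  have e1 : log (1 + 1 / ((n : ℝ) + 1)) = log ((n : ℝ) + 2) - log ((n : ℝ) + 1) := by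
    rw [← log_div (by linarith) (by linarith)]
    congr 1
    field_simp
    ring
  have e2 : log (1 - 1 / ((n : ℝ) + 1)) = log (n : ℝ) - log ((n : ℝ) + 1) := by
    rw [← log_div (by linarith) (by linarith)]
    congr 1
    field_simp
    ring
  rw [e1, e2] at e
  have hx : (0 : ℝ) < ((n : ℝ) + 1) / 2 := by linarith
  have hg := gamma_ratio hx
  have g0 : 0 < Gamma (((n : ℝ) + 1) / 2) := Gamma_pos_of_pos hx
  have g1 : 0 < Gamma (((n : ℝ) + 1) / 2 + 1) := Gamma_pos_of_pos (by linarith)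
  have g2 : 0 < Gamma (((n : ℝ) + 1) / 2 + 1 / 2) := Gamma_pos_of_pos (by linarith)
  have hl := Real.log_le_log (by positivity) hg
  rw [log_mul (exp_pos _).ne' (by positivity), log_exp, log_mul g0.ne' g1.ne', log_pow] at hl
  have e3 : ((n : ℝ) + 1) / 2 + 1 / 2 = (((n + 1 : ℕ) : ℝ) + 1) / 2 := by push_cast; ring
  have e4 : ((n : ℝ) + 1) / 2 + 1 = (((n + 2 : ℕ) : ℝ) + 1) / 2 := by push_cast; ring
  rw [e3, e4] at hl
  have e5 : (1 : ℝ) / (4 * (((n : ℝ) + 1) / 2)) = 1 / (2 * ((n : ℝ) + 1)) := by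
    field_simp
    ring
  rw [e5] at hl
  have e6 := mul_le_mul_of_nonneg_left e (show (0 : ℝ) ≤ ((n : ℝ) + 1) / 2 by linarith)
  have e7 : ((n : ℝ) + 1) / 2 * (1 / ((n : ℝ) + 1)) ^ 2 = 1 / (2 * ((n : ℝ) + 1)) := by
    field_simp
  have e8 : ((n : ℝ) + 1) / 2 * ((1 + 1 / ((n : ℝ) + 1)) * (log ((n : ℝ) + 2) - log ((n : ℝ) + 1)) +
      (1 - 1 / ((n : ℝ) + 1)) * (log (n : ℝ) - log ((n : ℝ) + 1))) =
      ((n : ℝ) + 2) / 2 * log ((n : ℝ) + 2) + (n : ℝ) / 2 * log n
        - ((n : ℝ) + 1) * log ((n : ℝ) + 1) := by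
    field_simp
    ring
  rw [e7, e8] at e6
  unfold lg
  push_cast at hl ⊢
  linarith

theorem cliffordVol_eq_exp {m k : ℕ} (hk : 1 ≤ k) (hkm : k < m) :
    cliffordVol m k = exp (lg k + lg (m - k) - (m : ℝ) / 2 * log m) := by
  have hk0 : (0 : ℝ) < k := by exact_mod_cast hk
  have hm0 : (0 : ℝ) < m := by exact_mod_cast (by omega : 0 < m)
  have hj0 : (0 : ℝ) < ((m - k : ℕ) : ℝ) := by exact_mod_cast (by omega : 0 < m - k)
  have hj : ((m - k : ℕ) : ℝ) = (m : ℝ) - k := by
    rw [Nat.cast_sub hkm.le]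
  have hs : ∀ j : ℕ, sphereVol j = exp (log 2 + ((j : ℝ) + 1) / 2 * log π -
      log (Gamma (((j : ℝ) + 1) / 2))) := by
    intro j
    have g : 0 < Gamma (((j : ℝ) + 1) / 2) := Gamma_pos_of_pos (by positivity)
    rw [exp_sub, exp_add, exp_log two_pos, exp_log g, mul_comm (((j : ℝ) + 1) / 2),
      ← Real.rpow_def_of_pos pi_pos]
    rfl
  have hr : ∀ x y : ℝ, 0 < x → ((x / m : ℝ)) ^ (y : ℝ) = exp ((log x - log m) * y) := by
    intro x y hx
    rw [Real.rpow_def_of_pos (div_pos hx hm0), log_div hx.ne' hm0.ne']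
  unfold cliffordVol
  rw [hs k, hs (m - k), hr _ _ hk0, hr _ _ hj0, ← exp_add, ← exp_add, ← exp_add]
  congr 1
  unfold lg
  rw [hj]
  ring

/-- Increments of a convex sequence grow. -/
theorem lg_incr {a b : ℕ} (ha : 1 ≤ a) (hab : a ≤ b) :
    lg (a + 1) - lg a ≤ lg (b + 1) - lg b := by
  induction b, hab using Nat.le_induction with
  | base => exact le_rfl
  | succ b hb ih =>
    have h := lg_convex (n := b) (ha.trans hb)
    have e : b + 1 + 1 = b + 2 := rfl
    rw [e]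
    linarith

/-- One step towards the middle does not increase the volume. -/
theorem cliffordVol_step {m k : ℕ} (hk : 1 ≤ k) (hkm : 2 * k + 2 ≤ m) :
    cliffordVol m (k + 1) ≤ cliffordVol m k := by
  rw [cliffordVol_eq_exp hk (by omega), cliffordVol_eq_exp (by omega) (by omega), exp_le_exp]
  have h := lg_incr (a := k) (b := m - (k + 1)) hk (by omega)
  have e : m - (k + 1) + 1 = m - k := by omega
  rw [e] at h
  linarith

theorem cliffordVol_symm {m k : ℕ} (hk : 1 ≤ k) (hkm : k < m) :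
    cliffordVol m (m - k) = cliffordVol m k := by
  rw [cliffordVol_eq_exp hk hkm, cliffordVol_eq_exp (by omega) (by omega)]
  congr 2
  rw [show m - (m - k) = k by omega]
  ring

theorem cliffordVol_mid_le_left {m k : ℕ} (hk : 1 ≤ k) (hkm : k ≤ m / 2) :
    cliffordVol m (m / 2) ≤ cliffordVol m k := by
  obtain ⟨d, hd⟩ := Nat.exists_eq_add_of_le hkm
  induction d generalizing k with
  | zero => rw [hd, add_zero]
  | succ d ih =>
    have h1 := ih (k := k + 1) (by omega) (by omega) (by omega)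
    exact h1.trans (cliffordVol_step hk (by omega))

theorem cliffordVol_mid_le {m k : ℕ} (hk : 1 ≤ k) (hkm : k < m) :
    cliffordVol m (m / 2) ≤ cliffordVol m k := by
  by_cases h : k ≤ m / 2
  · exact cliffordVol_mid_le_left hk h
  · rw [← cliffordVol_symm hk hkm]
    by_cases h2 : m - k ≤ m / 2
    · exact cliffordVol_mid_le_left (by omega) h2
    · omega

/-- **The least Clifford volume is the volume of the balanced product.** -/
theorem leastClifford_eq {m : ℕ} (hm : 2 ≤ m) : leastClifford m = cliffordVol m (m / 2) := by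
  apply le_antisymm (leastClifford_le (by omega) (by omega))
  unfold leastClifford
  have : Nonempty (Set.Ico 1 m) := ⟨⟨1, le_rfl, by omega⟩⟩
  exact le_ciInf fun k => cliffordVol_mid_le k.2.1 k.2.2

/-- Even dimensions. -/
theorem least_even {h : ℕ} (hh : 1 ≤ h) :
    leastClifford (2 * h) = cliffordVol (2 * h) h ∧
      cliffordVol (2 * h) h = evenRatio h * sphereVol (2 * h) := by
  refine ⟨?_, clifford_even hh⟩
  rw [leastClifford_eq (by omega), show 2 * h / 2 = h by omega]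

end Vale.Agent.P224.RIG
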