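import Vale.Agent.P224.RIG.Range

/-!
The range of an immersion into a product of two spheres of radii `√a`, `√(1 - a)` of complementary
dimensions, and the range in the case of equality in dimension five.
-/

namespace Vale.Agent.P224.RIG

open Set Filter Function Module Vale.Agent.P224
open scoped Topology RealInnerProductSpace ContDiff Manifold

set_option linter.unusedSectionVars false

variable {V W M : Type*} [NormedAddCommGroup V] [InnerProductSpace ℝ V] [FiniteDimensional ℝ V]
  [NormedAddCommGroup W] [InnerProductSpace ℝ W] [FiniteDimensional ℝ W]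
  [TopologicalSpace M] [ChartedSpace V M]

/-- the product of the spheres of radius `√a` in `K` and `√(1 - a)` in its orthogonal complement -/
def PrdA (a : ℝ) (K : Submodule ℝ W) : Set W :=
  {z | ‖K.starProjection z‖ ^ 2 = a ∧ ‖Kᗮ.starProjection z‖ ^ 2 = 1 - a}

lemma surj_dconeA {a : ℝ} (ha : 0 < a) (ha1 : a < 1) (hW : finrank ℝ W = finrank ℝ V + 2)
    (K : Submodule ℝ W) {f : V → W}
    {D : V →L[ℝ] W} {v : V} (h : HasFDerivAt f D v) (hD : Injective D)
    (hf : ∀ u, f u ∈ PrdA a K) : (dcone K D (f v)).range = ⊤ := by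
  have hinj : Injective (dcone K D (f v)) := by
    rw [injective_iff_map_eq_zero]
    rintro ⟨w, α, β⟩ h0
    have h1 : K.starProjection (D w) + α • K.starProjection (f v)
        + (Kᗮ.starProjection (D w) + β • Kᗮ.starProjection (f v)) = 0 := h0
    have hP := inner_deriv h K.starProjection (fun u => (hf u).1) w
    have hQ := inner_deriv h Kᗮ.starProjection (fun u => (hf u).2) w
    have n1 : ⟪K.starProjection (f v), K.starProjection (f v)⟫ = a := by
      rw [real_inner_self_eq_norm_sq, (hf v).1]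
    have n2 : ⟪Kᗮ.starProjection (f v), Kᗮ.starProjection (f v)⟫ = 1 - a := by
      rw [real_inner_self_eq_norm_sq, (hf v).2]
    have hα : α = 0 := by
      have h2 := congrArg (fun z => ⟪z, K.starProjection (f v)⟫) h1
      simp only [inner_add_left, real_inner_smul_left, inner_proj', hP, n1, inner_zero_left] at h2
      have h3 : α * a = 0 := by linarith
      exact (mul_eq_zero.1 h3).resolve_right ha.ne'
    have hβ : β = 0 := by
      have h2 := congrArg (fun z => ⟪z, Kᗮ.starProjection (f v)⟫) h1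
      simp only [inner_add_left, real_inner_smul_left, inner_proj, hQ, n2, inner_zero_left] at h2
      have h3 : β * (1 - a) = 0 := by linarith
      exact (mul_eq_zero.1 h3).resolve_right (by linarith)
    subst hα hβ
    have h3 : D w = 0 := by
      rw [← proj_add K (D w)]
      simpa using h1
    have h4 : w = 0 := hD (by rw [h3, map_zero])
    rw [h4]
    rfl
  have hdim : finrank ℝ (V × ℝ × ℝ) = finrank ℝ W := by
    rw [Module.finrank_prod, Module.finrank_prod, Module.finrank_self, hW]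
  have := (LinearMap.injective_iff_surjective_of_finrank_eq_finrank
    (f := (dcone K D (f v) : V × ℝ × ℝ →ₗ[ℝ] W)) hdim).1 hinj
  exact LinearMap.range_eq_top.2 this

/-- The range of an immersion into the product is relatively open. -/
lemma open_rangeA [IsManifold 𝓘(ℝ, V) ∞ M] {c : ℝ} (hc0 : 0 < c) (hc1 : c < 1)
    (hW : finrank ℝ W = finrank ℝ V + 2)
    (K : Submodule ℝ W) {F : M → W} (hF : SphImm V F) (hK : ∀ x, F x ∈ PrdA c K) (x : M) :
    ∃ U : Set W, IsOpen U ∧ F x ∈ U ∧ ∀ z ∈ U, z ∈ PrdA c K → z ∈ range F := by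
  set f : V → W := rep F x with hf
  set v0 := chartAt V x x with hv0
  have hT := immV_rep hF x
  have hmem : v0 ∈ (chartAt V x).target := (chartAt V x).map_source (mem_chart_source V x)
  have hfv : f v0 = F x := by
    rw [hf, hv0]
    unfold rep
    rw [(chartAt V x).left_inv (mem_chart_source V x)]
  have hc : ContDiffAt ℝ ∞ f v0 := hT.smooth.contDiffAt (hT.isOpen.mem_nhds hmem)
  have hs : HasStrictFDerivAt f (fderiv ℝ f v0) v0 := hc.hasStrictFDerivAt (by simp)
  have hall : ∀ u, f u ∈ PrdA c K := fun u => hK _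
  have hg := hasStrictFDerivAt_cone K hs
  have hsur := surj_dconeA hc0 hc1 hW K hs.hasFDerivAt (hT.inj v0 hmem) hall
  have hmap := hg.map_nhds_eq_of_surj hsur
  have hg0 : cone K f (v0, 1, 1) = F x := by
    unfold cone
    simp only [one_smul]
    rw [proj_add, hfv]
  rw [hg0] at hmap
  have hS : {p : V × ℝ × ℝ | 0 < p.2.1 ∧ 0 < p.2.2} ∈ 𝓝 (v0, (1 : ℝ), (1 : ℝ)) := by
    have c1 : Continuous fun p : V × ℝ × ℝ => p.2.1 := by fun_prop
    have c2 : Continuous fun p : V × ℝ × ℝ => p.2.2 := by fun_prop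
    have m1 : {p : V × ℝ × ℝ | 0 < p.2.1} ∈ 𝓝 (v0, (1 : ℝ), (1 : ℝ)) :=
      (isOpen_lt continuous_const c1).mem_nhds (one_pos : (0 : ℝ) < 1)
    have m2 : {p : V × ℝ × ℝ | 0 < p.2.2} ∈ 𝓝 (v0, (1 : ℝ), (1 : ℝ)) :=
      (isOpen_lt continuous_const c2).mem_nhds (one_pos : (0 : ℝ) < 1)
    exact inter_mem m1 m2
  have hI : cone K f '' {p : V × ℝ × ℝ | 0 < p.2.1 ∧ 0 < p.2.2} ∈ 𝓝 (F x) := by
    rw [← hmap]
    exact image_mem_map hS
  obtain ⟨U, hUs, hUo, hxU⟩ := mem_nhds_iff.1 hI
  refine ⟨U, hUo, hxU, fun z hz hzK => ?_⟩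
  obtain ⟨⟨v, a, b⟩, ⟨ha, hb⟩, rfl⟩ := hUs hz
  simp only at ha hb
  have hzK' := hzK
  unfold PrdA cone at hzK'
  simp only [mem_ofPred_eq, map_add, map_smul] at hzK'
  have p1 : ∀ w, K.starProjection (K.starProjection w) = K.starProjection w := fun w =>
    Submodule.starProjection_eq_self_iff.2 (Submodule.starProjection_apply_mem K w)
  have p2 : ∀ w, Kᗮ.starProjection (Kᗮ.starProjection w) = Kᗮ.starProjection w := fun w =>
    Submodule.starProjection_eq_self_iff.2 (Submodule.starProjection_apply_mem Kᗮ w)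
  have p3 : ∀ w, K.starProjection (Kᗮ.starProjection w) = 0 := fun w => by
    have h2 := congrArg K.starProjection (proj_add K w)
    rw [map_add, p1] at h2
    exact left_eq_add.1 h2.symm
  have p4 : ∀ w, Kᗮ.starProjection (K.starProjection w) = 0 := fun w => by
    have h2 := congrArg Kᗮ.starProjection (proj_add K w)
    rw [map_add, p2] at h2
    exact right_eq_add.1 h2.symm
  rw [p1, p3, p4, p2, smul_zero, smul_zero, add_zero, zero_add, norm_smul, norm_smul, mul_pow,
    mul_pow, (hall v).1, (hall v).2, Real.norm_eq_abs, Real.norm_eq_abs, sq_abs, sq_abs] at hzK'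
  have ha1 : a = 1 := by
    have : a ^ 2 = 1 := by
      have h5 : (a ^ 2 - 1) * c = 0 := by linarith [hzK'.1]
      linarith [(mul_eq_zero.1 h5).resolve_right hc0.ne']
    nlinarith
  have hb1 : b = 1 := by
    have : b ^ 2 = 1 := by
      have h5 : (b ^ 2 - 1) * (1 - c) = 0 := by linarith [hzK'.2]
      linarith [(mul_eq_zero.1 h5).resolve_right (by linarith)]
    nlinarith
  subst ha1 hb1
  refine ⟨(chartAt V x).symm v, ?_⟩
  unfold cone
  simp only [one_smul]
  rw [proj_add]
  rfl

/-- The product of two spheres of positive dimension is connected. -/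
lemma preconn_prdA {a : ℝ} (ha : 0 < a) (ha1 : a < 1) (K : Submodule ℝ W)
    (h1 : 2 ≤ finrank ℝ K) (h2 : 2 ≤ finrank ℝ Kᗮ) :
    IsPreconnected (PrdA a K) := by
  have r1 : 1 < Module.rank ℝ K := by
    rw [← finrank_eq_rank]
    exact_mod_cast h1
  have r2 : 1 < Module.rank ℝ Kᗮ := by
    rw [← finrank_eq_rank]
    exact_mod_cast h2
  set ρ : ℝ := √a with hρ
  have hρ0 : 0 ≤ ρ := Real.sqrt_nonneg _
  have hρ2 : ρ ^ 2 = a := Real.sq_sqrt ha.le
  set σ : ℝ := √(1 - a) with hσ
  have hσ0 : 0 ≤ σ := Real.sqrt_nonneg _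
  have hσ2 : σ ^ 2 = 1 - a := Real.sq_sqrt (by linarith)
  have c1 := isPreconnected_sphere r1 (0 : K) ρ
  have c2 := isPreconnected_sphere r2 (0 : Kᗮ) σ
  have c3 := (c1.prod c2).image (fun p : K × Kᗮ => (p.1 : W) + (p.2 : W))
    (by fun_prop : Continuous fun p : K × Kᗮ => (p.1 : W) + (p.2 : W)).continuousOn
  have e : (fun p : K × Kᗮ => (p.1 : W) + (p.2 : W)) '' (Metric.sphere 0 ρ ×ˢ Metric.sphere 0 σ)
      = PrdA a K := by
    ext z
    constructor
    · rintro ⟨⟨a, b⟩, ⟨ha, hb⟩, rfl⟩
      simp only [mem_sphere_iff_norm, sub_zero] at ha hb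
      have q1 : K.starProjection (a : W) = a := Submodule.starProjection_eq_self_iff.2 a.2
      have q2 : Kᗮ.starProjection (b : W) = b := Submodule.starProjection_eq_self_iff.2 b.2
      have q3 : K.starProjection (b : W) = 0 := by
        have := proj_add K (b : W)
        rw [q2] at this
        exact add_eq_right.1 this
      have q4 : Kᗮ.starProjection (a : W) = 0 := by
        have := proj_add K (a : W)
        rw [q1] at this
        exact add_eq_left.1 this
      unfold PrdA
      simp only [mem_ofPred_eq, map_add, q1, q2, q3, q4, add_zero, zero_add]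
      rw [← Submodule.coe_norm, ← Submodule.coe_norm, ha, hb, hρ2, hσ2]
      exact ⟨rfl, rfl⟩
    · rintro ⟨h1, h2⟩
      refine ⟨(⟨K.starProjection z, Submodule.starProjection_apply_mem K z⟩,
        ⟨Kᗮ.starProjection z, Submodule.starProjection_apply_mem Kᗮ z⟩), ⟨?_, ?_⟩, proj_add K z⟩
      · rw [mem_sphere_iff_norm, sub_zero]
        change ‖K.starProjection z‖ = ρ
        rw [← abs_of_nonneg (norm_nonneg (K.starProjection z)), ← abs_of_nonneg hρ0]
        exact (sq_eq_sq_iff_abs_eq_abs _ _).1 (by rw [h1, hρ2])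
      · rw [mem_sphere_iff_norm, sub_zero]
        change ‖Kᗮ.starProjection z‖ = σ
        rw [← abs_of_nonneg (norm_nonneg (Kᗮ.starProjection z)), ← abs_of_nonneg hσ0]
        exact (sq_eq_sq_iff_abs_eq_abs _ _).1 (by rw [h2, hσ2])
  rwa [e] at c3

/-- **The range of an immersion of a closed manifold into the product of two spheres of
complementary dimensions is the whole product.** -/
theorem range_eq_prdA [IsManifold 𝓘(ℝ, V) ∞ M] [CompactSpace M] [Nonempty M] {a : ℝ} (ha : 0 < a)
    (ha1 : a < 1) (hW : finrank ℝ W = finrank ℝ V + 2)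
    (K : Submodule ℝ W) (h1 : 2 ≤ finrank ℝ K) (h2 : 2 ≤ finrank ℝ Kᗮ) {F : M → W}
    (hF : SphImm V F) (hK : ∀ x, F x ∈ PrdA a K) : range F = PrdA a K := by
  refine Subset.antisymm (by rintro _ ⟨x, rfl⟩; exact hK x) ?_
  choose U hUo hxU hU using open_rangeA ha ha1 hW K hF hK
  have hcl : IsClosed (range F) := (isCompact_range hF.smooth.continuous).isClosed
  have hpre := preconn_prdA ha ha1 K h1 h2
  by_contra hcon
  rw [not_subset] at hcon
  obtain ⟨z, hz, hzn⟩ := hcon
  obtain ⟨x₀⟩ := ‹Nonempty M›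
  have h3 := hpre (⋃ x, U x) (range F)ᶜ (isOpen_iUnion hUo) hcl.isOpen_compl ?_
    ⟨F x₀, hK x₀, mem_iUnion.2 ⟨x₀, hxU x₀⟩⟩ ⟨z, hz, hzn⟩
  · obtain ⟨w, hw, hw1, hw2⟩ := h3
    obtain ⟨x, hx⟩ := mem_iUnion.1 hw1
    exact hw2 (hU x w hx hw)
  · intro w hw
    by_cases h : w ∈ range F
    · obtain ⟨x, rfl⟩ := h
      exact Or.inl (mem_iUnion.2 ⟨x, hxU x⟩)
    · exact Or.inr h

section basis

variable {ι : Type*} [Fintype ι] [DecidableEq ι]

/-- the span of the basis vectors outside of a set of indices -/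
def outS (b : OrthonormalBasis ι ℝ W) (S : Finset ι) : Submodule ℝ W :=
  Submodule.span ℝ (Set.range fun i : {i // i ∉ S} => b i)

lemma finrank_outS (b : OrthonormalBasis ι ℝ W) (S : Finset ι) :
    finrank ℝ (outS b S) = Fintype.card {i // i ∉ S} := by
  refine finrank_span_eq_card ?_
  exact b.orthonormal.linearIndependent.comp _ Subtype.val_injective

lemma proj_outS (b : OrthonormalBasis ι ℝ W) (S : Finset ι) (z : W) :
    (outS b S).starProjection z = ∑ i, (if i ∈ S then 0 else ⟪z, b i⟫) • b i := by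
  symm
  refine (Submodule.eq_starProjection_of_mem_of_inner_eq_zero ?_ ?_).symm
  · refine Submodule.sum_mem _ fun i _ => ?_
    by_cases h : i ∈ S
    · rw [if_pos h, zero_smul]
      exact Submodule.zero_mem _
    · rw [if_neg h]
      exact Submodule.smul_mem _ _ (Submodule.subset_span ⟨⟨i, h⟩, rfl⟩)
  · intro w hw
    unfold outS at hw
    induction hw using Submodule.span_induction with
    | mem w hw =>
      obtain ⟨⟨j, hj⟩, rfl⟩ := hw
      simp only
      rw [inner_sub_left, sum_inner]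
      simp only [real_inner_smul_left, b.inner_eq_ite]
      simp [hj]
    | zero => exact inner_zero_right _
    | add u w _ _ hu hw => rw [inner_add_right, hu, hw, add_zero]
    | smul c w _ hw => rw [inner_smul_right, hw, mul_zero]

lemma norm_sum_basis (b : OrthonormalBasis ι ℝ W) (c : ι → ℝ) :
    ‖∑ i, c i • b i‖ ^ 2 = ∑ i, c i ^ 2 := by
  rw [← real_inner_self_eq_norm_sq, sum_inner]
  refine Finset.sum_congr rfl fun i _ => ?_
  rw [inner_sum]
  simp only [real_inner_smul_left, real_inner_smul_right, b.inner_eq_ite]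
  simp [sq]

lemma norm_eq_basis (b : OrthonormalBasis ι ℝ W) (z : W) : ‖z‖ ^ 2 = ∑ i, ⟪z, b i⟫ ^ 2 := by
  conv_lhs => rw [← b.sum_repr' z]
  rw [norm_sum_basis]
  exact Finset.sum_congr rfl fun i _ => by rw [real_inner_comm]

lemma norm_sub_outS (b : OrthonormalBasis ι ℝ W) (S : Finset ι) (z : W) :
    ‖z - (outS b S).starProjection z‖ ^ 2 = ∑ i, (if i ∈ S then ⟪z, b i⟫ else 0) ^ 2 := by
  have h : z - (outS b S).starProjection z = ∑ i, (if i ∈ S then ⟪z, b i⟫ else 0) • b i := by
    rw [proj_outS]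
    conv_lhs => rw [← b.sum_repr' z]
    rw [← Finset.sum_sub_distrib]
    refine Finset.sum_congr rfl fun i _ => ?_
    rw [← sub_smul, b.sum_repr', real_inner_comm z (b i)]
    split_ifs <;> simp
  rw [h, norm_sum_basis]

end basis

/-- **The image in the case of equality in dimension five.** -/
theorem range_five [IsManifold 𝓘(ℝ, V) ∞ M] [CompactSpace M] [Nonempty M]
    (hV : finrank ℝ V = 5) (hW : finrank ℝ W = finrank ℝ V + 2)
    {F : M → W} (hF : SphImm V F) (b : OrthonormalBasis (Fin 7) ℝ W) (S : Finset (Fin 7))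
    (hS : S.card = 4)
    (hN : ∀ x, IsUnitNormal V F x
      (∑ i, ((if i ∈ S then √6 / 3 else -(√6 / 2)) * ⟪F x, b i⟫) • b i)) :
    ∃ U : Submodule ℝ W, finrank ℝ U = 3 ∧
      range F = {z | ‖U.starProjection z‖ ^ 2 = 2 / 5 ∧ ‖z - U.starProjection z‖ ^ 2 = 3 / 5} := by
  have hU : finrank ℝ (outS b S) = 3 := by
    rw [finrank_outS, Fintype.card_subtype_compl, Fintype.card_fin, Fintype.card_coe, hS]
  have hU' : finrank ℝ (outS b S)ᗮ = 4 := by
    have := (outS b S).finrank_add_finrank_orthogonal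
    omega
  have hset : {z | ‖(outS b S).starProjection z‖ ^ 2 = 2 / 5 ∧
      ‖z - (outS b S).starProjection z‖ ^ 2 = 3 / 5} = PrdA (2 / 5) (outS b S) := by
    ext z
    have h : (outS b S)ᗮ.starProjection z = z - (outS b S).starProjection z := by
      rw [Submodule.starProjection_orthogonal_val]
    simp only [PrdA, Set.mem_ofPred_eq, h]
    norm_num
  refine ⟨outS b S, hU, ?_⟩
  rw [hset]
  refine range_eq_prdA (by norm_num) (by norm_num) hW (outS b S) (by omega) (by omega) hF
    fun x => ?_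
  rw [← hset]
  have h1 : ‖F x‖ ^ 2 = 1 := by rw [hF.unit, one_pow]
  have h2 := congrArg (· ^ 2) (hN x).1
  simp only [one_pow] at h2
  rw [norm_sum_basis] at h2
  rw [norm_eq_basis b] at h1
  have h3 : ‖(outS b S).starProjection (F x)‖ ^ 2
      = ∑ i, (if i ∈ S then 0 else ⟪F x, b i⟫) ^ 2 := by
    rw [proj_outS, norm_sum_basis]
  have h4 := norm_sub_outS b S (F x)
  have h6 : √6 ^ 2 = 6 := Real.sq_sqrt (by norm_num)
  have e1 : ∑ i, ⟪F x, b i⟫ ^ 2 = ‖(outS b S).starProjection (F x)‖ ^ 2
      + ‖F x - (outS b S).starProjection (F x)‖ ^ 2 := by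
    rw [h3, h4, ← Finset.sum_add_distrib]
    refine Finset.sum_congr rfl fun i _ => ?_
    split_ifs <;> ring
  have e2 : ∑ i, ((if i ∈ S then √6 / 3 else -(√6 / 2)) * ⟪F x, b i⟫) ^ 2
      = 3 / 2 * ‖(outS b S).starProjection (F x)‖ ^ 2
      + 2 / 3 * ‖F x - (outS b S).starProjection (F x)‖ ^ 2 := by
    rw [h3, h4, Finset.mul_sum, Finset.mul_sum, ← Finset.sum_add_distrib]
    refine Finset.sum_congr rfl fun i _ => ?_
    split_ifs
    · rw [mul_pow, div_pow, h6]
      ring
    · rw [mul_pow, neg_sq, div_pow, h6]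
      ring
  rw [e1] at h1
  rw [e2] at h2
  constructor <;> linarith

end Vale.Agent.P224.RIG
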