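import Vale.Agent.P224.RIG.VolPrd
import Vale.Agent.P224.RIG.Least

/-!
The volume of the least Clifford hypersurface, in every dimension, in terms of `volM`.
-/

namespace Vale.Agent.P224.RIG

open Set Filter Function Module MeasureTheory Vale.Agent.P224
open scoped Topology RealInnerProductSpace ContDiff Manifold ENNReal

variable {V W M : Type*} [NormedAddCommGroup V] [InnerProductSpace ℝ V] [FiniteDimensional ℝ V]
  [NormedAddCommGroup W] [InnerProductSpace ℝ W] [FiniteDimensional ℝ W]
  [TopologicalSpace M] [ChartedSpace V M]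
  [MeasurableSpace V] [BorelSpace V] [MeasurableSpace W] [BorelSpace W]
  [MeasurableSpace M] [BorelSpace M] [IsManifold 𝓘(ℝ, V) ∞ M] [CompactSpace M] [Nonempty M]

/-- The volume of an injective immersion into the balanced minimal product of two spheres. -/
theorem volM_least {m : ℕ} (hm : 2 ≤ m) (hV : finrank ℝ V = m)
    (hW : finrank ℝ W = finrank ℝ V + 2) (K : Submodule ℝ W) (hk : finrank ℝ K = m / 2 + 1)
    {F : M → W} (hF : SphImm V F) (hinj : Injective F)
    (hK : ∀ x, ‖K.starProjection (F x)‖ ^ 2 = ((m / 2 : ℕ) : ℝ) / m ∧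
      ‖F x - K.starProjection (F x)‖ ^ 2 = ((m - m / 2 : ℕ) : ℝ) / m) :
    volM V F univ = ENNReal.ofReal (leastClifford m) := by
  rw [leastClifford_eq hm]
  exact volM_clifford hV (by omega) (by omega) hW K hk hF hinj hK

/-- The volume of the minimal Clifford hypersurface of dimension five. -/
theorem volM_five (hV : finrank ℝ V = 5) (hW : finrank ℝ W = finrank ℝ V + 2)
    {F : M → W} (hF : SphImm V F) (hinj : Injective F) {U : Submodule ℝ W}
    (hU : finrank ℝ U = 3)
    (hK : ∀ x, ‖U.starProjection (F x)‖ ^ 2 = 2 / 5 ∧ ‖F x - U.starProjection (F x)‖ ^ 2 = 3 / 5) :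
    volM V F univ = ENNReal.ofReal (leastClifford (finrank ℝ V)) := by
  rw [hV]
  refine volM_least (m := 5) (by norm_num) hV hW U (by rw [hU]) hF hinj fun x => ?_
  rw [(hK x).1, (hK x).2]
  norm_num

end Vale.Agent.P224.RIG
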