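import Vale.Agent.P224.Bdl.B1

/-!
The least of the volumes of the minimal Clifford products in even dimension.
-/

namespace Vale.Agent.P224.RIG.CM

open Set Vale.Agent.P224

/-- the volume of the sphere of dimension k and radius `√k` -/
noncomputable def Gk (k : ℕ) : ℝ := (k : ℝ) ^ ((k : ℝ) / 2) * sphereVol k

lemma sphereVol_add_two (k : ℕ) : sphereVol (k + 2) = 2 * Real.pi / (k + 1) * sphereVol k := by
  unfold sphereVol
  have e1 : (((k + 2 : ℕ) : ℝ) + 1) / 2 = ((k : ℝ) + 1) / 2 + 1 := by push_cast; ring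
  have h1 : (0 : ℝ) < ((k : ℝ) + 1) / 2 := by positivity
  have h2 := Real.Gamma_pos_of_pos h1
  rw [e1, Real.Gamma_add_one h1.ne', Real.rpow_add Real.pi_pos, Real.rpow_one]
  field_simp

lemma sphereVol_one : sphereVol 1 = 2 * Real.pi := by
  unfold sphereVol
  norm_num

lemma sphereVol_two : sphereVol 2 = 4 * Real.pi := by
  unfold sphereVol
  have e1 : (((2 : ℕ) : ℝ) + 1) / 2 = 1 / 2 + 1 := by norm_num
  have h1 : 0 < Real.sqrt Real.pi := Real.sqrt_pos.2 Real.pi_pos
  rw [e1, Real.Gamma_add_one (by norm_num), Real.Gamma_one_half_eq, Real.rpow_add Real.pi_pos,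
    Real.rpow_one, ← Real.sqrt_eq_rpow]
  field_simp
  norm_num

lemma Gk_pos {k : ℕ} (hk : 1 ≤ k) : 0 < Gk k := by
  have h1 : (0 : ℝ) < k := by exact_mod_cast hk
  exact mul_pos (Real.rpow_pos_of_pos h1 _) (sphereVol_pos' k)

lemma Gk_sq (k : ℕ) : Gk k ^ 2 = (k : ℝ) ^ k * sphereVol k ^ 2 := by
  have h1 : ((k : ℝ) ^ ((k : ℝ) / 2)) ^ 2 = (k : ℝ) ^ k := by
    rw [← Real.rpow_natCast, ← Real.rpow_mul (Nat.cast_nonneg k)]
    rw [show (k : ℝ) / 2 * ((2 : ℕ) : ℝ) = (k : ℝ) by push_cast; ring, Real.rpow_natCast]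
  unfold Gk
  rw [mul_pow, h1]

lemma Gk_convex_of {a : ℕ} (ha : 1 ≤ a)
    (h : ((a + 1 : ℕ) : ℝ) ^ (2 * (a + 1)) * sphereVol (a + 1) ^ 4
      ≤ (a : ℝ) ^ a * ((a + 2 : ℕ) : ℝ) ^ (a + 2) * (sphereVol a ^ 2 * sphereVol (a + 2) ^ 2)) :
    Gk (a + 1) ^ 2 ≤ Gk a * Gk (a + 2) := by
  have h1 := (mul_pos (Gk_pos ha) (Gk_pos (k := a + 2) (by omega))).le
  refine abs_le_of_sq_le_sq' ?_ h1 |>.2
  rw [mul_pow, Gk_sq a, Gk_sq (a + 2), Gk_sq (a + 1)]
  refine le_trans (le_of_eq ?_) (h.trans (le_of_eq ?_))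
  · rw [mul_pow, ← pow_mul, ← pow_mul]
    ring
  · ring

lemma pi_sq_lower : (98696 / 10000 : ℝ) < Real.pi ^ 2 := by
  have h := Real.pi_gt_d6
  nlinarith

lemma pi_sq_upper : Real.pi ^ 2 < (986961 / 100000 : ℝ) := by
  have h := Real.pi_lt_d6
  have h0 := Real.pi_pos
  nlinarith

lemma sv3 : sphereVol 3 = 2 * Real.pi ^ 2 := by
  have h := sphereVol_add_two 1
  rw [sphereVol_one] at h
  rw [show (3 : ℕ) = 1 + 2 by norm_num, h]
  push_cast
  ring

lemma sv4 : sphereVol 4 = 8 / 3 * Real.pi ^ 2 := by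
  have h := sphereVol_add_two 2
  rw [sphereVol_two] at h
  rw [show (4 : ℕ) = 2 + 2 by norm_num, h]
  push_cast
  ring

lemma sv5 : sphereVol 5 = 1 * Real.pi ^ 3 := by
  have h := sphereVol_add_two 3
  rw [sv3] at h
  rw [show (5 : ℕ) = 3 + 2 by norm_num, h]
  push_cast
  ring

lemma sv6 : sphereVol 6 = 16 / 15 * Real.pi ^ 3 := by
  have h := sphereVol_add_two 4
  rw [sv4] at h
  rw [show (6 : ℕ) = 4 + 2 by norm_num, h]
  push_cast
  ring

lemma sv7 : sphereVol 7 = 1 / 3 * Real.pi ^ 4 := by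
  have h := sphereVol_add_two 5
  rw [sv5] at h
  rw [show (7 : ℕ) = 5 + 2 by norm_num, h]
  push_cast
  ring

lemma sv8 : sphereVol 8 = 32 / 105 * Real.pi ^ 4 := by
  have h := sphereVol_add_two 6
  rw [sv6] at h
  rw [show (8 : ℕ) = 6 + 2 by norm_num, h]
  push_cast
  ring

lemma sv9 : sphereVol 9 = 1 / 12 * Real.pi ^ 5 := by
  have h := sphereVol_add_two 7
  rw [sv7] at h
  rw [show (9 : ℕ) = 7 + 2 by norm_num, h]
  push_cast
  ring

lemma sv10 : sphereVol 10 = 64 / 945 * Real.pi ^ 5 := by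
  have h := sphereVol_add_two 8
  rw [sv8] at h
  rw [show (10 : ℕ) = 8 + 2 by norm_num, h]
  push_cast
  ring

lemma sv11 : sphereVol 11 = 1 / 60 * Real.pi ^ 6 := by
  have h := sphereVol_add_two 9
  rw [sv9] at h
  rw [show (11 : ℕ) = 9 + 2 by norm_num, h]
  push_cast
  ring

lemma sv12 : sphereVol 12 = 128 / 10395 * Real.pi ^ 6 := by
  have h := sphereVol_add_two 10
  rw [sv10] at h
  rw [show (12 : ℕ) = 10 + 2 by norm_num, h]
  push_cast
  ring

lemma sv13 : sphereVol 13 = 1 / 360 * Real.pi ^ 7 := by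
  have h := sphereVol_add_two 11
  rw [sv11] at h
  rw [show (13 : ℕ) = 11 + 2 by norm_num, h]
  push_cast
  ring

lemma sv14 : sphereVol 14 = 256 / 135135 * Real.pi ^ 7 := by
  have h := sphereVol_add_two 12
  rw [sv12] at h
  rw [show (14 : ℕ) = 12 + 2 by norm_num, h]
  push_cast
  ring

lemma sv15 : sphereVol 15 = 1 / 2520 * Real.pi ^ 8 := by
  have h := sphereVol_add_two 13
  rw [sv13] at h
  rw [show (15 : ℕ) = 13 + 2 by norm_num, h]
  push_cast
  ring

lemma sv16 : sphereVol 16 = 512 / 2027025 * Real.pi ^ 8 := by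
  have h := sphereVol_add_two 14
  rw [sv14] at h
  rw [show (16 : ℕ) = 14 + 2 by norm_num, h]
  push_cast
  ring

lemma cx1 : Gk (1 + 1) ^ 2 ≤ Gk 1 * Gk (1 + 2) := by
  refine Gk_convex_of (by norm_num) ?_
  rw [sphereVol_one, show (1 + 1 : ℕ) = 2 by norm_num, show (1 + 2 : ℕ) = 3 by norm_num, sphereVol_two, sv3]
  have h : (4096 : ℝ) ≤ 432 * Real.pi ^ 2 := by
    have := pi_sq_lower
    linarith
  have h2 := mul_le_mul_of_nonneg_right h (pow_pos Real.pi_pos 4).le
  refine le_trans (le_of_eq ?_) (h2.trans (le_of_eq ?_))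
  · push_cast
    ring
  · push_cast
    ring

lemma cx2 : Gk (2 + 1) ^ 2 ≤ Gk 2 * Gk (2 + 2) := by
  refine Gk_convex_of (by norm_num) ?_
  rw [sphereVol_two, show (2 + 1 : ℕ) = 3 by norm_num, show (2 + 2 : ℕ) = 4 by norm_num, sv3, sv4]
  have h : (11664 : ℝ) * Real.pi ^ 2 ≤ 1048576 / 9 := by
    have := pi_sq_upper
    linarith
  have h2 := mul_le_mul_of_nonneg_right h (pow_pos Real.pi_pos 6).le
  refine le_trans (le_of_eq ?_) (h2.trans (le_of_eq ?_))
  · push_cast
    ring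
  · push_cast
    ring

lemma cx3 : Gk (3 + 1) ^ 2 ≤ Gk 3 * Gk (3 + 2) := by
  refine Gk_convex_of (by norm_num) ?_
  rw [sv3, show (3 + 1 : ℕ) = 4 by norm_num, show (3 + 2 : ℕ) = 5 by norm_num, sv4, sv5]
  have h : (268435456 / 81 : ℝ) ≤ 337500 * Real.pi ^ 2 := by
    have := pi_sq_lower
    linarith
  have h2 := mul_le_mul_of_nonneg_right h (pow_pos Real.pi_pos 8).le
  refine le_trans (le_of_eq ?_) (h2.trans (le_of_eq ?_))
  · push_cast
    ring
  · push_cast
    ring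

lemma cx4 : Gk (4 + 1) ^ 2 ≤ Gk 4 * Gk (4 + 2) := by
  refine Gk_convex_of (by norm_num) ?_
  rw [sv4, show (4 + 1 : ℕ) = 5 by norm_num, show (4 + 2 : ℕ) = 6 by norm_num, sv5, sv6]
  have h : (9765625 : ℝ) * Real.pi ^ 2 ≤ 2415919104 / 25 := by
    have := pi_sq_upper
    linarith
  have h2 := mul_le_mul_of_nonneg_right h (pow_pos Real.pi_pos 10).le
  refine le_trans (le_of_eq ?_) (h2.trans (le_of_eq ?_))
  · push_cast
    ring
  · push_cast
    ring

lemma cx5 : Gk (5 + 1) ^ 2 ≤ Gk 5 * Gk (5 + 2) := by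
  refine Gk_convex_of (by norm_num) ?_
  rw [sv5, show (5 + 1 : ℕ) = 6 by norm_num, show (5 + 2 : ℕ) = 7 by norm_num, sv6, sv7]
  have h : (1761205026816 / 625 : ℝ) ≤ 2573571875 / 9 * Real.pi ^ 2 := by
    have := pi_sq_lower
    linarith
  have h2 := mul_le_mul_of_nonneg_right h (pow_pos Real.pi_pos 12).le
  refine le_trans (le_of_eq ?_) (h2.trans (le_of_eq ?_))
  · push_cast
    ring
  · push_cast
    ring

lemma cx6 : Gk (6 + 1) ^ 2 ≤ Gk 6 * Gk (6 + 2) := by
  refine Gk_convex_of (by norm_num) ?_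
  rw [sv6, show (6 + 1 : ℕ) = 7 by norm_num, show (6 + 2 : ℕ) = 8 by norm_num, sv7, sv8]
  have h : (678223072849 / 81 : ℝ) * Real.pi ^ 2 ≤ 2533274790395904 / 30625 := by
    have := pi_sq_upper
    linarith
  have h2 := mul_le_mul_of_nonneg_right h (pow_pos Real.pi_pos 14).le
  refine le_trans (le_of_eq ?_) (h2.trans (le_of_eq ?_))
  · push_cast
    ring
  · push_cast
    ring

lemma cx7 : Gk (7 + 1) ^ 2 ≤ Gk 7 * Gk (7 + 2) := by
  refine Gk_convex_of (by norm_num) ?_
  rw [sv7, show (7 + 1 : ℕ) = 8 by norm_num, show (7 + 2 : ℕ) = 9 by norm_num, sv8, sv9]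
  have h : (295147905179352825856 / 121550625 : ℝ) ≤ 3938980639167 / 16 * Real.pi ^ 2 := by
    have := pi_sq_lower
    linarith
  have h2 := mul_le_mul_of_nonneg_right h (pow_pos Real.pi_pos 16).le
  refine le_trans (le_of_eq ?_) (h2.trans (le_of_eq ?_))
  · push_cast
    ring
  · push_cast
    ring

lemma cx8 : Gk (8 + 1) ^ 2 ≤ Gk 8 * Gk (8 + 2) := by
  refine Gk_convex_of (by norm_num) ?_
  rw [sv8, show (8 + 1 : ℕ) = 9 by norm_num, show (8 + 2 : ℕ) = 10 by norm_num, sv9, sv10]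
  have h : (1853020188851841 / 256 : ℝ) * Real.pi ^ 2 ≤ 1125899906842624000000 / 15752961 := by
    have := pi_sq_upper
    linarith
  have h2 := mul_le_mul_of_nonneg_right h (pow_pos Real.pi_pos 18).le
  refine le_trans (le_of_eq ?_) (h2.trans (le_of_eq ?_))
  · push_cast
    ring
  · push_cast
    ring

lemma cx9 : Gk (9 + 1) ^ 2 ≤ Gk 9 * Gk (9 + 2) := by
  refine Gk_convex_of (by norm_num) ?_
  rw [sv9, show (9 + 1 : ℕ) = 10 by norm_num, show (9 + 2 : ℕ) = 11 by norm_num, sv10, sv11]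
  have h : (2684354560000000000000000 / 1275989841 : ℝ) ≤ 1364636875870624059 / 6400 * Real.pi ^ 2 := by
    have := pi_sq_lower
    linarith
  have h2 := mul_le_mul_of_nonneg_right h (pow_pos Real.pi_pos 20).le
  refine le_trans (le_of_eq ?_) (h2.trans (le_of_eq ?_))
  · push_cast
    ring
  · push_cast
    ring

lemma cx10 : Gk (10 + 1) ^ 2 ≤ Gk 10 * Gk (10 + 2) := by
  refine Gk_convex_of (by norm_num) ?_
  rw [sv10, show (10 + 1 : ℕ) = 11 by norm_num, show (10 + 2 : ℕ) = 12 by norm_num, sv11, sv12]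
  have h : (81402749386839761113321 / 12960000 : ℝ) * Real.pi ^ 2 ≤ 18014398509481984000000 / 290521 := by
    have := pi_sq_upper
    linarith
  have h2 := mul_le_mul_of_nonneg_right h (pow_pos Real.pi_pos 22).le
  refine le_trans (le_of_eq ?_) (h2.trans (le_of_eq ?_))
  · push_cast
    ring
  · push_cast
    ring

lemma cx11 : Gk (11 + 1) ^ 2 ≤ Gk 11 * Gk (11 + 2) := by
  refine Gk_convex_of (by norm_num) ?_
  rw [sv11, show (11 + 1 : ℕ) = 12 by norm_num, show (11 + 2 : ℕ) = 13 by norm_num, sv12, sv13]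
  have h : (40154546656363633952189054976 / 21970650625 : ℝ) ≤ 86413802648320402620376583 / 466560000 * Real.pi ^ 2 := by
    have := pi_sq_lower
    linarith
  have h2 := mul_le_mul_of_nonneg_right h (pow_pos Real.pi_pos 24).le
  refine le_trans (le_of_eq ?_) (h2.trans (le_of_eq ?_))
  · push_cast
    ring
  · push_cast
    ring

lemma cx12 : Gk (12 + 1) ^ 2 ≤ Gk 12 * Gk (12 + 2) := by
  refine Gk_convex_of (by norm_num) ?_
  rw [sv12, show (12 + 1 : ℕ) = 13 by norm_num, show (12 + 2 : ℕ) = 14 by norm_num, sv13, sv14]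
  have h : (91733330193268616658399616009 / 16796160000 : ℝ) * Real.pi ^ 2 ≤ 83371978007366079142527238144 / 1546455625 := by
    have := pi_sq_upper
    linarith
  have h2 := mul_le_mul_of_nonneg_right h (pow_pos Real.pi_pos 26).le
  refine le_trans (le_of_eq ?_) (h2.trans (le_of_eq ?_))
  · push_cast
    ring
  · push_cast
    ring

lemma cx13 : Gk (13 + 1) ^ 2 ≤ Gk 13 * Gk (13 + 2) := by
  refine Gk_convex_of (by norm_num) ?_
  rw [sv13, show (13 + 1 : ℕ) = 14 by norm_num, show (13 + 2 : ℕ) = 15 by norm_num, sv14, sv15]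
  have h : (220878121537715117784741212850409701376 / 138892637123150625 : ℝ) ≤ 32343157134631704638671875 / 200704 * Real.pi ^ 2 := by
    have := pi_sq_lower
    linarith
  have h2 := mul_le_mul_of_nonneg_right h (pow_pos Real.pi_pos 28).le
  refine le_trans (le_of_eq ?_) (h2.trans (le_of_eq ?_))
  · push_cast
    ring
  · push_cast
    ring

lemma cx14 : Gk (14 + 1) ^ 2 ≤ Gk 14 * Gk (14 + 2) := by
  refine Gk_convex_of (by norm_num) ?_
  rw [sv14, show (14 + 1 : ℕ) = 15 by norm_num, show (14 + 2 : ℕ) = 16 by norm_num, sv15, sv16]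
  have h : (46761422766745090484619140625 / 9834496 : ℝ) * Real.pi ^ 2 ≤ 1466695347996543209541231454690032593403904 / 31250843352708890625 := by
    have := pi_sq_upper
    linarith
  have h2 := mul_le_mul_of_nonneg_right h (pow_pos Real.pi_pos 30).le
  refine le_trans (le_of_eq ?_) (h2.trans (le_of_eq ?_))
  · push_cast
    ring
  · push_cast
    ring

lemma Gk_convex {a : ℕ} (ha : 1 ≤ a) (h14 : a ≤ 14) : Gk (a + 1) ^ 2 ≤ Gk a * Gk (a + 2) := by
  interval_cases a
  · exact cx1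
  · exact cx2
  · exact cx3
  · exact cx4
  · exact cx5
  · exact cx6
  · exact cx7
  · exact cx8
  · exact cx9
  · exact cx10
  · exact cx11
  · exact cx12
  · exact cx13
  · exact cx14

lemma Gk_ratio {a : ℕ} (ha : 1 ≤ a) : ∀ d : ℕ, a + d ≤ 15 →
    Gk (a + 1) * Gk (a + d) ≤ Gk a * Gk (a + d + 1) := by
  intro d
  induction d with
  | zero =>
    intro _
    rw [add_zero, mul_comm]
  | succ d ih =>
    intro hd
    have h1 := ih (by omega)
    have h2 := Gk_convex (a := a + d) (by omega) (by omega)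
    have p0 := Gk_pos (k := a + d) (by omega)
    have p1 := Gk_pos (k := a + d + 1) (by omega)
    have p2 := Gk_pos ha
    rw [show a + (d + 1) = a + d + 1 by ring, show a + d + 1 + 1 = a + d + 2 by ring]
    have h3 : Gk (a + 1) * Gk (a + d + 1) * Gk (a + d) ≤ Gk a * Gk (a + d + 2) * Gk (a + d) := by
      calc Gk (a + 1) * Gk (a + d + 1) * Gk (a + d)
          = (Gk (a + 1) * Gk (a + d)) * Gk (a + d + 1) := by ring
        _ ≤ (Gk a * Gk (a + d + 1)) * Gk (a + d + 1) := mul_le_mul_of_nonneg_right h1 p1.le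
        _ = Gk a * Gk (a + d + 1) ^ 2 := by ring
        _ ≤ Gk a * (Gk (a + d) * Gk (a + d + 2)) := mul_le_mul_of_nonneg_left h2 p2.le
        _ = _ := by ring
    exact le_of_mul_le_mul_right h3 p0

lemma Gk_center {h : ℕ} (h8 : h ≤ 8) : ∀ j : ℕ, j < h → Gk h * Gk h ≤ Gk (h - j) * Gk (h + j) := by
  intro j
  induction j with
  | zero =>
    intro _
    simp
  | succ j ih =>
    intro hj
    refine (ih (by omega)).trans ?_
    have h1 := Gk_ratio (a := h - (j + 1)) (by omega) (2 * j + 1) (by omega)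
    rw [show h - (j + 1) + 1 = h - j by omega, show h - (j + 1) + (2 * j + 1) = h + j by omega,
      show h + j + 1 = h + (j + 1) by ring] at h1
    exact h1

lemma cliffordVol_eq {m k : ℕ} (hk : 1 ≤ k) (hkm : k < m) :
    cliffordVol m k = Gk k * Gk (m - k) / (m : ℝ) ^ ((m : ℝ) / 2) := by
  have h0 : (0 : ℝ) < m := by
    have : 0 < m := by omega
    exact_mod_cast this
  have h1 : (0 : ℝ) ≤ k := Nat.cast_nonneg k
  have h2 : (0 : ℝ) ≤ ((m - k : ℕ) : ℝ) := Nat.cast_nonneg _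
  have e1 : (m : ℝ) ^ ((m : ℝ) / 2) = (m : ℝ) ^ ((k : ℝ) / 2) * (m : ℝ) ^ (((m - k : ℕ) : ℝ) / 2) := by
    rw [← Real.rpow_add h0]
    congr 1
    rw [Nat.cast_sub hkm.le]
    ring
  have p1 := Real.rpow_pos_of_pos h0 ((k : ℝ) / 2)
  have p2 := Real.rpow_pos_of_pos h0 (((m - k : ℕ) : ℝ) / 2)
  unfold cliffordVol Gk
  rw [Real.div_rpow h1 h0.le, Real.div_rpow h2 h0.le, e1]
  field_simp

/-- the Clifford product with equal factors is the least one -/
theorem cliffordVol_center {h k : ℕ} (h8 : h ≤ 8) (hk : 1 ≤ k) (hk2 : k < 2 * h) :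
    cliffordVol (2 * h) h ≤ cliffordVol (2 * h) k := by
  have hp : (0 : ℝ) < (((2 * h : ℕ) : ℝ)) ^ ((((2 * h : ℕ) : ℝ)) / 2) := by
    have h0 : (0 : ℝ) < ((2 * h : ℕ) : ℝ) := by
      have : 0 < 2 * h := by omega
      exact_mod_cast this
    exact Real.rpow_pos_of_pos h0 _
  rw [cliffordVol_eq (by omega) (by omega), cliffordVol_eq hk hk2]
  refine div_le_div_of_nonneg_right ?_ hp.le
  rw [show 2 * h - h = h by omega]
  rcases le_total k h with hkh | hkh
  · have := Gk_center h8 (h - k) (by omega)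
    rwa [show h - (h - k) = k by omega, show h + (h - k) = 2 * h - k by omega] at this
  · have := Gk_center h8 (k - h) (by omega)
    rw [show h - (k - h) = 2 * h - k by omega, show h + (k - h) = k by omega] at this
    rwa [mul_comm (Gk k)]

/-- the least value in even dimension at most 16 -/
theorem leastClifford_eq {h : ℕ} (h1 : 1 ≤ h) (h8 : h ≤ 8) :
    leastClifford (2 * h) = cliffordVol (2 * h) h := by
  refine le_antisymm (leastClifford_le h1 (by omega)) ?_
  unfold leastClifford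
  have : Nonempty (Set.Ico 1 (2 * h)) := ⟨⟨h, by simp only [Set.mem_Ico]; omega⟩⟩
  refine le_ciInf fun k => ?_
  exact cliffordVol_center h8 k.2.1 k.2.2

theorem leastClifford_eq' {h : ℕ} (h1 : 1 ≤ h) (h8 : h ≤ 8) :
    leastClifford (2 * h) = evenRatio h * sphereVol (2 * h) := by
  rw [leastClifford_eq h1 h8, clifford_even h1]

end Vale.Agent.P224.RIG.CM
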