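import Vale.Agent.P224.MathlibUsed
import Mathlib.Analysis.InnerProductSpace.ProdL2

/-! R4a of the rigidity part of P224: a symmetric involution of trace zero on a
`(2h+2)`-dimensional space is, in a suitable orthonormal frame, `(u, v) ↦ (u, -v)` on
`R^(h+1) × R^(h+1)`. -/

noncomputable section

open Module

namespace Vale.Agent.P224.RIG

variable {W : Type*} [NormedAddCommGroup W] [InnerProductSpace ℝ W] [FiniteDimensional ℝ W]

/-- The fixed space of `A`. -/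
def fixA (A : W →ₗ[ℝ] W) : Submodule ℝ W := LinearMap.ker (A - LinearMap.id)

omit [FiniteDimensional ℝ W] in
theorem mem_fixA {A : W →ₗ[ℝ] W} {w : W} : w ∈ fixA A ↔ A w = w := by
  simp [fixA, sub_eq_zero]

omit [FiniteDimensional ℝ W] in
theorem isProj_fixA {A : W →ₗ[ℝ] W} (hA2 : ∀ w, A (A w) = w) :
    LinearMap.IsProj (fixA A) ((1 / 2 : ℝ) • (LinearMap.id + A)) := by
  refine ⟨fun w => ?_, fun w hw => ?_⟩
  · rw [mem_fixA]
    simp only [LinearMap.smul_apply, LinearMap.add_apply, LinearMap.id_coe, id_eq, map_smul,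
      map_add, hA2, add_comm]
  · rw [mem_fixA] at hw
    simp only [LinearMap.smul_apply, LinearMap.add_apply, LinearMap.id_coe, id_eq, hw]
    rw [← two_smul ℝ w, smul_smul]
    norm_num

omit [FiniteDimensional ℝ W] in
theorem mem_fixA_orth {A : W →ₗ[ℝ] W} (hA : A.IsSymmetric) (hA2 : ∀ w, A (A w) = w) {w : W} :
    w ∈ (fixA A)ᗮ ↔ A w = -w := by
  constructor
  · intro hw
    have h1 : w + A w ∈ fixA A := by
      rw [mem_fixA, map_add, hA2, add_comm]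
    have h2 : inner ℝ (w + A w) (w + A w) = (0 : ℝ) := by
      rw [Submodule.mem_orthogonal] at hw
      have h3 : inner ℝ (w + A w) w = (0 : ℝ) := hw _ h1
      have h4 : inner ℝ (w + A w) (A w) = inner ℝ (w + A w) w := by
        rw [← hA (w + A w) w, (mem_fixA.1 h1)]
      rw [inner_add_right, h4, h3, add_zero]
    have h5 : w + A w = 0 := inner_self_eq_zero.1 h2
    exact eq_neg_of_add_eq_zero_right h5
  · intro hw
    rw [Submodule.mem_orthogonal]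
    intro u hu
    have h1 : inner ℝ (A u) w = inner ℝ u (A w) := hA u w
    rw [mem_fixA.1 hu, hw, inner_neg_right] at h1
    linarith

theorem finrank_fixA {h : ℕ} (hW : finrank ℝ W = 2 * h + 2)
    {A : W →ₗ[ℝ] W} (hA2 : ∀ w, A (A w) = w)
    (htr : LinearMap.trace ℝ W A = 0) : finrank ℝ (fixA A) = h + 1 := by
  have h1 := (isProj_fixA hA2).trace
  rw [map_smul, map_add, LinearMap.trace_id, htr, hW] at h1
  have h2 : ((finrank ℝ (fixA A) : ℕ) : ℝ) = ((h + 1 : ℕ) : ℝ) := by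
    rw [← h1]
    push_cast
    simp only [smul_eq_mul]
    ring
  exact_mod_cast h2

/-- R4a: the linear isometry. -/
theorem exists_iso {h : ℕ} (hW : finrank ℝ W = 2 * h + 2)
    {A : W →ₗ[ℝ] W} (hA : A.IsSymmetric) (hA2 : ∀ w, A (A w) = w)
    (htr : LinearMap.trace ℝ W A = 0) :
    ∃ φ : W ≃ₗᵢ[ℝ] WithLp 2 (EuclideanSpace ℝ (Fin (h + 1)) × EuclideanSpace ℝ (Fin (h + 1))),
      ∀ w, φ (A w) = WithLp.toLp 2 ((φ w).fst, -(φ w).snd) := by
  have hd1 : finrank ℝ (fixA A) = h + 1 := finrank_fixA hW hA2 htr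
  have hd2 : finrank ℝ (fixA A)ᗮ = h + 1 := by
    have := Submodule.finrank_add_finrank_orthogonal (fixA A)
    omega
  let e1 : fixA A ≃ₗᵢ[ℝ] EuclideanSpace ℝ (Fin (h + 1)) :=
    ((stdOrthonormalBasis ℝ (fixA A)).reindex (finCongr hd1)).repr
  let e2 : (fixA A)ᗮ ≃ₗᵢ[ℝ] EuclideanSpace ℝ (Fin (h + 1)) :=
    ((stdOrthonormalBasis ℝ (fixA A)ᗮ).reindex (finCongr hd2)).repr
  refine ⟨(fixA A).orthogonalDecomposition.trans (LinearIsometryEquiv.withLpProdCongr 2 e1 e2),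
    fun w => ?_⟩
  obtain ⟨u, hu, v, hv, rfl⟩ := (fixA A).exists_add_mem_mem_orthogonal w
  have hAw : A (u + v) = u + -v := by
    rw [map_add, mem_fixA.1 hu, (mem_fixA_orth hA hA2).1 hv]
  have hp : ∀ a ∈ fixA A, ∀ b ∈ (fixA A)ᗮ, (fixA A).orthogonalDecomposition (a + b) =
      WithLp.toLp 2 ((fixA A).orthogonalProjectionOnto a, (fixA A)ᗮ.orthogonalProjectionOnto b) := by
    intro a ha b hb
    rw [Submodule.orthogonalDecomposition_apply, map_add, map_add,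
      Submodule.orthogonalProjectionOnto_eq_zero_iff.2 hb,
      Submodule.orthogonalProjectionOnto_eq_zero_iff.2 (Submodule.le_orthogonal_orthogonal _ ha),
      add_zero, zero_add]
  rw [hAw]
  simp only [LinearIsometryEquiv.trans_apply, hp u hu v hv, hp u hu (-v) (neg_mem hv),
    LinearIsometryEquiv.withLpProdCongr_apply, map_neg, WithLp.toLp_fst, WithLp.toLp_snd]

section Proj

variable {h : ℕ} {A : W →ₗ[ℝ] W}
  {φ : W ≃ₗᵢ[ℝ] WithLp 2 (EuclideanSpace ℝ (Fin (h + 1)) × EuclideanSpace ℝ (Fin (h + 1)))}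

omit [FiniteDimensional ℝ W] in
/-- The first component of `φ w` has the norm of `P₊ w = (w + A w) / 2`. -/
theorem norm_fst_eq (hφ : ∀ w, φ (A w) = WithLp.toLp 2 ((φ w).fst, -(φ w).snd)) (w : W) :
    ‖(φ w).fst‖ = ‖(1 / 2 : ℝ) • (w + A w)‖ := by
  have h1 : φ ((1 / 2 : ℝ) • (w + A w)) = WithLp.toLp 2 ((φ w).fst, 0) := by
    apply WithLp.ofLp_injective
    rw [map_smul, map_add, hφ]
    refine Prod.ext ?_ ?_
    · change (1 / 2 : ℝ) • ((φ w).fst + (φ w).fst) = (φ w).fst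
      rw [← two_smul ℝ (φ w).fst, smul_smul]
      norm_num
    · change (1 / 2 : ℝ) • ((φ w).snd + -(φ w).snd) = 0
      simp
  have h2 : ‖WithLp.toLp 2 ((φ w).fst, (0 : EuclideanSpace ℝ (Fin (h + 1))))‖ ^ 2 =
      ‖(φ w).fst‖ ^ 2 := by
    rw [WithLp.prod_norm_sq_eq_of_L2]
    simp
  rw [← φ.norm_map, h1]
  exact ((sq_eq_sq₀ (norm_nonneg _) (norm_nonneg _)).1 h2).symm

omit [FiniteDimensional ℝ W] in
/-- The second component of `φ w` has the norm of `P₋ w = (w - A w) / 2`. -/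
theorem norm_snd_eq (hφ : ∀ w, φ (A w) = WithLp.toLp 2 ((φ w).fst, -(φ w).snd)) (w : W) :
    ‖(φ w).snd‖ = ‖(1 / 2 : ℝ) • (w - A w)‖ := by
  have h1 : φ ((1 / 2 : ℝ) • (w - A w)) = WithLp.toLp 2 (0, (φ w).snd) := by
    apply WithLp.ofLp_injective
    rw [map_smul, map_sub, hφ]
    refine Prod.ext ?_ ?_
    · change (1 / 2 : ℝ) • ((φ w).fst - (φ w).fst) = 0
      simp
    · change (1 / 2 : ℝ) • ((φ w).snd - -(φ w).snd) = (φ w).snd
      rw [sub_neg_eq_add, ← two_smul ℝ (φ w).snd, smul_smul]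
      norm_num
  have h2 : ‖WithLp.toLp 2 ((0 : EuclideanSpace ℝ (Fin (h + 1))), (φ w).snd)‖ ^ 2 =
      ‖(φ w).snd‖ ^ 2 := by
    rw [WithLp.prod_norm_sq_eq_of_L2]
    simp
  rw [← φ.norm_map, h1]
  exact ((sq_eq_sq₀ (norm_nonneg _) (norm_nonneg _)).1 h2).symm

omit [FiniteDimensional ℝ W] in
/-- The image under `φ` of the Clifford set written with the projections `(1 ± A) / 2`. -/
theorem image_clifford (hφ : ∀ w, φ (A w) = WithLp.toLp 2 ((φ w).fst, -(φ w).snd)) :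
    φ '' {w | ‖(1 / 2 : ℝ) • (w + A w)‖ ^ 2 = 1 / 2 ∧ ‖(1 / 2 : ℝ) • (w - A w)‖ ^ 2 = 1 / 2} =
      {z | ‖z.fst‖ ^ 2 = 1 / 2 ∧ ‖z.snd‖ ^ 2 = 1 / 2} := by
  ext z
  constructor
  · rintro ⟨w, ⟨h1, h2⟩, rfl⟩
    exact ⟨by rw [norm_fst_eq hφ, h1], by rw [norm_snd_eq hφ, h2]⟩
  · rintro ⟨h1, h2⟩
    obtain ⟨w, rfl⟩ := φ.surjective z
    exact ⟨w, ⟨by rw [← norm_fst_eq hφ, h1], by rw [← norm_snd_eq hφ, h2]⟩, rfl⟩

end Proj

end Vale.Agent.P224.RIG
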