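import Vale.Agent.P224.MathlibUsed
import Vale.Agent.P224.RIG.Iso

/-! The Submodule form of the rigidity part of P224: the two projections `(1 ± A) / 2` of a
symmetric involution `A` are the orthogonal projections on `U = ker (A - 1)` and `Uᗮ`. -/

noncomputable section

open Module
open scoped RealInnerProductSpace

namespace Vale.Agent.P224.RIG

variable {W : Type*} [NormedAddCommGroup W] [InnerProductSpace ℝ W] [FiniteDimensional ℝ W]

/-- The orthogonal projection on the fixed space of a symmetric involution. -/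
theorem starProjection_fixA {A : W →ₗ[ℝ] W} (hA : A.IsSymmetric) (hA2 : ∀ w, A (A w) = w)
    (w : W) : (fixA A).starProjection w = (1 / 2 : ℝ) • (w + A w) := by
  refine Submodule.eq_starProjection_of_mem_orthogonal ?_ ?_
  · rw [mem_fixA, map_smul, map_add, hA2, add_comm]
  · rw [mem_fixA_orth hA hA2, map_sub, map_smul, map_add, hA2]
    rw [neg_sub, add_comm (A w) w]
    rw [sub_eq_sub_iff_add_eq_add, ← two_smul ℝ ((1 / 2 : ℝ) • (w + A w)), smul_smul]
    norm_num
    exact add_comm _ _

/-- The complementary projection. -/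
theorem sub_starProjection_fixA {A : W →ₗ[ℝ] W} (hA : A.IsSymmetric) (hA2 : ∀ w, A (A w) = w)
    (w : W) : w - (fixA A).starProjection w = (1 / 2 : ℝ) • (w - A w) := by
  rw [starProjection_fixA hA hA2]
  module

/-- The Clifford set of a subspace `U`: both components have length `1 / √2`. -/
theorem clifford_fixA {A : W →ₗ[ℝ] W} (hA : A.IsSymmetric) (hA2 : ∀ w, A (A w) = w) :
    {z : W | ‖(fixA A).starProjection z‖ ^ 2 = 1 / 2 ∧
        ‖z - (fixA A).starProjection z‖ ^ 2 = 1 / 2} =
      {w | ‖(1 / 2 : ℝ) • (w + A w)‖ ^ 2 = 1 / 2 ∧ ‖(1 / 2 : ℝ) • (w - A w)‖ ^ 2 = 1 / 2} := by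
  ext z
  change ‖(fixA A).starProjection z‖ ^ 2 = 1 / 2 ∧ ‖z - (fixA A).starProjection z‖ ^ 2 = 1 / 2 ↔
    ‖(1 / 2 : ℝ) • (z + A z)‖ ^ 2 = 1 / 2 ∧ ‖(1 / 2 : ℝ) • (z - A z)‖ ^ 2 = 1 / 2
  rw [sub_starProjection_fixA hA hA2, starProjection_fixA hA hA2]

/-- A point of the unit sphere with `⟪w, A w⟫ = 0` lies in the Clifford set. -/
theorem mem_clifford {A : W →ₗ[ℝ] W} (hA : A.IsSymmetric) (hA2 : ∀ w, A (A w) = w) {w : W}
    (h1 : ‖w‖ = 1) (h2 : ⟪w, A w⟫ = 0) :
    ‖(fixA A).starProjection w‖ ^ 2 = 1 / 2 ∧ ‖w - (fixA A).starProjection w‖ ^ 2 = 1 / 2 := by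
  have h3 : ‖A w‖ ^ 2 = 1 := by
    rw [← real_inner_self_eq_norm_sq, hA, hA2, real_inner_self_eq_norm_sq, h1, one_pow]
  rw [sub_starProjection_fixA hA hA2, starProjection_fixA hA hA2, norm_smul, norm_smul, mul_pow,
    mul_pow, norm_add_sq_real, norm_sub_sq_real, h1, h2, h3]
  norm_num

/-- The reflection in `U`, as a linear map. -/
def reflA (U : Submodule ℝ W) : W →ₗ[ℝ] W :=
  (2 : ℝ) • (U.starProjection : W →ₗ[ℝ] W) - LinearMap.id

theorem reflA_apply (U : Submodule ℝ W) (w : W) :
    reflA U w = (2 : ℝ) • U.starProjection w - w := rfl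

theorem reflA_symm (U : Submodule ℝ W) : (reflA U).IsSymmetric := by
  intro x y
  rw [reflA_apply, reflA_apply, inner_sub_left, inner_sub_right, inner_smul_left,
    inner_smul_right]
  have h := Submodule.starProjection_isSymmetric U x y
  have h' : ⟪U.starProjection x, y⟫ = ⟪x, U.starProjection y⟫ := h
  rw [h']
  rfl

theorem reflA_reflA (U : Submodule ℝ W) (w : W) : reflA U (reflA U w) = w := by
  have h : U.starProjection (U.starProjection w) = U.starProjection w :=
    Submodule.starProjection_eq_self_iff.2 (U.starProjection_apply_mem w)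
  rw [reflA_apply, reflA_apply, map_sub, map_smul, h]
  module

/-- On the Clifford set of `U`, the reflection in `U` is orthogonal to the position. -/
theorem inner_reflA {U : Submodule ℝ W} {w : W} (h1 : ‖U.starProjection w‖ ^ 2 = 1 / 2)
    (h2 : ‖w - U.starProjection w‖ ^ 2 = 1 / 2) : ⟪w, reflA U w⟫ = 0 := by
  have e1 : w = U.starProjection w + (w - U.starProjection w) := by abel
  have e2 : reflA U w = U.starProjection w - (w - U.starProjection w) := by
    rw [reflA_apply, two_smul]
    abel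
  have h3 : ⟪U.starProjection w, w - U.starProjection w⟫ = 0 :=
    Submodule.inner_right_of_mem_orthogonal (U.starProjection_apply_mem w)
      (U.sub_starProjection_mem_orthogonal w)
  have h4 : ⟪w - U.starProjection w, U.starProjection w⟫ = 0 := by
    rw [real_inner_comm, h3]
  calc ⟪w, reflA U w⟫ = ⟪U.starProjection w + (w - U.starProjection w),
        U.starProjection w - (w - U.starProjection w)⟫ := by rw [← e1, e2]
    _ = 0 := by
        generalize U.starProjection w = a at h1 h2 h3 h4
        generalize w - a = b at h2 h3 h4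
        rw [inner_add_left, inner_sub_right, inner_sub_right, h3, h4,
          real_inner_self_eq_norm_sq, real_inner_self_eq_norm_sq, h1, h2]
        norm_num

/-- A map into the Clifford set of `U`: the symmetric involution of the converse. -/
theorem exists_invol_of_clifford {M : Type*} {F : M → W} {U : Submodule ℝ W}
    (hU : Set.range F ⊆
      {z | ‖U.starProjection z‖ ^ 2 = 1 / 2 ∧ ‖z - U.starProjection z‖ ^ 2 = 1 / 2}) :
    ∃ A : W →ₗ[ℝ] W, A.IsSymmetric ∧ (∀ w, A (A w) = w) ∧ ∀ x, ⟪F x, A (F x)⟫ = 0 :=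
  ⟨reflA U, reflA_symm U, reflA_reflA U, fun x => inner_reflA (hU ⟨x, rfl⟩).1 (hU ⟨x, rfl⟩).2⟩

end Vale.Agent.P224.RIG
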