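import Vale.Agent.P224.RIG.Conv
import Vale.Agent.P224.RIG.CliffMin
import Vale.Agent.P224.RIG.Sub

/-!
The converse of the rigidity theorem: a minimal hypersurface inside the Clifford set
has the least volume.
-/

namespace Vale.Agent.P224.RIG

open MeasureTheory Set Filter Function Module Vale.Agent.P224 Vale.Agent.P224.UE
open Vale.Agent.P224.SM2 hiding ker
open scoped Topology RealInnerProductSpace ENNReal ContDiff Manifold

set_option linter.unusedSectionVars false

variable {V W M : Type*} [NormedAddCommGroup V] [InnerProductSpace ℝ V] [FiniteDimensional ℝ V]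
  [NormedAddCommGroup W] [InnerProductSpace ℝ W] [FiniteDimensional ℝ W]
  [TopologicalSpace M] [ChartedSpace V M]

/-- the reflected position is a unit normal -/
lemma isUnitNormal_invol [IsManifold 𝓘(ℝ, V) ∞ M] {F : M → W} (hF : SphImm V F)
    {A : W →ₗ[ℝ] W} (hA : A.IsSymmetric) (hA2 : ∀ w, A (A w) = w)
    (h0 : ∀ x, ⟪F x, A (F x)⟫ = 0) (x : M) : IsUnitNormal V F x (A (F x)) := by
  have hI := immV_rep hF x
  refine ⟨?_, h0 x, fun i => ?_⟩
  · have h1 : ‖A (F x)‖ ^ 2 = 1 := by
      rw [← real_inner_self_eq_norm_sq, hA, hA2, real_inner_self_eq_norm_sq, hF.unit, one_pow]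
    have h2 := norm_nonneg (A (F x))
    nlinarith
  · set u := chartAt V x x with hu
    have hut : u ∈ (chartAt V x).target := (chartAt V x).map_source (mem_chart_source V x)
    have hf : DifferentiableAt ℝ (rep F x) u :=
      (hI.smooth.contDiffAt (hI.isOpen.mem_nhds hut)).differentiableAt (by norm_num)
    have hxx : rep F x u = F x := by
      unfold rep
      rw [hu, (chartAt V x).left_inv (mem_chart_source V x)]
    set L : W →L[ℝ] W := LinearMap.toContinuousLinearMap A with hL
    have hLA : ∀ w, L w = A w := fun w => rfl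
    have hd := hf.hasFDerivAt
    have h1 : HasFDerivAt (fun v : V => ⟪rep F x v, L (rep F x v)⟫)
        ((innerSL ℝ (rep F x u)).comp (L.comp (fderiv ℝ (rep F x) u))
          + (innerSL ℝ (L (rep F x u))).comp (fderiv ℝ (rep F x) u)) u := by
      have h2 := hd.inner ℝ (L.hasFDerivAt.comp u hd)
      refine h2.congr_fderiv ?_
      ext v
      simp [real_inner_comm]
    have h3 : (fun v : V => ⟪rep F x v, L (rep F x v)⟫) = fun _ => (0 : ℝ) := by
      funext v
      exact h0 _
    rw [h3] at h1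
    have h4 := h1.unique (hasFDerivAt_const (0 : ℝ) u)
    have h5 := DFunLike.congr_fun h4 (stdOrthonormalBasis ℝ V i)
    simp only [ContinuousLinearMap.add_apply, ContinuousLinearMap.comp_apply,
      innerSL_apply_apply, ContinuousLinearMap.zero_apply, hLA, hxx] at h5
    unfold pd
    have h6 : ⟪F x, A (fderiv ℝ (rep F x) u (stdOrthonormalBasis ℝ V i))⟫
        = ⟪A (F x), fderiv ℝ (rep F x) u (stdOrthonormalBasis ℝ V i)⟫ := (hA _ _).symm
    rw [h6] at h5
    rw [real_inner_comm]
    linarith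

variable [MeasurableSpace V] [BorelSpace V] [MeasurableSpace M] [BorelSpace M]
  [IsManifold 𝓘(ℝ, V) ∞ M] [CompactSpace M] [T2Space M] [Nonempty M]
  [MeasurableSpace W] [BorelSpace W]

/-- the volume of an injective minimal immersion with normal `A F` -/
theorem volM_of_invol {h : ℕ} (h2 : 2 ≤ h) (h8 : h ≤ 8) (hV : finrank ℝ V = 2 * h)
    (hW : finrank ℝ W = finrank ℝ V + 2) {F : M → W} (hF : SphImm V F)
    (hmin : ∀ x n, IsUnitNormal V F x n → meanCurv V F x n = 0) (hinj : Injective F)
    {A : W →ₗ[ℝ] W} (hA : A.IsSymmetric) (hA2 : ∀ w, A (A w) = w)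
    (h0 : ∀ x, ⟪F x, A (F x)⟫ = 0) :
    volM V F univ = ENNReal.ofReal (leastClifford (finrank ℝ V)) := by
  have hfin : IsFiniteMeasure (volM V F) := isFiniteMeasure_volM hF
  set L : W →L[ℝ] W := LinearMap.toContinuousLinearMap A with hL
  have hNs : ContMDiff 𝓘(ℝ, V) 𝓘(ℝ, W) ∞ (fun x => A (F x)) :=
    L.contDiff.contMDiff.comp hF.smooth
  have hN := isUnitNormal_invol hF hA hA2 h0
  obtain ⟨C, hD⟩ := embD_of_inj (by omega) hW hF hmin hNs hN hinj
  have hT := two_of_min hW hF hmin hNs hN
  obtain ⟨y, Z, e, r, hc, hl, hy0, hZ0, -, -⟩ := exists_cert2 (m := finrank ℝ V) (by omega)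
    (by omega)
  have hc1 : ∀ x z, ⟪A (F x), A (F z)⟫ = ⟪F x, F z⟫ := fun x z => by rw [hA, hA2]
  have hp1 : ∀ x z, ⟪A (F x), F z⟫ = ⟪F x, A (F z)⟫ := fun x z => hA _ _
  have key := vol_sym hD hT (by omega) hc1 hp1 hc hl hy0 hZ0
  have hpos : 0 < (volM V F).real univ := by
    rw [measureReal_def]
    exact ENNReal.toReal_pos (volM_pos_of_isOpen hW hF isOpen_univ univ_nonempty).ne'
      (measure_ne_top _ _)
  have hlam := lam_eq h h2
  rw [← hV] at hlam
  have e1 : (volM V F).real univ = evenRatio h * sphereVol (finrank ℝ V) := by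
    have h3 : (volM V F).real univ * (volM V F).real univ
        = (evenRatio h * sphereVol (finrank ℝ V)) * (volM V F).real univ := by
      rw [← hlam, ← pow_two, key]
      ring
    exact mul_right_cancel₀ hpos.ne' h3
  rw [← ofReal_measureReal (measure_ne_top _ _), e1, hV, CM.leastClifford_eq' (by omega) h8]

/-- the converse of the rigidity theorem, in terms of a subspace -/
theorem volM_of_clifford {h : ℕ} (h2 : 2 ≤ h) (h8 : h ≤ 8) (hV : finrank ℝ V = 2 * h)
    (hW : finrank ℝ W = finrank ℝ V + 2) {F : M → W} (hF : SphImm V F)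
    (hmin : ∀ x n, IsUnitNormal V F x n → meanCurv V F x n = 0) (hinj : Injective F)
    {U : Submodule ℝ W} (hU : ∀ x, ‖U.starProjection (F x)‖ ^ 2 = 1 / 2 ∧
      ‖F x - U.starProjection (F x)‖ ^ 2 = 1 / 2) :
    volM V F univ = ENNReal.ofReal (leastClifford (finrank ℝ V)) :=
  volM_of_invol h2 h8 hV hW hF hmin hinj (reflA_symm U) (reflA_reflA U)
    fun x => inner_reflA (hU x).1 (hU x).2

end Vale.Agent.P224.RIG
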