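import Vale.Agent.P224.RIG.Main
import Vale.Agent.P224.RIG.ConvM

/-!
The sharp bound in the even dimensions from four to sixteen, with its case of equality.
-/

namespace Vale.Agent.P224.RIG

open MeasureTheory Set Filter Function Module Vale.Agent.P224
open scoped Topology RealInnerProductSpace ENNReal ContDiff Manifold

set_option linter.unusedSectionVars false

variable {V W M : Type*} [NormedAddCommGroup V] [InnerProductSpace ℝ V] [FiniteDimensional ℝ V]
  [NormedAddCommGroup W] [InnerProductSpace ℝ W] [FiniteDimensional ℝ W]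
  [TopologicalSpace M] [ChartedSpace V M]
  [MeasurableSpace V] [BorelSpace V] [MeasurableSpace M] [BorelSpace M]
  [IsManifold 𝓘(ℝ, V) ∞ M] [CompactSpace M] [T2Space M] [ConnectedSpace M]

/-- An injective minimal immersion into a Clifford hypersurface has the least volume. -/
theorem vol_of_subset (h2 : Even (finrank ℝ V)) (h4 : 4 ≤ finrank ℝ V)
    (h16 : finrank ℝ V ≤ 16) (hW : finrank ℝ W = finrank ℝ V + 2)
    {F : M → W} (hF : SphImm V F) (hmin : ∀ x n, IsUnitNormal V F x n → meanCurv V F x n = 0)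
    (hinj : Injective F) {U : Submodule ℝ W}
    (hU : range F ⊆ {z | ‖U.starProjection z‖ ^ 2 = 1 / 2 ∧
      ‖z - U.starProjection z‖ ^ 2 = 1 / 2}) :
    volM V F univ = ENNReal.ofReal (leastClifford (finrank ℝ V)) := by
  borelize W
  obtain ⟨k, hk⟩ := h2
  exact volM_of_clifford (h := k) (by omega) (by omega) (by omega) hW hF hmin hinj
    fun x => hU (mem_range_self x)

/-- **The sharp bound with its case of equality**, in the even dimensions from four to sixteen:
the volume is at most the least Clifford volume if and only if the immersion is an embedding onto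
a Clifford hypersurface with two factors of the same dimension. -/
theorem vol_le_iff (h2 : Even (finrank ℝ V)) (h4 : 4 ≤ finrank ℝ V)
    (h16 : finrank ℝ V ≤ 16) (hW : finrank ℝ W = finrank ℝ V + 2)
    {F : M → W} (hF : SphImm V F) (hmin : ∀ x n, IsUnitNormal V F x n → meanCurv V F x n = 0)
    (hng : ¬ ∃ a : W, a ≠ 0 ∧ ∀ x, ⟪F x, a⟫ = 0) :
    volM V F univ ≤ ENNReal.ofReal (leastClifford (finrank ℝ V)) ↔
      Injective F ∧ ∃ U : Submodule ℝ W, finrank ℝ U = finrank ℝ V / 2 + 1 ∧
        range F = {z | ‖U.starProjection z‖ ^ 2 = 1 / 2 ∧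
          ‖z - U.starProjection z‖ ^ 2 = 1 / 2} := by
  borelize W
  constructor
  · exact rigid h2 h4 h16 hW hF hmin hng
  · rintro ⟨hinj, U, -, hU⟩
    exact (vol_of_subset h2 h4 h16 hW hF hmin hinj hU.subset).le

/-- The same with equality of the volumes. -/
theorem vol_eq_iff (h2 : Even (finrank ℝ V)) (h4 : 4 ≤ finrank ℝ V)
    (h16 : finrank ℝ V ≤ 16) (hW : finrank ℝ W = finrank ℝ V + 2)
    {F : M → W} (hF : SphImm V F) (hmin : ∀ x n, IsUnitNormal V F x n → meanCurv V F x n = 0)
    (hng : ¬ ∃ a : W, a ≠ 0 ∧ ∀ x, ⟪F x, a⟫ = 0) :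
    volM V F univ = ENNReal.ofReal (leastClifford (finrank ℝ V)) ↔
      Injective F ∧ ∃ U : Submodule ℝ W, finrank ℝ U = finrank ℝ V / 2 + 1 ∧
        range F = {z | ‖U.starProjection z‖ ^ 2 = 1 / 2 ∧
          ‖z - U.starProjection z‖ ^ 2 = 1 / 2} := by
  constructor
  · intro h
    exact (vol_le_iff h2 h4 h16 hW hF hmin hng).1 h.le
  · rintro ⟨hinj, U, -, hU⟩
    exact vol_of_subset h2 h4 h16 hW hF hmin hinj hU.subset

/-- The sharp bound, strict for all other hypersurfaces. -/
theorem lt_or_clifford (h2 : Even (finrank ℝ V)) (h4 : 4 ≤ finrank ℝ V)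
    (h16 : finrank ℝ V ≤ 16) (hW : finrank ℝ W = finrank ℝ V + 2)
    {F : M → W} (hF : SphImm V F) (hmin : ∀ x n, IsUnitNormal V F x n → meanCurv V F x n = 0)
    (hng : ¬ ∃ a : W, a ≠ 0 ∧ ∀ x, ⟪F x, a⟫ = 0) :
    ENNReal.ofReal (leastClifford (finrank ℝ V)) < volM V F univ ∨
      volM V F univ = ENNReal.ofReal (leastClifford (finrank ℝ V)) ∧
      Injective F ∧ ∃ U : Submodule ℝ W, finrank ℝ U = finrank ℝ V / 2 + 1 ∧
        range F = {z | ‖U.starProjection z‖ ^ 2 = 1 / 2 ∧
          ‖z - U.starProjection z‖ ^ 2 = 1 / 2} := by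
  rcases lt_or_ge (ENNReal.ofReal (leastClifford (finrank ℝ V))) (volM V F univ) with h | h
  · exact Or.inl h
  · have h1 := (vol_le_iff h2 h4 h16 hW hF hmin hng).1 h
    exact Or.inr ⟨(vol_eq_iff h2 h4 h16 hW hF hmin hng).2 h1, h1⟩

end Vale.Agent.P224.RIG
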