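import Vale.Agent.P224.RIG.Five
import Vale.Agent.P224.RIG.FiveIff

/-!
The range in the case of equality in every odd dimension, and the sharp bound with its case of
equality from the conclusion of the two point method.
-/

namespace Vale.Agent.P224.RIG

open Set Filter Function Module MeasureTheory Vale.Agent.P224
open scoped Topology RealInnerProductSpace ContDiff Manifold ENNReal

set_option linter.unusedSectionVars false

variable {V W M : Type*} [NormedAddCommGroup V] [InnerProductSpace ℝ V] [FiniteDimensional ℝ V]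
  [NormedAddCommGroup W] [InnerProductSpace ℝ W] [FiniteDimensional ℝ W]
  [TopologicalSpace M] [ChartedSpace V M]

/-- **The image in the case of equality in the odd dimension `2 h + 1`.** -/
theorem range_odd [IsManifold 𝓘(ℝ, V) ∞ M] [CompactSpace M] [Nonempty M] {m h : ℕ}
    (hmh : m = 2 * h + 1) (hh : 1 ≤ h) (hV : finrank ℝ V = m) (hW : finrank ℝ W = finrank ℝ V + 2)
    {F : M → W} (hF : SphImm V F) {α : ℝ} (hα : 0 < α) (hα2 : α ^ 2 * (h + 1) = h)
    (b : OrthonormalBasis (Fin (m + 2)) ℝ W) (S : Finset (Fin (m + 2))) (hS : S.card = h + 2)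
    (hN : ∀ x, IsUnitNormal V F x
      (∑ i, ((if i ∈ S then α else -(1 / α)) * ⟪F x, b i⟫) • b i)) :
    ∃ U : Submodule ℝ W, finrank ℝ U = m / 2 + 1 ∧
      range F = {z | ‖U.starProjection z‖ ^ 2 = ((m / 2 : ℕ) : ℝ) / (m : ℝ) ∧
        ‖z - U.starProjection z‖ ^ 2 = ((m - m / 2 : ℕ) : ℝ) / (m : ℝ)} := by
  have hm2 : m / 2 = h := by omega
  have hmm : m - m / 2 = h + 1 := by omega
  have hmR : (m : ℝ) = 2 * (h : ℝ) + 1 := by rw [hmh]; push_cast; ring
  have hh0 : (1 : ℝ) ≤ (h : ℝ) := by exact_mod_cast hh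
  have hm0 : (0 : ℝ) < (m : ℝ) := by rw [hmR]; linarith
  have hU : finrank ℝ (outS b S) = h + 1 := by
    rw [finrank_outS, Fintype.card_subtype_compl, Fintype.card_fin, Fintype.card_coe, hS]
    omega
  have hU' : finrank ℝ (outS b S)ᗮ = h + 2 := by
    have := (outS b S).finrank_add_finrank_orthogonal
    omega
  rw [hmm, hm2]
  have ha0 : 0 < (h : ℝ) / (m : ℝ) := by positivity
  have ha1 : (h : ℝ) / (m : ℝ) < 1 := by
    rw [div_lt_one hm0, hmR]
    linarith
  have h1a : ((h + 1 : ℕ) : ℝ) / (m : ℝ) = 1 - (h : ℝ) / (m : ℝ) := by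
    rw [eq_sub_iff_add_eq, ← add_div, div_eq_one_iff_eq hm0.ne', hmR]
    push_cast
    ring
  have hset : {z | ‖(outS b S).starProjection z‖ ^ 2 = (h : ℝ) / (m : ℝ) ∧
      ‖z - (outS b S).starProjection z‖ ^ 2 = ((h + 1 : ℕ) : ℝ) / (m : ℝ)}
      = PrdA ((h : ℝ) / (m : ℝ)) (outS b S) := by
    ext z
    have h' : (outS b S)ᗮ.starProjection z = z - (outS b S).starProjection z := by
      rw [Submodule.starProjection_orthogonal_val]
    simp only [PrdA, Set.mem_ofPred_eq, h', h1a]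
  refine ⟨outS b S, hU, ?_⟩
  rw [hset]
  refine range_eq_prdA ha0 ha1 hW (outS b S) (by omega) (by omega) hF fun x => ?_
  rw [← hset]
  have h1 : ‖F x‖ ^ 2 = 1 := by rw [hF.unit, one_pow]
  have h2 := congrArg (· ^ 2) (hN x).1
  simp only [one_pow] at h2
  rw [norm_sum_basis] at h2
  rw [norm_eq_basis b] at h1
  have h3 : ‖(outS b S).starProjection (F x)‖ ^ 2
      = ∑ i, (if i ∈ S then 0 else ⟪F x, b i⟫) ^ 2 := by
    rw [proj_outS, norm_sum_basis]
  have h4 := norm_sub_outS b S (F x)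
  have e1 : ∑ i, ⟪F x, b i⟫ ^ 2 = ‖(outS b S).starProjection (F x)‖ ^ 2
      + ‖F x - (outS b S).starProjection (F x)‖ ^ 2 := by
    rw [h3, h4, ← Finset.sum_add_distrib]
    refine Finset.sum_congr rfl fun i _ => ?_
    split_ifs <;> ring
  have e2 : ∑ i, ((if i ∈ S then α else -(1 / α)) * ⟪F x, b i⟫) ^ 2
      = (1 / α) ^ 2 * ‖(outS b S).starProjection (F x)‖ ^ 2
      + α ^ 2 * ‖F x - (outS b S).starProjection (F x)‖ ^ 2 := by
    rw [h3, h4, Finset.mul_sum, Finset.mul_sum, ← Finset.sum_add_distrib]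
    refine Finset.sum_congr rfl fun i _ => ?_
    split_ifs <;> ring
  rw [e1] at h1
  rw [e2] at h2
  set u := ‖(outS b S).starProjection (F x)‖ ^ 2 with hu
  set v := ‖F x - (outS b S).starProjection (F x)‖ ^ 2 with hv
  -- `u + v = 1` and `u / α ^ 2 + α ^ 2 v = 1`
  have h5 : u + α ^ 2 * α ^ 2 * v = α ^ 2 := by
    have h6 : α ^ 2 * ((1 / α) ^ 2 * u + α ^ 2 * v) = α ^ 2 * 1 := by rw [h2]
    have h7 : α ^ 2 * ((1 / α) ^ 2 * u + α ^ 2 * v) = u + α ^ 2 * α ^ 2 * v := by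
      field_simp
    linarith
  have hh1 : (0 : ℝ) < (h : ℝ) + 1 := by linarith
  have h6 : α ^ 2 = (h : ℝ) / ((h : ℝ) + 1) := by rw [eq_div_iff hh1.ne', hα2]
  have h7 : v * (2 * (h : ℝ) + 1) = (h : ℝ) + 1 := by
    have h8 : u = 1 - v := by linarith
    rw [h8, h6] at h5
    have h9 : (1 - v) * ((h : ℝ) + 1) ^ 2 + (h : ℝ) ^ 2 * v = (h : ℝ) * ((h : ℝ) + 1) := by
      field_simp at h5
      linarith
    linarith
  have hv' : v = ((h : ℝ) + 1) / (m : ℝ) := by
    rw [eq_div_iff hm0.ne', hmR, h7]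
  have hu' : u = (h : ℝ) / (m : ℝ) := by
    rw [eq_div_iff hm0.ne']
    have : v * (m : ℝ) = (h : ℝ) + 1 := by rw [hmR, h7]
    have h8 : u = 1 - v := by linarith
    rw [h8, sub_mul, this, hmR]
    ring
  refine ⟨hu', ?_⟩
  rw [← hv, hv']
  push_cast
  ring

variable [MeasurableSpace V] [BorelSpace V] [MeasurableSpace M] [BorelSpace M]
  [IsManifold 𝓘(ℝ, V) ∞ M] [CompactSpace M] [T2Space M] [ConnectedSpace M]

/-- **The sharp bound with its case of equality in the odd dimension `2 h + 1`** from the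
conclusion of the two point method. -/
theorem iff_of_core {m h : ℕ} (hmh : m = 2 * h + 1) (hh : 1 ≤ h) (hV : finrank ℝ V = m)
    (hW : finrank ℝ W = finrank ℝ V + 2) {F : M → W} (hF : SphImm V F)
    {α : ℝ} (hα : 0 < α) (hα2 : α ^ 2 * (h + 1) = h)
    (hcore : (volM V F).real univ ≤ leastClifford m → Injective F ∧
      ∃ (b : OrthonormalBasis (Fin (m + 2)) ℝ W) (S : Finset (Fin (m + 2))), S.card = h + 2 ∧
        ∀ x, IsUnitNormal V F x (∑ i, ((if i ∈ S then α else -(1 / α)) * ⟪F x, b i⟫) • b i)) :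
    ENNReal.ofReal (leastClifford m) ≤ volM V F univ ∧
      (volM V F univ = ENNReal.ofReal (leastClifford m) ↔
        Injective F ∧ ∃ U : Submodule ℝ W, finrank ℝ U = m / 2 + 1 ∧
          range F = {z | ‖U.starProjection z‖ ^ 2 = ((m / 2 : ℕ) : ℝ) / (m : ℝ) ∧
            ‖z - U.starProjection z‖ ^ 2 = ((m - m / 2 : ℕ) : ℝ) / (m : ℝ)}) := by
  borelize W
  have k1 : (Injective F ∧ ∃ U : Submodule ℝ W, finrank ℝ U = m / 2 + 1 ∧
      range F = {z | ‖U.starProjection z‖ ^ 2 = ((m / 2 : ℕ) : ℝ) / (m : ℝ) ∧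
        ‖z - U.starProjection z‖ ^ 2 = ((m - m / 2 : ℕ) : ℝ) / (m : ℝ)}) →
      volM V F univ = ENNReal.ofReal (leastClifford m) := by
    rintro ⟨hinj, U, hU, hr⟩
    refine volM_least (by omega) hV hW U hU hF hinj fun x => ?_
    have h1 : F x ∈ {z | ‖U.starProjection z‖ ^ 2 = ((m / 2 : ℕ) : ℝ) / (m : ℝ) ∧
        ‖z - U.starProjection z‖ ^ 2 = ((m - m / 2 : ℕ) : ℝ) / (m : ℝ)} := hr ▸ mem_range_self x
    exact h1
  have k2 : volM V F univ ≤ ENNReal.ofReal (leastClifford m) →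
      (Injective F ∧ ∃ U : Submodule ℝ W, finrank ℝ U = m / 2 + 1 ∧
        range F = {z | ‖U.starProjection z‖ ^ 2 = ((m / 2 : ℕ) : ℝ) / (m : ℝ) ∧
          ‖z - U.starProjection z‖ ^ 2 = ((m - m / 2 : ℕ) : ℝ) / (m : ℝ)}) := by
    intro hle
    have hfin : volM V F univ ≠ ⊤ := ne_top_of_le_ne_top ENNReal.ofReal_ne_top hle
    have h0 : 0 ≤ leastClifford m := leastClifford_nonneg _
    obtain ⟨hinj, b, S, hS, hN⟩ := hcore (by
      rw [measureReal_def]
      exact ENNReal.toReal_le_of_le_ofReal h0 hle)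
    exact ⟨hinj, range_odd hmh hh hV hW hF hα hα2 b S hS hN⟩
  refine ⟨?_, fun h1 => k2 h1.le, k1⟩
  rcases le_total (ENNReal.ofReal (leastClifford m)) (volM V F univ) with h1 | h1
  · exact h1
  · exact (k1 (k2 h1)).ge

/-- the same in the form of the conclusion of `core_odd` -/
theorem iff_of_core' {m h : ℕ} (hmh : m = 2 * h + 1) (hh : 1 ≤ h) (hV : finrank ℝ V = m)
    (hW : finrank ℝ W = finrank ℝ V + 2) {F : M → W} (hF : SphImm V F)
    {α : ℝ} (hα : 0 < α) (hα2 : α ^ 2 * (h + 1) = h) {C : ℝ}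
    (hC : leastClifford m = C * sphereVol m)
    (hcore : (volM V F).real univ ≤ C * sphereVol m →
      (volM V F).real univ = C * sphereVol m ∧ Injective F ∧
        ∃ (N : M → W) (b : OrthonormalBasis (Fin (m + 2)) ℝ W) (S : Finset (Fin (m + 2))),
          ContMDiff 𝓘(ℝ, V) 𝓘(ℝ, W) ∞ N ∧ (∀ x, IsUnitNormal V F x (N x)) ∧ S.card = h + 2 ∧
          ∀ x, N x = ∑ i, ((if i ∈ S then α else -(1 / α)) * ⟪F x, b i⟫) • b i) :
    ENNReal.ofReal (leastClifford m) ≤ volM V F univ ∧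
      (volM V F univ = ENNReal.ofReal (leastClifford m) ↔
        Injective F ∧ ∃ U : Submodule ℝ W, finrank ℝ U = m / 2 + 1 ∧
          range F = {z | ‖U.starProjection z‖ ^ 2 = ((m / 2 : ℕ) : ℝ) / (m : ℝ) ∧
            ‖z - U.starProjection z‖ ^ 2 = ((m - m / 2 : ℕ) : ℝ) / (m : ℝ)}) := by
  refine iff_of_core hmh hh hV hW hF hα hα2 fun hle => ?_
  rw [hC] at hle
  obtain ⟨-, hinj, N, b, S, -, hN, hS, hNe⟩ := hcore hle
  refine ⟨hinj, b, S, hS, fun x => ?_⟩
  have h1 := hN x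
  rw [hNe x] at h1
  exact h1

end Vale.Agent.P224.RIG
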