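import Vale.Agent.P224.MathlibUsed
import Vale.Agent.P224.Defs

/-!
Linear algebra of the rigidity theorem: points `p` and unit normals `n` with
`⟪n x, n y⟫ = ⟪p x, p y⟫` and `⟪n x, p y⟫ = ⟪p x, n y⟫` come from a symmetric involution.
-/

namespace Vale.Agent.P224.RIG

open Module
open scoped RealInnerProductSpace

variable {W X : Type*} [NormedAddCommGroup W] [InnerProductSpace ℝ W] [FiniteDimensional ℝ W]

/-- the inner product of two linear combinations -/
lemma inner_lc (p q : X → W) (f g : X →₀ ℝ) :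
    ⟪Finsupp.linearCombination ℝ p f, Finsupp.linearCombination ℝ q g⟫
      = f.sum fun x a => g.sum fun y b => a * b * ⟪p x, q y⟫ := by
  rw [Finsupp.linearCombination_apply, Finsupp.linearCombination_apply, Finsupp.sum_inner]
  refine Finsupp.sum_congr fun x _ => ?_
  rw [Finsupp.inner_sum]
  refine Finsupp.sum_congr fun y _ => ?_
  rw [real_inner_smul_left, real_inner_smul_right, mul_assoc]

theorem exists_invol {p n : X → W}
    (h1 : ∀ x y, ⟪n x, n y⟫ = ⟪p x, p y⟫) (h2 : ∀ x y, ⟪n x, p y⟫ = ⟪p x, n y⟫)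
    (hng : ¬ ∃ a : W, a ≠ 0 ∧ ∀ x, ⟪p x, a⟫ = 0) :
    ∃ A : W →ₗ[ℝ] W, A.IsSymmetric ∧ (∀ w, A (A w) = w) ∧ ∀ x, n x = A (p x) := by
  have hspan : Submodule.span ℝ (Set.range p) = ⊤ := by
    by_contra hne
    have hbot : (Submodule.span ℝ (Set.range p))ᗮ ≠ ⊥ := fun hb =>
      hne (Submodule.orthogonal_eq_bot_iff.1 hb)
    obtain ⟨a, ha, ha0⟩ := Submodule.exists_mem_ne_zero_of_ne_bot hbot
    exact hng ⟨a, ha0, fun x => (Submodule.mem_orthogonal _ a).1 ha _
      (Submodule.subset_span ⟨x, rfl⟩)⟩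
  set P : (X →₀ ℝ) →ₗ[ℝ] W := Finsupp.linearCombination ℝ p with hP
  set Q : (X →₀ ℝ) →ₗ[ℝ] W := Finsupp.linearCombination ℝ n with hQ
  have hsurj : LinearMap.range P = ⊤ := by
    rw [hP, Finsupp.range_linearCombination, hspan]
  have e1 : ∀ f g, ⟪Q f, Q g⟫ = ⟪P f, P g⟫ := fun f g => by
    rw [hP, hQ, inner_lc, inner_lc]
    simp only [h1]
  have e2 : ∀ f g, ⟪Q f, P g⟫ = ⟪P f, Q g⟫ := fun f g => by
    rw [hP, hQ, inner_lc, inner_lc]
    simp only [h2]
  obtain ⟨g, hg⟩ := P.exists_rightInverse_of_surjective hsurj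
  have hg' : ∀ w, P (g w) = w := fun w => LinearMap.congr_fun hg w
  have hker : ∀ f, P f = 0 → Q f = 0 := fun f hf => by
    have h := e1 f f
    rw [hf, inner_zero_left] at h
    exact inner_self_eq_zero.1 h
  refine ⟨Q ∘ₗ g, fun v w => ?_, fun w => ?_, fun x => ?_⟩
  · have h := e2 (g v) (g w)
    rw [hg', hg'] at h
    exact h
  · refine ext_inner_right ℝ fun v => ?_
    have h := e2 (g (Q (g w))) (g v)
    rw [hg', hg'] at h
    have h' := e1 (g w) (g v)
    rw [hg', hg'] at h'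
    exact h.trans h'
  · have h : P (Finsupp.single x 1 - g (p x)) = 0 := by
      rw [map_sub, hg', hP, Finsupp.linearCombination_single, one_smul, sub_self]
    have h' := hker _ h
    rw [map_sub, hQ, Finsupp.linearCombination_single, one_smul, sub_eq_zero] at h'
    exact h'

end Vale.Agent.P224.RIG
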