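import Vale.Agent.P224.POS.ZM
import Vale.Agent.P224.UE.LawS

/-!
Equality in the sharp bound: from a certificate to the identities between the pairs of points.
-/

namespace Vale.Agent.P224.RIG

open MeasureTheory Set Filter Function Module Vale.Agent.P224 Vale.Agent.P224.UE
open Vale.Agent.P224.SM2 hiding ker
open scoped Topology RealInnerProductSpace ENNReal ContDiff Manifold

set_option linter.unusedSectionVars false

section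

variable {V W M : Type*} [NormedAddCommGroup V] [InnerProductSpace ℝ V] [FiniteDimensional ℝ V]
  [NormedAddCommGroup W] [InnerProductSpace ℝ W] [FiniteDimensional ℝ W]
  [TopologicalSpace M] [ChartedSpace V M]
  [MeasurableSpace V] [BorelSpace V] [MeasurableSpace M] [BorelSpace M]
  [IsManifold 𝓘(ℝ, V) ∞ M] [CompactSpace M] [T2Space M] [ConnectedSpace M]
  [MeasurableSpace W] [BorelSpace W]

/-- Equality in the sharp bound: the mean normal vanishes and the static functional vanishes on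
all pairs. -/
theorem pairs_of_law {m : ℕ} (hm2 : 2 ≤ m) (hV : finrank ℝ V = m)
    (hW : finrank ℝ W = finrank ℝ V + 2)
    {F : M → W} (hF : SphImm V F) (hmin : ∀ x n, IsUnitNormal V F x n → meanCurv V F x n = 0)
    (hng : ¬ ∃ a : W, a ≠ 0 ∧ ∀ x, ⟪F x, a⟫ = 0)
    {C : ℝ} (hC2 : C < 2) {L : R9 → ℝ} {γ : ℝ} {v1 v2 : ℝ → ℝ → ℝ}
    (hL : ∀ N : M → W, ContMDiff 𝓘(ℝ, V) 𝓘(ℝ, W) ∞ N → (∀ x, IsUnitNormal V F x (N x)) →
      Injective F → ∀ e : W, Integrable (fun q => L (dat F N e q)) ((volM V F).prod (volM V F)) ∧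
        ∫ q, L (dat F N e q) ∂((volM V F).prod (volM V F))
          + C * sphereVol m * (volM V F).real univ
          ≤ (volM V F).real univ ^ 2 + γ * ‖∫ x, N x ∂(volM V F)‖ ^ 2)
    (hlaw : ∀ N : M → W, ContMDiff 𝓘(ℝ, V) 𝓘(ℝ, W) ∞ N → (∀ x, IsUnitNormal V F x (N x)) →
      Injective F → 0 < (volM V F).real univ → ∀ e : W,
      (volM V F).real univ • e = ∫ x, N x ∂(volM V F) → ‖e‖ ^ 2 ≤ 25 / 36 →
      ∃ r : ℝ, (‖e‖ ^ 2) ^ 2 ≤ r ∧ r ≤ ‖e‖ ^ 2 ∧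
        C * sphereVol m ≤ (volM V F).real univ * v1 (‖e‖ ^ 2) r
          + sphereVol m * v2 (‖e‖ ^ 2) r)
    (hneg : ∀ Θ u r : ℝ, 6 / 5 ≤ Θ → Θ ≤ C → 0 < u → Θ ^ 2 * u ≤ 1 → u ^ 2 ≤ r → r ≤ u →
      Θ * v1 u r + v2 u r < C)
    (hLs : ∀ x N y w : W, ‖x‖ = 1 → ‖N‖ = 1 → ‖y‖ = 1 → ‖w‖ = 1 →
      ⟪x, N⟫ = 0 → ⟪y, w⟫ = 0 → ⟪x, y⟫ < 1 → 0 ≤ L (dv x N y w 0) ∧
        (L (dv x N y w 0) = 0 → ⟪N, w⟫ = ⟪x, y⟫ ∧ ⟪N, y⟫ = ⟪x, w⟫))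
    (hvol : (volM V F).real univ ≤ C * sphereVol m) :
    Injective F ∧ ∃ N : M → W, ContMDiff 𝓘(ℝ, V) 𝓘(ℝ, W) ∞ N ∧ (∀ x, IsUnitNormal V F x (N x)) ∧
      (∀ x y, ⟪N x, N y⟫ = ⟪F x, F y⟫) ∧ ∀ x y, ⟪N x, F y⟫ = ⟪F x, N y⟫ := by
  have hm : 0 < finrank ℝ V := by omega
  have hfin : IsFiniteMeasure (volM V F) := isFiniteMeasure_volM hF
  set A := (volM V F).real univ with hA
  set S := sphereVol m with hS
  have hS0 : 0 < S := sphereVol_pos' _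
  have hS4 : sphereVol (finrank ℝ V) = S := by rw [hS, hV]
  have hinj : Injective F := by
    by_contra hinj
    have h2 := TwoSide.two_le (by omega) hW hF hmin hinj
    rw [hS4] at h2
    have h3 : C * S < 2 * S := mul_lt_mul_of_pos_right hC2 hS0
    linarith
  have h65 : 6 / 5 * S ≤ A := by
    have h1 := (PM.main_frac (by omega) hW hF hmin hng).1
    rw [hS4] at h1
    have h2 := ENNReal.toReal_mono (measure_ne_top _ _) h1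
    rwa [ENNReal.toReal_ofReal (by positivity)] at h2
  have hA0 : 0 < A := by linarith
  obtain ⟨N, hNs, hN, htop⟩ := TP.exists_normal_le hW hm hF hinj
  rw [hS4] at htop
  refine ⟨hinj, N, hNs, hN, ?_⟩
  set e : W := A⁻¹ • ∫ x, N x ∂(volM V F) with he
  have he' : A • e = ∫ x, N x ∂(volM V F) := by
    rw [he, smul_smul, mul_inv_cancel₀ hA0.ne', one_smul]
  have hn : ‖∫ x, N x ∂(volM V F)‖ = A * ‖e‖ := by
    rw [← he', norm_smul, Real.norm_eq_abs, abs_of_pos hA0]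
  rw [hn] at htop
  have he0 : e = 0 := by
    by_contra hne
    set Θ := A / S with hΘ
    have hAS : A = Θ * S := by rw [hΘ]; field_simp
    have h1 : 6 / 5 ≤ Θ := by
      rw [hΘ, le_div_iff₀ hS0]
      exact h65
    have h2 : Θ ≤ C := by
      rw [hΘ, div_le_iff₀ hS0]
      exact hvol
    have h3 : Θ * ‖e‖ ≤ 1 := by
      have : S * (Θ * ‖e‖) ≤ S * 1 := by
        calc S * (Θ * ‖e‖) = A * ‖e‖ := by rw [hAS]; ring
          _ ≤ S := htop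
          _ = S * 1 := (mul_one S).symm
      exact le_of_mul_le_mul_left this hS0
    have h4 : Θ ^ 2 * ‖e‖ ^ 2 ≤ 1 := by
      have h0 : 0 ≤ Θ * ‖e‖ := mul_nonneg (by linarith) (norm_nonneg _)
      calc Θ ^ 2 * ‖e‖ ^ 2 = (Θ * ‖e‖) ^ 2 := by ring
        _ ≤ 1 := pow_le_one₀ h0 h3
    have h5 : ‖e‖ ^ 2 ≤ 25 / 36 := by
      have h6 : (6 / 5 : ℝ) ^ 2 ≤ Θ ^ 2 := pow_le_pow_left₀ (by norm_num) h1 2
      have h7 := mul_le_mul_of_nonneg_right h6 (sq_nonneg ‖e‖)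
      linarith
    obtain ⟨r, hr1, hr2, hr3⟩ := hlaw N hNs hN hinj hA0 e he' h5
    have hu0 : 0 < ‖e‖ ^ 2 := by
      have := norm_pos_iff.2 hne
      positivity
    have h8 := hneg Θ (‖e‖ ^ 2) r h1 h2 hu0 h4 hr1 hr2
    have h9 := mul_lt_mul_of_pos_left h8 hS0
    have h10 : A * v1 (‖e‖ ^ 2) r = S * (Θ * v1 (‖e‖ ^ 2) r) := by rw [hAS]; ring
    rw [h10] at hr3
    linarith
  have hN0 : ∫ x, N x ∂(volM V F) = 0 := by rw [← he', he0, smul_zero]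
  obtain ⟨hLi, hLl⟩ := hL N hNs hN hinj 0
  rw [hN0, norm_zero] at hLl
  have hae := (twoG_of_min hW hF hmin hNs hN).ae_lt (by omega) 0
  have hdat : ∀ q : M × M, ⟪F q.1, F q.2⟫ < 1 → 0 ≤ L (dat F N 0 q) ∧
      (L (dat F N 0 q) = 0 → ⟪N q.1, N q.2⟫ = ⟪F q.1, F q.2⟫ ∧
        ⟪N q.1, F q.2⟫ = ⟪F q.1, N q.2⟫) := fun q hq =>
    hLs (F q.1) (N q.1) (F q.2) (N q.2) (hF.unit _) (hN _).1 (hF.unit _) (hN _).1 (hN _).2.1
      (hN _).2.1 hq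
  have h0 : 0 ≤ᵐ[(volM V F).prod (volM V F)] fun q => L (dat F N 0 q) := by
    filter_upwards [hae] with q hq
    exact (hdat q hq).1
  have hI0 := integral_nonneg_of_ae h0
  have hI : ∫ q, L (dat F N 0 q) ∂((volM V F).prod (volM V F)) = 0 := by
    have h1 := mul_le_mul_of_nonneg_right hvol hA0.le
    nlinarith
  have hz := (integral_eq_zero_iff_of_nonneg_ae h0 hLi).1 hI
  have hop : (volM V F).IsOpenPosMeasure :=
    ⟨fun U hU hne => (volM_pos_of_isOpen hW hF hU hne).ne'⟩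
  have hcF : Continuous F := hF.smooth.continuous
  have hcN : Continuous N := hNs.continuous
  have e1 : (fun q : M × M => (⟪N q.1, N q.2⟫ : ℝ)) = fun q => ⟪F q.1, F q.2⟫ := by
    refine (Continuous.ae_eq_iff_eq ((volM V F).prod (volM V F)) (by fun_prop)
      (by fun_prop)).1 ?_
    filter_upwards [hae, hz] with q hq hq2
    exact ((hdat q hq).2 hq2).1
  have e2 : (fun q : M × M => (⟪N q.1, F q.2⟫ : ℝ)) = fun q => ⟪F q.1, N q.2⟫ := by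
    refine (Continuous.ae_eq_iff_eq ((volM V F).prod (volM V F)) (by fun_prop)
      (by fun_prop)).1 ?_
    filter_upwards [hae, hz] with q hq hq2
    exact ((hdat q hq).2 hq2).2
  exact ⟨fun x y => congrFun e1 (x, y), fun x y => congrFun e2 (x, y)⟩

/-- The identities between the pairs, from a certificate in dimension `2 * h`. -/
theorem pairs_of_cert {h : ℕ} (hh : 2 ≤ h) (hV : finrank ℝ V = 2 * h)
    (hW : finrank ℝ W = finrank ℝ V + 2)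
    {F : M → W} (hF : SphImm V F) (hmin : ∀ x n, IsUnitNormal V F x n → meanCurv V F x n = 0)
    (hng : ¬ ∃ a : W, a ≠ 0 ∧ ∀ x, ⟪F x, a⟫ = 0)
    {C : ℝ} (hC2 : C < 2)
    {L : R9 → ℝ} {γ b0 b1 b2 b3 b4 b5 b6 b7 b8 : ℝ} {l : List (ℝ × RTerm)}
    (hl : ∀ cT ∈ l, cT.2.okM (2 * h) = true)
    (hL : ∀ N : M → W, ContMDiff 𝓘(ℝ, V) 𝓘(ℝ, W) ∞ N → (∀ x, IsUnitNormal V F x (N x)) →
      Injective F → ∀ e : W, Integrable (fun q => L (dat F N e q)) ((volM V F).prod (volM V F)) ∧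
        ∫ q, L (dat F N e q) ∂((volM V F).prod (volM V F))
          + C * sphereVol (2 * h) * (volM V F).real univ
          ≤ (volM V F).real univ ^ 2 + γ * ‖∫ x, N x ∂(volM V F)‖ ^ 2)
    (hpos : ∀ e x N y w : W, ‖e‖ ^ 2 ≤ 25 / 36 → ‖x‖ = 1 → ‖N‖ = 1 → ‖y‖ = 1 → ‖w‖ = 1 →
      ⟪x, N⟫ = 0 → ⟪y, w⟫ = 0 → ⟪x, y⟫ < 1 → 0 ≤ L (dv x N y w e)
        + W9 b0 b1 b2 b3 b4 b5 b6 b7 b8 (dv x N y w e) + rsumM (2 * h) l (dv x N y w e))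
    (hneg : ∀ Θ u r : ℝ, 6 / 5 ≤ Θ → Θ ≤ C → 0 < u → Θ ^ 2 * u ≤ 1 → u ^ 2 ≤ r → r ≤ u →
      Θ * (1 + γ * u + (b0 + (b1 + b2 + b3) * u + (b4 + b7) * r + (b5 + b6) * u ^ 2
        + b8 * ((u - r) / (2 * h + 1)))) + (gam h h)⁻¹ * rvalM (2 * h) l u r < C)
    (hLs : ∀ x N y w : W, ‖x‖ = 1 → ‖N‖ = 1 → ‖y‖ = 1 → ‖w‖ = 1 →
      ⟪x, N⟫ = 0 → ⟪y, w⟫ = 0 → ⟪x, y⟫ < 1 → 0 ≤ L (dv x N y w 0) ∧
        (L (dv x N y w 0) = 0 → ⟪N, w⟫ = ⟪x, y⟫ ∧ ⟪N, y⟫ = ⟪x, w⟫))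
    (hvol : (volM V F).real univ ≤ C * sphereVol (2 * h)) :
    Injective F ∧ ∃ N : M → W, ContMDiff 𝓘(ℝ, V) 𝓘(ℝ, W) ∞ N ∧ (∀ x, IsUnitNormal V F x (N x)) ∧
      (∀ x y, ⟪N x, N y⟫ = ⟪F x, F y⟫) ∧ ∀ x y, ⟪N x, F y⟫ = ⟪F x, N y⟫ := by
  refine pairs_of_law (by omega) hV hW hF hmin hng hC2 hL
    (fun N hNs hN hinj hA0 e he' h5 => ?_) hneg hLs hvol
  obtain ⟨B, hE⟩ := embD_of_inj (by omega) hW hF hmin hNs hN hinj
  rw [hV] at hE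
  obtain ⟨hLi, hLl⟩ := hL N hNs hN hinj e
  have hfin : IsFiniteMeasure (volM V F) := isFiniteMeasure_volM hF
  obtain ⟨r, hr1, hr2, hr3⟩ := hE.law_M (by omega) (Cc := C) (γ := γ) he' hA0 hLi hLl hl
    (fun x N y w hx hN hy hw hxN hyw hs => hpos e x N y w h5 hx hN hy hw hxN hyw hs)
  refine ⟨r, hr1, hr2, hr3.trans (le_of_eq ?_)⟩
  ring

/-- The identities between the pairs, from a certificate in dimension four. -/
theorem pairs4_of_cert (hV : finrank ℝ V = 4) (hW : finrank ℝ W = finrank ℝ V + 2)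
    {F : M → W} (hF : SphImm V F) (hmin : ∀ x n, IsUnitNormal V F x n → meanCurv V F x n = 0)
    (hng : ¬ ∃ a : W, a ≠ 0 ∧ ∀ x, ⟪F x, a⟫ = 0)
    {L : R9 → ℝ} {γ b0 b1 b2 b3 b4 b5 b6 b7 b8 : ℝ} {l : List (ℝ × RTerm)}
    (hl : ∀ cT ∈ l, cT.2.ok = true)
    (hL : ∀ N : M → W, ContMDiff 𝓘(ℝ, V) 𝓘(ℝ, W) ∞ N → (∀ x, IsUnitNormal V F x (N x)) →
      Injective F → ∀ e : W, Integrable (fun q => L (dat F N e q)) ((volM V F).prod (volM V F)) ∧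
        ∫ q, L (dat F N e q) ∂((volM V F).prod (volM V F))
          + 3 / 2 * sphereVol 4 * (volM V F).real univ
          ≤ (volM V F).real univ ^ 2 + γ * ‖∫ x, N x ∂(volM V F)‖ ^ 2)
    (hpos : ∀ e x N y w : W, ‖e‖ ^ 2 ≤ 25 / 36 → ‖x‖ = 1 → ‖N‖ = 1 → ‖y‖ = 1 → ‖w‖ = 1 →
      ⟪x, N⟫ = 0 → ⟪y, w⟫ = 0 → ⟪x, y⟫ < 1 → 0 ≤ L (dv x N y w e)
        + W9 b0 b1 b2 b3 b4 b5 b6 b7 b8 (dv x N y w e) + rsum l (dv x N y w e))
    (hneg : ∀ Θ u r : ℝ, 6 / 5 ≤ Θ → Θ ≤ 3 / 2 → 0 < u → Θ ^ 2 * u ≤ 1 → u ^ 2 ≤ r → r ≤ u →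
      Θ * (1 + γ * u + (b0 + (b1 + b2 + b3) * u + (b4 + b7) * r + (b5 + b6) * u ^ 2
        + b8 * ((u - r) / 5))) + 3 * rval l u r < 3 / 2)
    (hLs : ∀ x N y w : W, ‖x‖ = 1 → ‖N‖ = 1 → ‖y‖ = 1 → ‖w‖ = 1 →
      ⟪x, N⟫ = 0 → ⟪y, w⟫ = 0 → ⟪x, y⟫ < 1 → 0 ≤ L (dv x N y w 0) ∧
        (L (dv x N y w 0) = 0 → ⟪N, w⟫ = ⟪x, y⟫ ∧ ⟪N, y⟫ = ⟪x, w⟫))
    (hvol : (volM V F).real univ ≤ 3 / 2 * sphereVol 4) :
    Injective F ∧ ∃ N : M → W, ContMDiff 𝓘(ℝ, V) 𝓘(ℝ, W) ∞ N ∧ (∀ x, IsUnitNormal V F x (N x)) ∧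
      (∀ x y, ⟪N x, N y⟫ = ⟪F x, F y⟫) ∧ ∀ x y, ⟪N x, F y⟫ = ⟪F x, N y⟫ := by
  refine pairs_of_law (by norm_num) hV hW hF hmin hng (by norm_num) hL
    (fun N hNs hN hinj hA0 e he' h5 => ?_) hneg hLs hvol
  obtain ⟨B, hE⟩ := embD_of_inj (by omega) hW hF hmin hNs hN hinj
  rw [hV] at hE
  obtain ⟨hLi, hLl⟩ := hL N hNs hN hinj e
  have hfin : IsFiniteMeasure (volM V F) := isFiniteMeasure_volM hF
  obtain ⟨r, hr1, hr2, hr3⟩ := hE.law_S (Cc := 3 / 2) (γ := γ) he' hA0 hLi hLl hl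
    (fun x N y w hx hN hy hw hxN hyw hs => hpos e x N y w h5 hx hN hy hw hxN hyw hs)
  refine ⟨r, hr1, hr2, hr3.trans (le_of_eq ?_)⟩
  ring

end

end Vale.Agent.P224.RIG
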