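import Vale.Agent.P224.UE.Sing6
import Vale.Agent.P224.SM2.Gam

/-!
The volume of a closed minimal hypersurface whose pair data are those of a product of two
spheres of the same dimension.
-/

namespace Vale.Agent.P224.RIG

open MeasureTheory Set Filter Function Module Vale.Agent.P224 Vale.Agent.P224.UE
open Vale.Agent.P224.SM2 hiding ker
open scoped Topology RealInnerProductSpace ENNReal ContDiff Manifold

set_option linter.unusedSectionVars false

/-- the functional as a function of the first pair datum -/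
noncomputable def gC (m : ℕ) (y Z : ℝ → ℝ) (T s : ℝ) : ℝ :=
  (1 - T ^ 2) * y T * ((1 + T * s) * SM2.ker T m s)
    + ((1 - T ^ 2) * y T - 2 * Z T) / ((m : ℝ) - 1) * ((1 - T * s) * SM2.ker T m s)

/-- its derivative -/
noncomputable def gC' (m : ℕ) (y : ℝ → ℝ) (T s : ℝ) : ℝ :=
  -((m : ℝ) * y T * ((1 + T * s) * (T - s) * SM2.ker T (m + 1) s))

lemma ker_mul {m : ℕ} {T s : ℝ} (h : 1 - T * s ≠ 0) :
    SM2.ker T m s = (1 - T * s) * SM2.ker T (m + 1) s := by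
  unfold SM2.ker
  rw [pow_succ]
  field_simp

lemma hasDerivAt_gC {m : ℕ} (hm : 2 ≤ m) {y Z : ℝ → ℝ} {T s : ℝ} (hT : T ∈ Ioo (0 : ℝ) 1)
    (hs : s ∈ Icc (-1 : ℝ) 1)
    (hy : HasDerivAt y ((Z T - y T - ((m : ℝ) - 3) * T ^ 2 * y T) / (T * (1 - T ^ 2))) T)
    (hZ : HasDerivAt Z ((m : ℝ) / (2 * T) * (Z T - y T)) T) :
    HasDerivAt (fun T => gC m y Z T s) (gC' m y T s) T := by
  have hv : 1 - T * s ≠ 0 := (one_sub_pos' ⟨hT.1.le, hT.2⟩ hs.2).ne'
  have hT0 : T ≠ 0 := hT.1.ne'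
  have hk0 : 1 - T ^ 2 ≠ 0 := by
    have : 0 < 1 - T ^ 2 := by nlinarith [hT.1, hT.2]
    exact this.ne'
  have hm1 : (m : ℝ) - 1 ≠ 0 := by
    have : (2 : ℝ) ≤ m := by exact_mod_cast hm
    linarith
  have hid : HasDerivAt (fun T : ℝ => T) 1 T := hasDerivAt_id T
  have hk : HasDerivAt (fun T : ℝ => 1 - T ^ 2) (-(2 * T)) T := by
    simpa using (hasDerivAt_pow 2 T).const_sub 1
  have h0 := hk.fun_mul hy
  have hK := hasDerivAt_ker_T (q := m) hv
  have hp : HasDerivAt (fun T : ℝ => 1 + T * s) s T := by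
    simpa using (hid.mul_const s).const_add 1
  have hq : HasDerivAt (fun T : ℝ => 1 - T * s) (-s) T := by
    simpa using (hid.mul_const s).const_sub 1
  have h1 := h0.fun_mul (hp.fun_mul hK)
  have h2 := ((h0.fun_sub (hZ.const_mul 2)).div_const ((m : ℝ) - 1)).fun_mul (hq.fun_mul hK)
  refine (h1.fun_add h2).congr_deriv ?_
  rw [ker_mul hv]
  unfold gC'
  field_simp
  ring

lemma measurable_gC (m : ℕ) (y Z : ℝ → ℝ) (T : ℝ) : Measurable (gC m y Z T) := by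
  have h := measurable_ker T m
  unfold gC
  fun_prop

lemma measurable_gC' (m : ℕ) (y : ℝ → ℝ) (T : ℝ) : Measurable (gC' m y T) := by
  have h := measurable_ker T (m + 1)
  unfold gC'
  fun_prop

lemma contOn_gC {m : ℕ} {y Z : ℝ → ℝ} (hy : ContinuousOn y (Ico 0 1))
    (hZ : ContinuousOn Z (Ico 0 1)) :
    ContinuousOn (uncurry (gC m y Z)) (Ico 0 1 ×ˢ Icc (-1) 1) := by
  have h0 := contOn_ker1 m
  have c1 : ContinuousOn (fun z : ℝ × ℝ => y z.1) (Ico 0 1 ×ˢ Icc (-1) 1) :=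
    hy.comp continuousOn_fst fun z hz => hz.1
  have c2 : ContinuousOn (fun z : ℝ × ℝ => Z z.1) (Ico 0 1 ×ˢ Icc (-1) 1) :=
    hZ.comp continuousOn_fst fun z hz => hz.1
  change ContinuousOn (fun z : ℝ × ℝ => (1 - z.1 ^ 2) * y z.1 * ((1 + z.1 * z.2) * SM2.ker z.1 m z.2)
    + ((1 - z.1 ^ 2) * y z.1 - 2 * Z z.1) / ((m : ℝ) - 1) * ((1 - z.1 * z.2) * SM2.ker z.1 m z.2)) _
  exact (((by fun_prop : ContinuousOn (fun z : ℝ × ℝ => 1 - z.1 ^ 2) _).mul c1).mul
    ((by fun_prop : ContinuousOn (fun z : ℝ × ℝ => 1 + z.1 * z.2) _).mul h0)).add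
    (((((by fun_prop : ContinuousOn (fun z : ℝ × ℝ => 1 - z.1 ^ 2) _).mul c1).sub
      (continuousOn_const.mul c2)).div_const _).mul
    ((by fun_prop : ContinuousOn (fun z : ℝ × ℝ => 1 - z.1 * z.2) _).mul h0))

lemma contOn_gC' {m : ℕ} {y : ℝ → ℝ} (hy : ContinuousOn y (Ico 0 1)) :
    ContinuousOn (uncurry (gC' m y)) (Ioo 0 1 ×ˢ Icc (-1) 1) := by
  have hsub : Ioo (0 : ℝ) 1 ×ˢ Icc (-1 : ℝ) 1 ⊆ Ico 0 1 ×ˢ Icc (-1) 1 :=
    prod_mono Ioo_subset_Ico_self subset_rfl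
  have h0 := (contOn_ker1 (m + 1)).mono hsub
  have c1 : ContinuousOn (fun z : ℝ × ℝ => y z.1) (Ioo 0 1 ×ˢ Icc (-1) 1) :=
    hy.comp continuousOn_fst fun z hz => Ioo_subset_Ico_self hz.1
  change ContinuousOn (fun z : ℝ × ℝ => -((m : ℝ) * y z.1 * ((1 + z.1 * z.2) * (z.1 - z.2)
    * SM2.ker z.1 (m + 1) z.2))) _
  exact ((continuousOn_const.mul c1).mul
    ((by fun_prop : ContinuousOn (fun z : ℝ × ℝ => (1 + z.1 * z.2) * (z.1 - z.2)) _).mul h0)).neg

section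

variable {X : Type*} [MeasurableSpace X] {E : Type*} [NormedAddCommGroup E]
  [InnerProductSpace ℝ E] [MeasurableSpace E] [BorelSpace E] [SecondCountableTopology E]
  {μ : Measure X} [IsFiniteMeasure μ] {m : ℕ} {p n : X → E} {C S : ℝ}

/-- the row on symmetric pair data -/
lemma RR_sym {m T s t v P : ℝ} (hT : T ≠ 0) (hv : v ≠ 0) (hvs : v = 1 - T * s) :
    RR m T 1 0 0 s t t s v P = m * ((1 + T * s) * (T - s) * (P / v)) := by
  have hs : s = (1 - v) / T := by rw [hvs]; field_simp; ring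
  subst hs
  simp only [RR, S1, S2, CC]
  field_simp
  ring

lemma null_sym (h : Two μ m p n) (hm : 1 ≤ m) (hc : ∀ x z, ⟪n x, n z⟫ = ⟪p x, p z⟫)
    (hp : ∀ x z, ⟪n x, p z⟫ = ⟪p x, n z⟫) {T : ℝ} (hT : T ∈ Ioo (0 : ℝ) 1) :
    ∫ q, (1 + T * ⟪p q.1, p q.2⟫) * (T - ⟪p q.1, p q.2⟫) * SM2.ker T (m + 1) ⟪p q.1, p q.2⟫
      ∂(μ.prod μ) = 0 := by
  obtain ⟨-, h0⟩ := h.integral_RK hT 1 0 0
  have hm' : (m : ℝ) ≠ 0 := by
    have : (1 : ℝ) ≤ m := by exact_mod_cast hm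
    linarith
  have e1 : ∀ q : X × X, RK m T 1 0 0 (SM2.pr p n q) = m * ((1 + T * ⟪p q.1, p q.2⟫)
      * (T - ⟪p q.1, p q.2⟫) * SM2.ker T (m + 1) ⟪p q.1, p q.2⟫) := by
    intro q
    have hv : 1 - T * ⟪p q.1, p q.2⟫ ≠ 0 :=
      (one_sub_pos' ⟨hT.1.le, hT.2⟩ (h.pr_mem q).1.2).ne'
    unfold RK SM2.pr
    simp only [hc, hp]
    rw [RR_sym hT.1.ne' hv rfl, ker_mul hv]
    field_simp
  simp only [e1] at h0
  rw [integral_const_mul] at h0
  exact (mul_eq_zero.1 h0).resolve_left hm'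

/-- the functional is constant on symmetric pair data -/
theorem const_sym (h : Two μ m p n) (hm : 2 ≤ m) (hc : ∀ x z, ⟪n x, n z⟫ = ⟪p x, p z⟫)
    (hp : ∀ x z, ⟪n x, p z⟫ = ⟪p x, n z⟫) {y Z e r : ℝ → ℝ} (hC : Cert m y Z e r) {T : ℝ}
    (hT : T ∈ Ico (0 : ℝ) 1) :
    ∫ q, gC m y Z T ⟪p q.1, p q.2⟫ ∂(μ.prod μ) = ∫ q, gC m y Z 0 ⟪p q.1, p q.2⟫ ∂(μ.prod μ) := by
  have hmeas : Measurable (fun q : X × X => ⟪p q.1, p q.2⟫) :=
    (h.mp.comp measurable_fst).inner (h.mp.comp measurable_snd)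
  have hmem : ∀ q : X × X, ⟪p q.1, p q.2⟫ ∈ Icc (-1 : ℝ) 1 := fun q => (h.pr_mem q).1
  have hcont : ContinuousOn (fun T => ∫ q, gC m y Z T ⟪p q.1, p q.2⟫ ∂(μ.prod μ)) (Ico 0 1) :=
    contOn_param (μ.prod μ) hmeas isCompact_Icc hmem (measurable_gC m y Z)
      (contOn_gC hC.cy hC.cZ)
  have hder : ∀ T ∈ Ioo (0 : ℝ) 1,
      HasDerivAt (fun T => ∫ q, gC m y Z T ⟪p q.1, p q.2⟫ ∂(μ.prod μ)) 0 T := by
    intro T hT
    have h1 := deriv_param (μ.prod μ) hmeas isCompact_Icc hmem (measurable_gC m y Z)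
      (measurable_gC' m y) (contOn_gC hC.cy hC.cZ) (contOn_gC' hC.cy)
      (fun T hT s hs => hasDerivAt_gC hm hT hs (hC.hy T hT) (hC.hZ T hT)) hT
    have h2 : ∫ q : X × X, gC' m y T ⟪p q.1, p q.2⟫ ∂(μ.prod μ) = 0 := by
      unfold gC'
      rw [integral_neg, integral_const_mul, null_sym h (by omega) hc hp hT, mul_zero, neg_zero]
    rwa [h2] at h1
  have hd : DifferentiableOn ℝ (fun T => ∫ q, gC m y Z T ⟪p q.1, p q.2⟫ ∂(μ.prod μ))
      (interior (Ico 0 1)) := by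
    rw [interior_Ico]
    exact fun T hT => (hder T hT).differentiableAt.differentiableWithinAt
  have hanti := antitoneOn_of_deriv_nonpos (convex_Ico 0 1) hcont hd (by
    rw [interior_Ico]
    intro T hT
    rw [(hder T hT).deriv])
  have hmono := monotoneOn_of_deriv_nonneg (convex_Ico 0 1) hcont hd (by
    rw [interior_Ico]
    intro T hT
    rw [(hder T hT).deriv])
  have h00 : (0 : ℝ) ∈ Ico (0 : ℝ) 1 := ⟨le_rfl, one_pos⟩
  exact le_antisymm (hanti h00 hT hT.1) (hmono h00 hT hT.1)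

lemma sin_lt_one' {φ : ℝ} (h : φ ∈ Ioo (-(Real.pi / 2)) (Real.pi / 2)) : Real.sin φ < 1 := by
  have h1 := Real.cos_pos_of_mem_Ioo h
  have h2 := Real.sin_sq_add_cos_sq φ
  nlinarith [sq_nonneg (Real.sin φ - 1)]

/-- the volume for symmetric pair data -/
theorem vol_sym (hD : EmbD μ m p n C S) (h2 : Two μ m p n) (hm : 3 ≤ m)
    (hc : ∀ x z, ⟪n x, n z⟫ = ⟪p x, p z⟫) (hp : ∀ x z, ⟪n x, p z⟫ = ⟪p x, n z⟫)
    {y Z e r : ℝ → ℝ} {lam : ℝ} (hC : Cert m y Z e r) (hl : CertLim m y Z e r lam)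
    (h0 : y 0 = ((m : ℝ) - 1) / (m - 2)) (h1 : Z 0 = ((m : ℝ) - 1) / (m - 2)) :
    μ.real univ ^ 2 = 2 * lam * (S * μ.real univ) := by
  have hm' : (3 : ℝ) ≤ m := by exact_mod_cast hm
  have hpi := Real.pi_pos
  set F := 𝓝[<] (Real.pi / 2) with hF
  -- the value at 0
  have v0 : ∫ q, gC m y Z 0 ⟪p q.1, p q.2⟫ ∂(μ.prod μ) = μ.real univ ^ 2 := by
    have e1 : ∀ q : X × X, gC m y Z 0 ⟪p q.1, p q.2⟫ = 1 := by
      intro q
      unfold gC SM2.ker
      rw [h0, h1]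
      have a1 : (m : ℝ) - 1 ≠ 0 := by linarith
      have a2 : (m : ℝ) - 2 ≠ 0 := by linarith
      simp only [zero_mul, sub_zero, one_pow, inv_one, add_zero, mul_one, ne_eq,
        OfNat.ofNat_ne_zero, not_false_eq_true, zero_pow]
      field_simp
      ring
    simp only [e1]
    rw [integral_const, smul_eq_mul, mul_one, ← univ_prod_univ, measureReal_prod_prod]
    ring
  -- the limits of the kernels
  have hsin : Tendsto (fun φ => Real.sin φ) F (𝓝[<] 1) := by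
    rw [tendsto_nhdsWithin_iff]
    constructor
    · have := (Real.continuous_sin.tendsto (Real.pi / 2)).mono_left
        (nhdsWithin_le_nhds (s := Iio (Real.pi / 2)))
      rwa [Real.sin_pi_div_two] at this
    · filter_upwards [Ioo_mem_nhdsLT (show (0 : ℝ) < Real.pi / 2 by positivity)] with φ hφ
      have hφI : φ ∈ Ioo (-(Real.pi / 2)) (Real.pi / 2) := ⟨by linarith [hφ.1], hφ.2⟩
      exact sin_lt_one' hφI
  have f0 := (hD.flux 0 (fun _ => 1) continuous_const).comp hsin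
  have f1 := (hD.flux 0 (fun d => d 0) (continuous_apply 0)).comp hsin
  have k0 : ∫ _y : X, (1 : ℝ) ∂μ = μ.real univ := by simp
  have k1 : ∫ x : X, (dat p n 0 (x, x)) 0 ∂μ = μ.real univ := by
    have : ∀ x : X, dat p n 0 (x, x) 0 = 1 := by
      intro x
      change ⟪p x, p x⟫ = 1
      rw [real_inner_self_eq_norm_sq, h2.np]
      norm_num
    simp only [this]
    simp
  simp only [k0] at f0
  simp only [k1] at f1
  have h0F : ∀ᶠ φ in F, φ ∈ Ioo 0 (Real.pi / 2) := Ioo_mem_nhdsLT (by positivity)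
  set ay : ℝ → ℝ := fun φ => y (Real.sin φ) / Real.cos φ ^ (m - 2) with hay
  set aZ : ℝ → ℝ := fun φ => Z (Real.sin φ) / Real.cos φ ^ m with haZ
  set b : ℝ → ℝ := fun φ => (ay φ - 2 * aZ φ) / ((m : ℝ) - 1) with hb
  set J0 : ℝ → ℝ := fun φ => ∫ q : X × X, 1 * cv m (Real.sin φ) (dat p n 0 q 0) ∂(μ.prod μ)
    with hJ0
  set J1 : ℝ → ℝ := fun φ => ∫ q : X × X, dat p n 0 q 0 * cv m (Real.sin φ) (dat p n 0 q 0)
    ∂(μ.prod μ) with hJ1
  have g0 : Tendsto J0 F (𝓝 (S * μ.real univ)) := f0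
  have g1 : Tendsto J1 F (𝓝 (S * μ.real univ)) := f1
  have hsin1 : Tendsto (fun φ => Real.sin φ) F (𝓝 1) := hsin.mono_right nhdsWithin_le_nhds
  -- b is bounded
  obtain ⟨B, hB⟩ := hl.lZ
  have hbb : ∀ᶠ φ in F, |b φ| ≤ (|lam| + 1) + 2 * B := by
    have h1 : ∀ᶠ φ in F, |ay φ - lam| < 1 := by
      have := (Metric.tendsto_nhds.1 hl.ly) 1 one_pos
      filter_upwards [this] with φ hφ
      rwa [Real.dist_eq] at hφ
    filter_upwards [h1, hB] with φ k1 k3
    have k4 : |ay φ| ≤ |lam| + 1 := by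
      have := abs_sub_abs_le_abs_sub (ay φ) lam
      linarith
    have k5 : |ay φ - 2 * aZ φ| ≤ (|lam| + 1) + 2 * B := by
      calc |ay φ - 2 * aZ φ| ≤ |ay φ| + |2 * aZ φ| := abs_sub _ _
        _ = |ay φ| + 2 * |aZ φ| := by rw [abs_mul]; norm_num
        _ ≤ _ := by linarith
    simp only [hb]
    rw [abs_div, abs_of_pos (by linarith : (0 : ℝ) < m - 1)]
    exact (div_le_self (abs_nonneg _) (by linarith)).trans k5
  have t1 : Tendsto (fun φ => ay φ * (J0 φ + Real.sin φ * J1 φ)) F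
      (𝓝 (lam * (S * μ.real univ + 1 * (S * μ.real univ)))) :=
    hl.ly.mul (g0.add (hsin1.mul g1))
  have t2 : Tendsto (fun φ => b φ * (J0 φ - Real.sin φ * J1 φ)) F (𝓝 0) := by
    have h3 : Tendsto (fun φ => J0 φ - Real.sin φ * J1 φ) F (𝓝 0) := by
      have := g0.sub (hsin1.mul g1)
      rwa [one_mul, sub_self] at this
    exact bdd_le_mul_tendsto_zero' _ (by simpa only [Real.norm_eq_abs] using hbb) h3
  have t3 := t1.add t2
  have hev : (fun φ => ay φ * (J0 φ + Real.sin φ * J1 φ) + b φ * (J0 φ - Real.sin φ * J1 φ))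
      =ᶠ[F] fun _ => μ.real univ ^ 2 := by
    filter_upwards [h0F] with φ hφ
    have hφI : φ ∈ Ioo (-(Real.pi / 2)) (Real.pi / 2) := ⟨by linarith [hφ.1], hφ.2⟩
    have hcos := Real.cos_pos_of_mem_Ioo hφI
    have hs0 : 0 < Real.sin φ := Real.sin_pos_of_pos_of_lt_pi hφ.1 (by linarith [hφ.2])
    have hs1 : Real.sin φ < 1 := sin_lt_one' hφI
    have hT' : Real.sin φ ∈ Ico (0 : ℝ) 1 := ⟨hs0.le, hs1⟩
    have hkp : kp (Real.sin φ) = Real.cos φ := by
      unfold kp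
      rw [← Real.cos_sq', Real.sqrt_sq hcos.le]
    have hcs : 1 - Real.sin φ ^ 2 = Real.cos φ ^ 2 := (Real.cos_sq' φ).symm
    have hcm : Real.cos φ ^ m = Real.cos φ ^ (m - 2) * Real.cos φ ^ 2 := by
      rw [← pow_add, Nat.sub_add_cancel (by omega)]
    have hck : Continuous fun s : ℝ => s := continuous_id
    have i0 : Integrable (fun q : X × X => 1 * cv m (Real.sin φ) (dat p n 0 q 0)) (μ.prod μ) := by
      have := integrable_param (μ.prod μ) h2.measurable_pr isCompact_KK h2.pr_mem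
        (f := fun k => 1 * cv m (Real.sin φ) k.1)
        (by have := measurable_ker (Real.sin φ) m; unfold cv; fun_prop)
        (by have := contOn_ker' hT' m; unfold cv; fun_prop)
      exact this
    have i1 : Integrable (fun q : X × X => dat p n 0 q 0 * cv m (Real.sin φ) (dat p n 0 q 0))
        (μ.prod μ) := by
      have := integrable_param (μ.prod μ) h2.measurable_pr isCompact_KK h2.pr_mem
        (f := fun k => k.1 * cv m (Real.sin φ) k.1)
        (by have := measurable_ker (Real.sin φ) m; unfold cv; fun_prop)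
        (by have := contOn_ker' hT' m; unfold cv; fun_prop)
      exact this
    have key := const_sym h2 (by omega) hc hp hC hT'
    rw [v0] at key
    rw [← key]
    have e2 : ∀ q : X × X, gC m y Z (Real.sin φ) ⟪p q.1, p q.2⟫
        = (ay φ + b φ) * (1 * cv m (Real.sin φ) (dat p n 0 q 0))
          + (Real.sin φ * (ay φ - b φ)) * (dat p n 0 q 0 * cv m (Real.sin φ) (dat p n 0 q 0)) := by
      intro q
      change gC m y Z (Real.sin φ) ⟪p q.1, p q.2⟫
        = (ay φ + b φ) * (1 * cv m (Real.sin φ) ⟪p q.1, p q.2⟫)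
          + (Real.sin φ * (ay φ - b φ)) * (⟪p q.1, p q.2⟫ * cv m (Real.sin φ) ⟪p q.1, p q.2⟫)
      unfold gC cv
      rw [hkp, hcs]
      simp only [hay, haZ, hb]
      rw [hcm]
      have hc2 : Real.cos φ ^ 2 ≠ 0 := (pow_pos hcos 2).ne'
      have hc3 : Real.cos φ ^ (m - 2) ≠ 0 := (pow_pos hcos _).ne'
      have a1 : (m : ℝ) - 1 ≠ 0 := by linarith
      field_simp
      ring
    simp only [e2]
    rw [integral_add (i0.const_mul _) (i1.const_mul _), integral_const_mul (ay φ + b φ),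
      integral_const_mul (Real.sin φ * (ay φ - b φ))]
    simp only [hJ0, hJ1]
    ring
  have huniq := tendsto_nhds_unique (t3.congr' hev) tendsto_const_nhds
  linarith

end

end Vale.Agent.P224.RIG
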