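import Vale.Agent.P224.POS.LawNumM
import Vale.Agent.P224.POS.LawNum

/-!
The numerical laws on the closed range `T ≤ C`, for `0 < u`.
-/

namespace Vale.Agent.P224.RIG

open Vale.Agent.P224.POS

/-- the two-variable inequality from a one-variable one, on the closed range -/
lemma law_core_le {C Cl A D B E T u : ℝ} (hCl : Cl ≤ C) (h1 : 6 / 5 ≤ T) (h2 : T ≤ C) (hu : 0 < u)
    (hT : T ^ 2 * u ≤ 1) (hB : 0 ≤ B * T + E)
    (hR : E + B * T + D * T ^ 2 + A * T ^ 3 + (-Cl) * T ^ 4 + 1 * T ^ 5 < 0) :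
    T * (1 + A * u + B * u ^ 2) + D * u + E * u ^ 2 < C := by
  have hT0 : 0 < T := by linarith
  set w := T ^ 2 * u with hw
  have hw0 : 0 < w := by positivity
  have hww : w ^ 2 ≤ w := by nlinarith
  have e1 : T ^ 4 * (T * (1 + A * u + B * u ^ 2) + D * u + E * u ^ 2 - C)
      = T ^ 4 * (T - C) * (1 - w) + w * (E + B * T + D * T ^ 2 + A * T ^ 3 + (-C) * T ^ 4
        + 1 * T ^ 5) - (B * T + E) * (w - w ^ 2) := by
    rw [hw]
    ring
  have h3 : 0 ≤ (B * T + E) * (w - w ^ 2) := mul_nonneg hB (by linarith)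
  have h4 : T ^ 4 * (T - C) ≤ 0 := mul_nonpos_of_nonneg_of_nonpos (by positivity) (by linarith)
  have h5 : E + B * T + D * T ^ 2 + A * T ^ 3 + (-C) * T ^ 4 + 1 * T ^ 5 < 0 := by
    have : 0 ≤ (C - Cl) * T ^ 4 := mul_nonneg (by linarith) (by positivity)
    linarith
  have h6 : T ^ 4 * (T - C) * (1 - w) + w * (E + B * T + D * T ^ 2 + A * T ^ 3 + (-C) * T ^ 4
      + 1 * T ^ 5) < 0 := by
    have k1 := mul_neg_of_pos_of_neg hw0 h5
    have k2 : T ^ 4 * (T - C) * (1 - w) ≤ 0 :=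
      mul_nonpos_of_nonpos_of_nonneg h4 (by linarith)
    linarith
  have h7 : T ^ 4 * (T * (1 + A * u + B * u ^ 2) + D * u + E * u ^ 2 - C) < 0 := by
    rw [e1]
    linarith
  have h8 := neg_of_mul_neg_right h7 (by positivity : (0 : ℝ) ≤ T ^ 4)
  linarith

/-- **The numerical law in even dimension, on the closed range.** -/
theorem law_neg_le {C Cl Cu γ γu B1 B2 B3 φ1 φ2 : ℝ} (hCl : Cl ≤ C) (hCu : C ≤ Cu) (hγ : γ ≤ γu)
    (hB3 : 0 ≤ B3) (hB4 : 0 ≤ (B2 + B3) * (6 / 5) + φ2) (hB5 : 0 ≤ (B2 + B3) * Cu + φ2)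
    (hR1 : ∀ T : ℝ, 6 / 5 ≤ T → T ≤ Cu → 0 + B3 * T + (φ1 + φ2) * T ^ 2
      + (γu + B1 + B2) * T ^ 3 + (-Cl) * T ^ 4 + 1 * T ^ 5 < 0)
    (hR2 : ∀ T : ℝ, 6 / 5 ≤ T → T ≤ Cu → φ2 + (B2 + B3) * T + φ1 * T ^ 2
      + (γu + B1) * T ^ 3 + (-Cl) * T ^ 4 + 1 * T ^ 5 < 0)
    {T u r : ℝ} (h1 : 6 / 5 ≤ T) (h2 : T ≤ C) (hu : 0 < u)
    (hT : T ^ 2 * u ≤ 1) (hr1 : u ^ 2 ≤ r) (hr2 : r ≤ u) :
    T * (1 + γ * u + (B1 * u + B2 * r + B3 * u ^ 2)) + (φ1 * u + φ2 * r) < C := by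
  have hT0 : 0 < T := by linarith
  have hTC : T ≤ Cu := by linarith
  have hg : T * u * γ ≤ T * u * γu := mul_le_mul_of_nonneg_left hγ (by positivity)
  rcases le_total 0 (B2 * T + φ2) with hk | hk
  · have h3 := mul_le_mul_of_nonneg_left hr2 hk
    have h4 := law_core_le (A := γu + B1 + B2) (D := φ1 + φ2) (B := B3) (E := 0) hCl h1 h2 hu hT
      (by positivity) (hR1 T h1 hTC)
    nlinarith
  · have h3 := mul_le_mul_of_nonpos_left hr1 hk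
    have hB : 0 ≤ (B2 + B3) * T + φ2 := by
      rcases le_total 0 (B2 + B3) with h | h
      · have := mul_le_mul_of_nonneg_left h1 h
        linarith
      · have := mul_le_mul_of_nonpos_left hTC h
        linarith
    have h4 := law_core_le (A := γu + B1) (D := φ1) (B := B2 + B3) (E := φ2) hCl h1 h2 hu hT
      hB (hR2 T h1 hTC)
    nlinarith

/-- The same in the shape of the hypothesis `hneg` of `pairs_of_cert`. -/
theorem law_neg_le_S {C Cl Cu γ γu b2 b3 b4 b5 b6 b7 φ1 φ2 : ℝ} (hCl : Cl ≤ C) (hCu : C ≤ Cu)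
    (hγ : γ ≤ γu) (hB3 : 0 ≤ b5 + b6) (hB4 : 0 ≤ (b4 + b7 + (b5 + b6)) * (6 / 5) + φ2)
    (hB5 : 0 ≤ (b4 + b7 + (b5 + b6)) * Cu + φ2)
    (hR1 : ∀ T : ℝ, 6 / 5 ≤ T → T ≤ Cu → 0 + (b5 + b6) * T + (φ1 + φ2) * T ^ 2
      + (γu + (b2 + b3) + (b4 + b7)) * T ^ 3 + (-Cl) * T ^ 4 + 1 * T ^ 5 < 0)
    (hR2 : ∀ T : ℝ, 6 / 5 ≤ T → T ≤ Cu → φ2 + (b4 + b7 + (b5 + b6)) * T + φ1 * T ^ 2
      + (γu + (b2 + b3)) * T ^ 3 + (-Cl) * T ^ 4 + 1 * T ^ 5 < 0)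
    {T u r g R k : ℝ} (h1 : 6 / 5 ≤ T) (h2 : T ≤ C) (hu : 0 < u)
    (hT : T ^ 2 * u ≤ 1) (hr1 : u ^ 2 ≤ r) (hr2 : r ≤ u) (hR : g * R = φ1 * u + φ2 * r) :
    T * (1 + γ * u + (0 + (0 + b2 + b3) * u + (b4 + b7) * r + (b5 + b6) * u ^ 2
      + 0 * ((u - r) / k))) + g * R < C := by
  have h := law_neg_le hCl hCu hγ hB3 hB4 hB5 hR1 hR2 h1 h2 hu hT hr1 hr2
  rw [hR]
  refine lt_of_eq_of_lt ?_ h
  ring

/-- The numbers of the certificate in dimension four. -/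
theorem law_neg_four {T u r : ℝ} (h1 : 6 / 5 ≤ T) (h2 : T ≤ 3 / 2) (hu : 0 < u)
    (hT : T ^ 2 * u ≤ 1) (hr1 : u ^ 2 ≤ r) (hr2 : r ≤ u) :
    T * (1 + (3 * Real.log 2 - 3 / 2) * u
        + (1701955 / 524288 * u - 5069825 / 1048576 * r + 116875 / 524288 * u ^ 2))
      + 3 * (-(2062939 / 1048576) * u + 4951 / 2048 * r) < 3 / 2 := by
  have hlog : Real.log 2 < 0.6931471808 := Real.log_two_lt_d9
  have h := law_neg_le (C := 3 / 2) (γ := 3 * Real.log 2 - 3 / 2) (B1 := 1701955 / 524288)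
    (B2 := -(5069825 / 1048576)) (B3 := 116875 / 524288) (φ1 := -(3 * 2062939 / 1048576))
    (φ2 := 3 * 4951 / 2048) (Cl := 3 / 2) (Cu := 3 / 2) (γu := 57945 / 100000) le_rfl le_rfl
    (by linarith)
    (by norm_num) (by norm_num) (by norm_num) ?_ ?_ h1 h2 hu hT hr1 hr2
  · refine lt_of_eq_of_lt ?_ h
    ring
  · intro T hT1 hT2
    exact quintic_neg (by norm_num) (by norm_num) (by norm_num) (by norm_num) (by norm_num)
      (by norm_num) (by norm_num) (le_of_eq rfl) (le_of_eq rfl) (le_of_eq rfl) (le_of_eq rfl)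
      (le_of_eq rfl) (le_of_eq rfl) hT1 hT2
  · intro T hT1 hT2
    exact quintic_neg (by norm_num) (by norm_num) (by norm_num) (by norm_num) (by norm_num)
      (by norm_num) (by norm_num) (le_of_eq rfl) (le_of_eq rfl) (le_of_eq rfl) (le_of_eq rfl)
      (le_of_eq rfl) (le_of_eq rfl) hT1 hT2

/-- The same with the static values of the certificate and the value `R` of the flux terms. -/
theorem law_neg_four_S {T u r R : ℝ} (h1 : 6 / 5 ≤ T) (h2 : T ≤ 3 / 2) (hu : 0 < u)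
    (hT : T ^ 2 * u ≤ 1) (hr1 : u ^ 2 ≤ r) (hr2 : r ≤ u)
    (hR : R = -(2062939 / 1048576) * u + 4951 / 2048 * r) :
    T * (1 + (3 * Real.log 2 - 3 / 2) * u
        + (0 + (0 + (-(3452253 / 1048576)) + 6856163 / 1048576) * u
          + (-(2814369 / 524288) + 558913 / 1048576) * r
          + (-(517973 / 262144) + 1152821 / 524288) * u ^ 2 + 0 * ((u - r) / 5)))
      + 3 * R < 3 / 2 := by
  refine lt_of_eq_of_lt ?_ (law_neg_four h1 h2 hu hT hr1 hr2)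
  rw [hR]
  ring

end Vale.Agent.P224.RIG
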