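import Vale.Agent.P224.RIG.Cert
import Vale.Agent.P224.RIG.N10
import Vale.Agent.P224.POS.M10.Main
import Vale.Agent.P224.POS.M10.Eok

/-!
Rigidity in dimension 10: the identities between the pairs of points.
-/

namespace Vale.Agent.P224.RIG.M10

open MeasureTheory Set Filter Function Module Vale.Agent.P224 Vale.Agent.P224.UE
open Vale.Agent.P224.SMH Vale.Agent.P224.SH Vale.Agent.P224.POS Vale.Agent.P224.POS.M10
open Vale.Agent.P224.SM2 hiding ker
open scoped Topology RealInnerProductSpace ENNReal ContDiff Manifold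

variable {V W M : Type*} [NormedAddCommGroup V] [InnerProductSpace ℝ V] [FiniteDimensional ℝ V]
  [NormedAddCommGroup W] [InnerProductSpace ℝ W] [FiniteDimensional ℝ W]
  [TopologicalSpace M] [ChartedSpace V M]
  [MeasurableSpace V] [BorelSpace V] [MeasurableSpace M] [BorelSpace M]
  [IsManifold 𝓘(ℝ, V) ∞ M] [CompactSpace M] [T2Space M] [ConnectedSpace M]
  [MeasurableSpace W] [BorelSpace W]

/-- The identities between the pairs of points, in the case of equality in dimension 10. -/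
theorem pairs (hV : finrank ℝ V = 10) (hW : finrank ℝ W = finrank ℝ V + 2)
    {F : M → W} (hF : SphImm V F) (hmin : ∀ x n, IsUnitNormal V F x n → meanCurv V F x n = 0)
    (hng : ¬ ∃ a : W, a ≠ 0 ∧ ∀ x, ⟪F x, a⟫ = 0)
    (hvol : (volM V F).real univ ≤ leastClifford (finrank ℝ V)) :
    Injective F ∧ ∃ N : M → W, ContMDiff 𝓘(ℝ, V) 𝓘(ℝ, W) ∞ N ∧ (∀ x, IsUnitNormal V F x (N x)) ∧
      (∀ x y, ⟪N x, N y⟫ = ⟪F x, F y⟫) ∧ ∀ x y, ⟪N x, F y⟫ = ⟪F x, N y⟫ := by
  have hE := M10.eok
  rw [evenRatio_five] at hE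
  have hC : 945 * Real.pi / 2048 = evenRatio 5 := by
    rw [evenRatio_five]
  refine pairs_of_cert (h := 5) (by norm_num) hV hW hF hmin hng (C := 945 * Real.pi / 2048)
    (by have := Real.pi_lt_d6; linarith) rows_ok (fun N hNs hN hinj v => ?_)
    (fun e x N y w he hx hN hy hw hxN hyw hs => pos_of hs (pos he hx hN hy hw hxN hyw))
    (hneg_le le_rfl) (fun x N y w hx hN hy hw hxN hyw hs => hLs x N y w hx hN hy hw hxN hyw hs)
    (hvol.trans ?_)
  · exact hE.static (m := 10) (kA := 4) (kB := 6) (by norm_num) HD10_zOk HD10_dvOk (by norm_num)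
      (by norm_num) (fun x hx => Hd_HD10 hx) hV hW hF hmin hNs hN hinj v
  · rw [hV, hC]
    exact leastClifford_even (h := 5) (by norm_num)

end Vale.Agent.P224.RIG.M10
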