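import Vale.Agent.P224.RIG.LgPos
import Vale.Agent.P224.RIG.LawLe
import Vale.Agent.P224.POS.M12.Law

/-!
Rigidity in dimension 12: the numbers.
-/

namespace Vale.Agent.P224.RIG.M12

open Vale.Agent.P224.UE Vale.Agent.P224.POS Vale.Agent.P224.POS.RM
open scoped RealInnerProductSpace
open Vale.Agent.P224.POS.M12

lemma pA {v : ℝ} (hv : 0 < v) (hv2 : v ≤ 2) : 0 < hor [48, 169, 216, 82] v := by
  have hw : 0 ≤ 2 - v := by linarith
  simp only [hor_cons, hor_nil]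
  push_cast
  linarith only [hv, hw,
    pow_nonneg hv.le 2,
    pow_nonneg hv.le 3]

lemma p2 {v : ℝ} (hv : 0 < v) (hv2 : v ≤ 2) : 0 ≤ hor [182, 638, 1094, 930, 419] v := by
  have hw : 0 ≤ 2 - v := by linarith
  simp only [hor_cons, hor_nil]
  push_cast
  linarith only [hv, hw,
    pow_nonneg hv.le 2,
    pow_nonneg hv.le 3,
    pow_nonneg hv.le 4]

lemma pP {v : ℝ} (hv : 0 < v) (hv2 : v ≤ 2) : 0 < hor [242, 783, 1414, 1766, 2177, 2349, 2479] v
    + hor [0, -60, -84, 225, 547, 409] v - v * (2 - v) * hor [182, 638, 1094, 930, 419] v := by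
  have hw : 0 ≤ 2 - v := by linarith
  simp only [hor_cons, hor_nil]
  push_cast
  linarith only [hv, hw,
    pow_nonneg hv.le 2,
    pow_nonneg hv.le 3,
    pow_nonneg hv.le 4,
    pow_nonneg hv.le 5,
    pow_nonneg hv.le 6]

lemma pM {v : ℝ} (hv : 0 < v) (hv2 : v ≤ 2) : 0 < hor [242, 783, 1414, 1766, 2177, 2349, 2479] v
    - hor [0, -60, -84, 225, 547, 409] v - v * (2 - v) * hor [182, 638, 1094, 930, 419] v := by
  have hw : 0 ≤ 2 - v := by linarith
  simp only [hor_cons, hor_nil]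
  push_cast
  linarith only [hv, hw,
    pow_nonneg hv.le 2,
    pow_nonneg hv.le 4,
    pow_nonneg hv.le 5,
    pow_nonneg hv.le 6,
    mul_nonneg (pow_nonneg hv.le 2) hw]

/-- the zero set of the static functional -/
theorem hLs {W : Type*} [NormedAddCommGroup W] [InnerProductSpace ℝ W] (x N y w : W)
    (hx : ‖x‖ = 1) (hN : ‖N‖ = 1) (hy : ‖y‖ = 1) (hw : ‖w‖ = 1)
    (hxN : ⟪x, N⟫ = 0) (hyw : ⟪y, w⟫ = 0) (hs : ⟪x, y⟫ < 1) :
    0 ≤ Lg 10000 7 [48, 169, 216, 82] [242, 783, 1414, 1766, 2177, 2349, 2479]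
    [0, -60, -84, 225, 547, 409]
    [182, 638, 1094, 930, 419] (dv x N y w 0) ∧
      (Lg 10000 7 [48, 169, 216, 82] [242, 783, 1414, 1766, 2177, 2349, 2479]
    [0, -60, -84, 225, 547, 409]
    [182, 638, 1094, 930, 419] (dv x N y w 0) = 0 →
        ⟪N, w⟫ = ⟪x, y⟫ ∧ ⟪N, y⟫ = ⟪x, w⟫) :=
  Lg_zero (by norm_num) (fun _ h1 h2 => pA h1 h2) (fun _ h1 h2 => p2 h1 h2)
    (fun _ h1 h2 => pP h1 h2) (fun _ h1 h2 => pM h1 h2) x N y w hx hN hy hw hxN hyw hs

/-- the numerical law on the closed range -/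
theorem hneg_le {γ : ℝ} (hγ : γ ≤ 5117 / 10000) : ∀ Θ u r : ℝ, 6 / 5 ≤ Θ → Θ ≤ 231 / 160 → 0 < u →
    Θ ^ 2 * u ≤ 1 → u ^ 2 ≤ r → r ≤ u →
      Θ * (1 + γ * u + (0 + (0 + (-(52204191 / 16777216)) + (2977382563 / 1073741824)) * u
        + ((-(1926358283 / 1073741824)) + (698451213 / 1073741824)) * r
        + ((213421475 / 1073741824) + 0) * u ^ 2
        + 0 * ((u - r) / (2 * ((6 : ℕ) : ℝ) + 1))))
        + (gam 6 6)⁻¹ * rvalM (2 * 6) (rl 5368709120000 rows) u r < 231 / 160 := by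
  intro Θ u r h1 h2 hu hT hr1 hr2
  have hg : (gam 6 6)⁻¹ = 693 / 8 := by norm_num [gam]
  have hr : rvalM (2 * 6) (rl 5368709120000 rows) u r = -(16177441 / 3489660928) * u + 33255817 / 1744830464 * r := rval_eq u r
  rw [hg, hr]
  refine law_neg_le_S (Cl := 231 / 160) (Cu := 231 / 160) (γu := 5117 / 10000)
    (φ1 := 693 / 8 * (-(16177441 / 3489660928))) (φ2 := 693 / 8 * (33255817 / 1744830464))
    (by linarith) (by linarith) hγ (by norm_num) (by norm_num) (by norm_num) ?_ ?_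
    h1 h2 hu hT hr1 hr2 (by ring)
  · intro T hT1 hT2
    exact quintic_neg (by norm_num) (by norm_num) (by norm_num) (by norm_num) (by norm_num)
      (by norm_num) (by norm_num) (le_of_eq rfl) (le_of_eq rfl) (le_of_eq rfl) (le_of_eq rfl)
      (le_of_eq rfl) (le_of_eq rfl) hT1 hT2
  · intro T hT1 hT2
    exact quintic_neg (by norm_num) (by norm_num) (by norm_num) (by norm_num) (by norm_num)
      (by norm_num) (by norm_num) (le_of_eq rfl) (le_of_eq rfl) (le_of_eq rfl) (le_of_eq rfl)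
      (le_of_eq rfl) (le_of_eq rfl) hT1 hT2

end Vale.Agent.P224.RIG.M12
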