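import Vale.Agent.P224.RIG.LgPos
import Vale.Agent.P224.RIG.LawLe
import Vale.Agent.P224.POS.M16.Law

/-!
Rigidity in dimension 16: the numbers.
-/

namespace Vale.Agent.P224.RIG.M16

open Vale.Agent.P224.UE Vale.Agent.P224.POS Vale.Agent.P224.POS.RM
open scoped RealInnerProductSpace
open Vale.Agent.P224.POS.M16

lemma pA {v : ℝ} (hv : 0 < v) (hv2 : v ≤ 2) : 0 < hor [99, 457, 1018, 1237, 992, 491] v := by
  have hw : 0 ≤ 2 - v := by linarith
  simp only [hor_cons, hor_nil]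
  push_cast
  linarith only [hv, hw,
    pow_nonneg hv.le 2,
    pow_nonneg hv.le 3,
    pow_nonneg hv.le 4,
    pow_nonneg hv.le 5]

lemma p2 {v : ℝ} (hv : 0 < v) (hv2 : v ≤ 2) : 0 ≤ hor [690, 3175, 7474, 10511, 11725, 7072, 3167] v := by
  have hw : 0 ≤ 2 - v := by linarith
  simp only [hor_cons, hor_nil]
  push_cast
  linarith only [hv, hw,
    pow_nonneg hv.le 2,
    pow_nonneg hv.le 3,
    pow_nonneg hv.le 4,
    pow_nonneg hv.le 5,
    pow_nonneg hv.le 6]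

lemma pP {v : ℝ} (hv : 0 < v) (hv2 : v ≤ 2) : 0 < hor [690, 2909, 7000, 10057, 19116, 13649, 26676, 21743, 24523] v
    + hor [0, -173, -458, -96, 1921, 4008, 4586, 3023] v - v * (2 - v) * hor [690, 3175, 7474, 10511, 11725, 7072, 3167] v := by
  have hw : 0 ≤ 2 - v := by linarith
  simp only [hor_cons, hor_nil]
  push_cast
  linarith only [hv, hw,
    sq_nonneg (v - 1812 / 1764 * v ^ 2),
    pow_nonneg hv.le 4,
    pow_nonneg hv.le 5,
    pow_nonneg hv.le 6,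
    pow_nonneg hv.le 7,
    pow_nonneg hv.le 8]

lemma pM {v : ℝ} (hv : 0 < v) (hv2 : v ≤ 2) : 0 < hor [690, 2909, 7000, 10057, 19116, 13649, 26676, 21743, 24523] v
    - hor [0, -173, -458, -96, 1921, 4008, 4586, 3023] v - v * (2 - v) * hor [690, 3175, 7474, 10511, 11725, 7072, 3167] v := by
  have hw : 0 ≤ 2 - v := by linarith
  simp only [hor_cons, hor_nil]
  push_cast
  linarith only [hv, hw,
    sq_nonneg (v - 1620 / 3596 * v ^ 2),
    sq_nonneg (v ^ 2 - 3298 / 6494 * v ^ 3),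
    pow_nonneg hv.le 4,
    pow_nonneg hv.le 6,
    pow_nonneg hv.le 7,
    pow_nonneg hv.le 8]

/-- the zero set of the static functional -/
theorem hLs {W : Type*} [NormedAddCommGroup W] [InnerProductSpace ℝ W] (x N y w : W)
    (hx : ‖x‖ = 1) (hN : ‖N‖ = 1) (hy : ‖y‖ = 1) (hw : ‖w‖ = 1)
    (hxN : ⟪x, N⟫ = 0) (hyw : ⟪y, w⟫ = 0) (hs : ⟪x, y⟫ < 1) :
    0 ≤ Lg 100000 9 [99, 457, 1018, 1237, 992, 491] [690, 2909, 7000, 10057, 19116, 13649, 26676, 21743, 24523]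
    [0, -173, -458, -96, 1921, 4008, 4586, 3023]
    [690, 3175, 7474, 10511, 11725, 7072, 3167] (dv x N y w 0) ∧
      (Lg 100000 9 [99, 457, 1018, 1237, 992, 491] [690, 2909, 7000, 10057, 19116, 13649, 26676, 21743, 24523]
    [0, -173, -458, -96, 1921, 4008, 4586, 3023]
    [690, 3175, 7474, 10511, 11725, 7072, 3167] (dv x N y w 0) = 0 →
        ⟪N, w⟫ = ⟪x, y⟫ ∧ ⟪N, y⟫ = ⟪x, w⟫) :=
  Lg_zero (by norm_num) (fun _ h1 h2 => pA h1 h2) (fun _ h1 h2 => p2 h1 h2)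
    (fun _ h1 h2 => pP h1 h2) (fun _ h1 h2 => pM h1 h2) x N y w hx hN hy hw hxN hyw hs

/-- the numerical law on the closed range -/
theorem hneg_le {γ : ℝ} (hγ : γ ≤ 5019 / 10000) : ∀ Θ u r : ℝ, 6 / 5 ≤ Θ → Θ ≤ 1287 / 896 → 0 < u →
    Θ ^ 2 * u ≤ 1 → u ^ 2 ≤ r → r ≤ u →
      Θ * (1 + γ * u + (0 + (0 + (-(46861082209 / 17179869184)) + (17449539639 / 8589934592)) * u
        + ((-(1308644439 / 1073741824)) + (7436238291 / 17179869184)) * r
        + ((1828036035 / 17179869184) + 0) * u ^ 2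
        + 0 * ((u - r) / (2 * ((8 : ℕ) : ℝ) + 1))))
        + (gam 8 8)⁻¹ * rvalM (2 * 8) (rl 20615843020800000 rows) u r < 1287 / 896 := by
  intro Θ u r h1 h2 hu hT hr1 hr2
  have hg : (gam 8 8)⁻¹ = 6435 / 16 := by norm_num [gam]
  have hr : rvalM (2 * 8) (rl 20615843020800000 rows) u r = 138421841 / 292057776128 * u + 204942173 / 73014444032 * r := rval_eq u r
  rw [hg, hr]
  refine law_neg_le_S (Cl := 1287 / 896) (Cu := 1287 / 896) (γu := 5019 / 10000)
    (φ1 := 6435 / 16 * (138421841 / 292057776128)) (φ2 := 6435 / 16 * (204942173 / 73014444032))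
    (by linarith) (by linarith) hγ (by norm_num) (by norm_num) (by norm_num) ?_ ?_
    h1 h2 hu hT hr1 hr2 (by ring)
  · intro T hT1 hT2
    exact quintic_neg (by norm_num) (by norm_num) (by norm_num) (by norm_num) (by norm_num)
      (by norm_num) (by norm_num) (le_of_eq rfl) (le_of_eq rfl) (le_of_eq rfl) (le_of_eq rfl)
      (le_of_eq rfl) (le_of_eq rfl) hT1 hT2
  · intro T hT1 hT2
    exact quintic_neg (by norm_num) (by norm_num) (by norm_num) (by norm_num) (by norm_num)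
      (by norm_num) (by norm_num) (le_of_eq rfl) (le_of_eq rfl) (le_of_eq rfl) (le_of_eq rfl)
      (le_of_eq rfl) (le_of_eq rfl) hT1 hT2

end Vale.Agent.P224.RIG.M16
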