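import Vale.Agent.P224.RIG.LgPos
import Vale.Agent.P224.RIG.LawLe

/-!
Rigidity in dimension 4: the numbers.
-/

namespace Vale.Agent.P224.RIG.M4

open Vale.Agent.P224.UE Vale.Agent.P224.POS Vale.Agent.P224.POS.RM
open scoped RealInnerProductSpace

lemma pA {v : ℝ} (hv : 0 < v) (hv2 : v ≤ 2) : 0 < hor [1857, -2500, 1630, -370] v := by
  have hw : 0 ≤ 2 - v := by linarith
  simp only [hor_cons, hor_nil]
  push_cast
  linarith only [hv, hw,
    mul_nonneg hw (sq_nonneg (v - 89 / 74))]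

lemma p2 {v : ℝ} (hv : 0 < v) (hv2 : v ≤ 2) : 0 ≤ hor [670, 222, -30] v := by
  have hw : 0 ≤ 2 - v := by linarith
  simp only [hor_cons, hor_nil]
  push_cast
  linarith only [hv, hw,
    mul_nonneg (pow_nonneg hv.le 1) hw]

lemma pP {v : ℝ} (hv : 0 < v) (hv2 : v ≤ 2) : 0 < hor [2472, 2462, 2157, 118] v
    + hor [-21, -150, 670, -147] v - v * (2 - v) * hor [670, 222, -30] v := by
  have hw : 0 ≤ 2 - v := by linarith
  simp only [hor_cons, hor_nil]
  push_cast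
  linarith only [hv, hw,
    pow_nonneg hv.le 2,
    pow_nonneg hv.le 3,
    mul_nonneg (pow_nonneg hv.le 3) hw]

lemma pM {v : ℝ} (hv : 0 < v) (hv2 : v ≤ 2) : 0 < hor [2472, 2462, 2157, 118] v
    - hor [-21, -150, 670, -147] v - v * (2 - v) * hor [670, 222, -30] v := by
  have hw : 0 ≤ 2 - v := by linarith
  simp only [hor_cons, hor_nil]
  push_cast
  linarith only [hv, hw,
    pow_nonneg hv.le 2,
    pow_nonneg hv.le 3,
    mul_nonneg (pow_nonneg hv.le 3) hw]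

/-- the zero set of the static functional -/
theorem hLs {W : Type*} [NormedAddCommGroup W] [InnerProductSpace ℝ W] (x N y w : W)
    (hx : ‖x‖ = 1) (hN : ‖N‖ = 1) (hy : ‖y‖ = 1) (hw : ‖w‖ = 1)
    (hxN : ⟪x, N⟫ = 0) (hyw : ⟪y, w⟫ = 0) (hs : ⟪x, y⟫ < 1) :
    0 ≤ Lg 10000 3 [1857, -2500, 1630, -370] [2472, 2462, 2157, 118]
    [-21, -150, 670, -147]
    [670, 222, -30] (dv x N y w 0) ∧
      (Lg 10000 3 [1857, -2500, 1630, -370] [2472, 2462, 2157, 118]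
    [-21, -150, 670, -147]
    [670, 222, -30] (dv x N y w 0) = 0 →
        ⟪N, w⟫ = ⟪x, y⟫ ∧ ⟪N, y⟫ = ⟪x, w⟫) :=
  Lg_zero (by norm_num) (fun _ h1 h2 => pA h1 h2) (fun _ h1 h2 => p2 h1 h2)
    (fun _ h1 h2 => pP h1 h2) (fun _ h1 h2 => pM h1 h2) x N y w hx hN hy hw hxN hyw hs

end Vale.Agent.P224.RIG.M4
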