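import Vale.Agent.P224.RIG.LgPos
import Vale.Agent.P224.RIG.LawLe
import Vale.Agent.P224.POS.M6.Law

/-!
Rigidity in dimension 6: the numbers.
-/

namespace Vale.Agent.P224.RIG.M6

open Vale.Agent.P224.UE Vale.Agent.P224.POS Vale.Agent.P224.POS.RM
open scoped RealInnerProductSpace
open Vale.Agent.P224.POS.M6

lemma pA {v : ℝ} (hv : 0 < v) (hv2 : v ≤ 2) : 0 < hor [710] v := by
  have hw : 0 ≤ 2 - v := by linarith
  simp only [hor_cons, hor_nil]
  push_cast
  linarith only [hv, hw]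

lemma p2 {v : ℝ} (hv : 0 < v) (hv2 : v ≤ 2) : 0 ≤ hor [539, 936] v := by
  have hw : 0 ≤ 2 - v := by linarith
  simp only [hor_cons, hor_nil]
  push_cast
  linarith only [hv, hw]

lemma pP {v : ℝ} (hv : 0 < v) (hv2 : v ≤ 2) : 0 < hor [1428, 2493, 1913, 2668] v
    + hor [0, -370, 923] v - v * (2 - v) * hor [539, 936] v := by
  have hw : 0 ≤ 2 - v := by linarith
  simp only [hor_cons, hor_nil]
  push_cast
  linarith only [hv, hw,
    pow_nonneg hv.le 2,
    pow_nonneg hv.le 3]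

lemma pM {v : ℝ} (hv : 0 < v) (hv2 : v ≤ 2) : 0 < hor [1428, 2493, 1913, 2668] v
    - hor [0, -370, 923] v - v * (2 - v) * hor [539, 936] v := by
  have hw : 0 ≤ 2 - v := by linarith
  simp only [hor_cons, hor_nil]
  push_cast
  linarith only [hv, hw,
    pow_nonneg hv.le 3,
    mul_nonneg (pow_nonneg hv.le 1) hw]

/-- the zero set of the static functional -/
theorem hLs {W : Type*} [NormedAddCommGroup W] [InnerProductSpace ℝ W] (x N y w : W)
    (hx : ‖x‖ = 1) (hN : ‖N‖ = 1) (hy : ‖y‖ = 1) (hw : ‖w‖ = 1)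
    (hxN : ⟪x, N⟫ = 0) (hyw : ⟪y, w⟫ = 0) (hs : ⟪x, y⟫ < 1) :
    0 ≤ Lg 10000 4 [710] [1428, 2493, 1913, 2668]
    [0, -370, 923]
    [539, 936] (dv x N y w 0) ∧
      (Lg 10000 4 [710] [1428, 2493, 1913, 2668]
    [0, -370, 923]
    [539, 936] (dv x N y w 0) = 0 →
        ⟪N, w⟫ = ⟪x, y⟫ ∧ ⟪N, y⟫ = ⟪x, w⟫) :=
  Lg_zero (by norm_num) (fun _ h1 h2 => pA h1 h2) (fun _ h1 h2 => p2 h1 h2)
    (fun _ h1 h2 => pP h1 h2) (fun _ h1 h2 => pM h1 h2) x N y w hx hN hy hw hxN hyw hs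

/-- the numerical law on the closed range -/
theorem hneg_le {γ : ℝ} (hγ : γ ≤ 551 / 1000) : ∀ Θ u r : ℝ, 6 / 5 ≤ Θ → Θ ≤ 15 * Real.pi / 32 → 0 < u →
    Θ ^ 2 * u ≤ 1 → u ^ 2 ≤ r → r ≤ u →
      Θ * (1 + γ * u + (0 + (0 + (-(52699753 / 16777216)) + (245821263 / 67108864)) * u
        + ((-(171661435 / 67108864)) + (36158053 / 67108864)) * r
        + ((-(26232217 / 67108864)) + (21441047 / 33554432)) * u ^ 2
        + 0 * ((u - r) / (2 * ((3 : ℕ) : ℝ) + 1))))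
        + (gam 3 3)⁻¹ * rvalM (2 * 3) (rl 503316480000 rows) u r < 15 * Real.pi / 32 := by
  intro Θ u r h1 h2 hu hT hr1 hr2
  have p1 := Real.pi_gt_d6
  have p2 := Real.pi_lt_d6
  have hg : (gam 3 3)⁻¹ = 15 / 2 := by norm_num [gam]
  have hr : rvalM (2 * 3) (rl 503316480000 rows) u r = -(110120713 / 469762048) * u + 186242185 / 469762048 * r := rval_eq u r
  rw [hg, hr]
  refine law_neg_le_S (Cl := 1472621 / 1000000) (Cu := 1472623 / 1000000) (γu := 551 / 1000)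
    (φ1 := 15 / 2 * (-(110120713 / 469762048))) (φ2 := 15 / 2 * (186242185 / 469762048))
    (by linarith) (by linarith) hγ (by norm_num) (by norm_num) (by norm_num) ?_ ?_
    h1 h2 hu hT hr1 hr2 (by ring)
  · intro T hT1 hT2
    exact quintic_neg (by norm_num) (by norm_num) (by norm_num) (by norm_num) (by norm_num)
      (by norm_num) (by norm_num) (le_of_eq rfl) (le_of_eq rfl) (le_of_eq rfl) (le_of_eq rfl)
      (le_of_eq rfl) (le_of_eq rfl) hT1 hT2
  · intro T hT1 hT2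
    exact quintic_neg (by norm_num) (by norm_num) (by norm_num) (by norm_num) (by norm_num)
      (by norm_num) (by norm_num) (le_of_eq rfl) (le_of_eq rfl) (le_of_eq rfl) (le_of_eq rfl)
      (le_of_eq rfl) (le_of_eq rfl) hT1 hT2

end Vale.Agent.P224.RIG.M6
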