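import Vale.Agent.P224.RIG.LgPos
import Vale.Agent.P224.RIG.LawLe
import Vale.Agent.P224.POS.M8.Law

/-!
Rigidity in dimension 8: the numbers.
-/

namespace Vale.Agent.P224.RIG.M8

open Vale.Agent.P224.UE Vale.Agent.P224.POS Vale.Agent.P224.POS.RM
open scoped RealInnerProductSpace
open Vale.Agent.P224.POS.M8

lemma pA {v : ℝ} (hv : 0 < v) (hv2 : v ≤ 2) : 0 < hor [269, 420, -45] v := by
  have hw : 0 ≤ 2 - v := by linarith
  simp only [hor_cons, hor_nil]
  push_cast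
  linarith only [hv, hw,
    mul_nonneg (pow_nonneg hv.le 1) hw]

lemma p2 {v : ℝ} (hv : 0 < v) (hv2 : v ≤ 2) : 0 ≤ hor [401, 1003, 671] v := by
  have hw : 0 ≤ 2 - v := by linarith
  simp only [hor_cons, hor_nil]
  push_cast
  linarith only [hv, hw,
    pow_nonneg hv.le 2]

lemma pP {v : ℝ} (hv : 0 < v) (hv2 : v ≤ 2) : 0 < hor [807, 1809, 2144, 2126, 2614] v
    + hor [0, -214, 236, 706] v - v * (2 - v) * hor [401, 1003, 671] v := by
  have hw : 0 ≤ 2 - v := by linarith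
  simp only [hor_cons, hor_nil]
  push_cast
  linarith only [hv, hw,
    pow_nonneg hv.le 2,
    pow_nonneg hv.le 3,
    pow_nonneg hv.le 4]

lemma pM {v : ℝ} (hv : 0 < v) (hv2 : v ≤ 2) : 0 < hor [807, 1809, 2144, 2126, 2614] v
    - hor [0, -214, 236, 706] v - v * (2 - v) * hor [401, 1003, 671] v := by
  have hw : 0 ≤ 2 - v := by linarith
  simp only [hor_cons, hor_nil]
  push_cast
  linarith only [hv, hw,
    pow_nonneg hv.le 2,
    pow_nonneg hv.le 3,
    pow_nonneg hv.le 4]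

/-- the zero set of the static functional -/
theorem hLs {W : Type*} [NormedAddCommGroup W] [InnerProductSpace ℝ W] (x N y w : W)
    (hx : ‖x‖ = 1) (hN : ‖N‖ = 1) (hy : ‖y‖ = 1) (hw : ‖w‖ = 1)
    (hxN : ⟪x, N⟫ = 0) (hyw : ⟪y, w⟫ = 0) (hs : ⟪x, y⟫ < 1) :
    0 ≤ Lg 10000 5 [269, 420, -45] [807, 1809, 2144, 2126, 2614]
    [0, -214, 236, 706]
    [401, 1003, 671] (dv x N y w 0) ∧
      (Lg 10000 5 [269, 420, -45] [807, 1809, 2144, 2126, 2614]
    [0, -214, 236, 706]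
    [401, 1003, 671] (dv x N y w 0) = 0 →
        ⟪N, w⟫ = ⟪x, y⟫ ∧ ⟪N, y⟫ = ⟪x, w⟫) :=
  Lg_zero (by norm_num) (fun _ h1 h2 => pA h1 h2) (fun _ h1 h2 => p2 h1 h2)
    (fun _ h1 h2 => pP h1 h2) (fun _ h1 h2 => pM h1 h2) x N y w hx hN hy hw hxN hyw hs

/-- the numerical law on the closed range -/
theorem hneg_le {γ : ℝ} (hγ : γ ≤ 5303 / 10000) : ∀ Θ u r : ℝ, 6 / 5 ≤ Θ → Θ ≤ 35 / 24 → 0 < u →
    Θ ^ 2 * u ≤ 1 → u ^ 2 ≤ r → r ≤ u →
      Θ * (1 + γ * u + (0 + (0 + (-(418251663 / 134217728)) + (376181125 / 134217728)) * u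
        + ((-(122306567 / 67108864)) + (43720705 / 67108864)) * r
        + ((5292963 / 33554432) + 0) * u ^ 2
        + 0 * ((u - r) / (2 * ((4 : ℕ) : ℝ) + 1))))
        + (gam 4 4)⁻¹ * rvalM (2 * 4) (rl 671088640000 rows) u r < 35 / 24 := by
  intro Θ u r h1 h2 hu hT hr1 hr2
  have hg : (gam 4 4)⁻¹ = 35 / 2 := by norm_num [gam]
  have hr : rvalM (2 * 4) (rl 671088640000 rows) u r = -(6729263 / 268435456) * u + 26195287 / 268435456 * r := rval_eq u r
  rw [hg, hr]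
  refine law_neg_le_S (Cl := 35 / 24) (Cu := 35 / 24) (γu := 5303 / 10000)
    (φ1 := 35 / 2 * (-(6729263 / 268435456))) (φ2 := 35 / 2 * (26195287 / 268435456))
    (by linarith) (by linarith) hγ (by norm_num) (by norm_num) (by norm_num) ?_ ?_
    h1 h2 hu hT hr1 hr2 (by ring)
  · intro T hT1 hT2
    exact quintic_neg (by norm_num) (by norm_num) (by norm_num) (by norm_num) (by norm_num)
      (by norm_num) (by norm_num) (le_of_eq rfl) (le_of_eq rfl) (le_of_eq rfl) (le_of_eq rfl)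
      (le_of_eq rfl) (le_of_eq rfl) hT1 hT2
  · intro T hT1 hT2
    exact quintic_neg (by norm_num) (by norm_num) (by norm_num) (by norm_num) (by norm_num)
      (by norm_num) (by norm_num) (le_of_eq rfl) (le_of_eq rfl) (le_of_eq rfl) (le_of_eq rfl)
      (le_of_eq rfl) (le_of_eq rfl) hT1 hT2

end Vale.Agent.P224.RIG.M8
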