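import Vale.Agent.P224.POS.LhsM

/-!
The zero set of the static functionals.
-/

namespace Vale.Agent.P224.RIG

open Vale.Agent.P224.UE Vale.Agent.P224.POS Vale.Agent.P224.POS.RM
open scoped RealInnerProductSpace

variable {W : Type*} [NormedAddCommGroup W] [InnerProductSpace ℝ W]

/-- Bessel's inequality for two orthonormal vectors -/
lemma bessel_two {x y w : W} (hx : ‖x‖ = 1) (hy : ‖y‖ = 1) (hw : ‖w‖ = 1) (hyw : ⟪y, w⟫ = 0) :
    ⟪x, y⟫ ^ 2 + ⟪x, w⟫ ^ 2 ≤ 1 := by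
  have h := real_inner_self_nonneg (x := x - (⟪x, y⟫ • y + ⟪x, w⟫ • w))
  have h1 : ⟪w, y⟫ = 0 := by rw [real_inner_comm]; exact hyw
  have hxx : ⟪x, x⟫ = 1 := by rw [real_inner_self_eq_norm_sq, hx]; norm_num
  have hyy : ⟪y, y⟫ = 1 := by rw [real_inner_self_eq_norm_sq, hy]; norm_num
  have hww : ⟪w, w⟫ = 1 := by rw [real_inner_self_eq_norm_sq, hw]; norm_num
  simp only [inner_sub_left, inner_sub_right, inner_add_left, inner_add_right,
    real_inner_smul_left, real_inner_smul_right, hxx, hyy, hww, hyw, h1,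
    real_inner_comm x y, real_inner_comm x w] at h
  nlinarith

/-- The static functional is nonnegative and its zero set is `c = s`, `p = t`. -/
theorem Lg_zero {DL K : ℕ} (hDL : 0 < DL) {lA l0 l1 l2 : List ℤ}
    (hA : ∀ v : ℝ, 0 < v → v ≤ 2 → 0 < hor lA v)
    (h2 : ∀ v : ℝ, 0 < v → v ≤ 2 → 0 ≤ hor l2 v)
    (hP : ∀ v : ℝ, 0 < v → v ≤ 2 → 0 < hor l0 v + hor l1 v - v * (2 - v) * hor l2 v)
    (hM : ∀ v : ℝ, 0 < v → v ≤ 2 → 0 < hor l0 v - hor l1 v - v * (2 - v) * hor l2 v)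
    (x N y w : W) (hx : ‖x‖ = 1) (hN : ‖N‖ = 1) (hy : ‖y‖ = 1) (hw : ‖w‖ = 1)
    (hxN : ⟪x, N⟫ = 0) (hyw : ⟪y, w⟫ = 0) (hs : ⟪x, y⟫ < 1) :
    0 ≤ Lg DL K lA l0 l1 l2 (dv x N y w 0) ∧
      (Lg DL K lA l0 l1 l2 (dv x N y w 0) = 0 → ⟪N, w⟫ = ⟪x, y⟫ ∧ ⟪N, y⟫ = ⟪x, w⟫) := by
  obtain ⟨s, hsd⟩ : ∃ s : ℝ, s = ⟪x, y⟫ := ⟨_, rfl⟩
  obtain ⟨t, htd⟩ : ∃ t : ℝ, t = ⟪x, w⟫ := ⟨_, rfl⟩
  obtain ⟨p, hpd⟩ : ∃ p : ℝ, p = ⟪N, y⟫ := ⟨_, rfl⟩
  obtain ⟨c, hcd⟩ : ∃ c : ℝ, c = ⟪N, w⟫ := ⟨_, rfl⟩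
  have b1 : s ^ 2 + t ^ 2 ≤ 1 := by
    rw [hsd, htd]
    exact bessel_two hx hy hw hyw
  have b2 : s ^ 2 + p ^ 2 ≤ 1 := by
    have h := bessel_two hy hx hN hxN
    rwa [real_inner_comm x y, real_inner_comm N y, ← hsd, ← hpd] at h
  have b3 : p ^ 2 + c ^ 2 ≤ 1 := by
    rw [hpd, hcd]
    exact bessel_two hN hy hw hyw
  have e0 : dv x N y w 0 0 = s := hsd.symm
  have e1 : dv x N y w 0 1 = t := htd.symm
  have e2 : dv x N y w 0 2 = p := hpd.symm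
  have e3 : dv x N y w 0 3 = c := hcd.symm
  rw [← hsd] at hs
  rw [← hsd, ← htd, ← hpd, ← hcd]
  have hv0 : 0 < 1 - s := by linarith
  have hs1 : -1 ≤ s := by nlinarith [sq_nonneg t]
  have hv2 : 1 - s ≤ 2 := by linarith
  have kA := hA _ hv0 hv2
  have k2 := h2 _ hv0 hv2
  have kP := hP _ hv0 hv2
  have kM := hM _ hv0 hv2
  unfold Lg
  rw [e0, e1, e2, e3]
  obtain ⟨v, hvd⟩ : ∃ v : ℝ, v = 1 - s := ⟨_, rfl⟩
  rw [← hvd] at hv0 hv2 kA k2 kP kM ⊢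
  have hss : s = 1 - v := by linarith
  -- the second coefficient
  have hpt : -(v * (2 - v)) ≤ p * t := by
    have h := sq_nonneg (p + t)
    nlinarith
  have hc : -1 ≤ c ∧ c ≤ 1 := by
    constructor <;> nlinarith [sq_nonneg p]
  have hB : 0 < hor l0 v + hor l1 v * c + hor l2 v * (p * t) := by
    have h3 := mul_le_mul_of_nonneg_left hpt k2
    rcases le_total 0 (hor l1 v) with h | h
    · have h4 := mul_le_mul_of_nonneg_left hc.1 h
      linarith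
    · have h4 := mul_le_mul_of_nonpos_left hc.2 h
      linarith
  have hk : 0 < (v ^ K)⁻¹ / DL := by
    have : (0 : ℝ) < DL := by exact_mod_cast hDL
    positivity
  have q1 : 0 ≤ v ^ 2 * hor lA v * (c - s) ^ 2 := by positivity
  have q2 : 0 ≤ (p - t) ^ 2 * (hor l0 v + hor l1 v * c + hor l2 v * (p * t)) := by positivity
  refine ⟨by positivity, fun h => ?_⟩
  have h5 := (mul_eq_zero.1 h).resolve_left hk.ne'
  have h6 : v ^ 2 * hor lA v * (c - s) ^ 2 = 0 := by linarith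
  have h7 : (p - t) ^ 2 * (hor l0 v + hor l1 v * c + hor l2 v * (p * t)) = 0 := by linarith
  have h8 : (c - s) ^ 2 = 0 := by
    rcases mul_eq_zero.1 h6 with h | h
    · exact absurd h (by positivity)
    · exact h
  have h9 : (p - t) ^ 2 = 0 := by
    rcases mul_eq_zero.1 h7 with h | h
    · exact h
    · exact absurd h hB.ne'
  have h10 := pow_eq_zero_iff (two_ne_zero) |>.1 h8
  have h11 := pow_eq_zero_iff (two_ne_zero) |>.1 h9
  constructor <;> linarith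

end Vale.Agent.P224.RIG
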