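import Vale.Agent.P224.MathlibUsed
import Vale.Agent.P224.Defs
import Vale.Agent.P224.Bdl.B2
import Mathlib.Analysis.InnerProductSpace.ProdL2
import Mathlib.Analysis.Calculus.ImplicitContDiff
import Mathlib.Analysis.Normed.Module.Connected

/-!
The range of an immersion into a product of two spheres of complementary dimensions.
-/

namespace Vale.Agent.P224.RIG

open Set Filter Function Module Vale.Agent.P224
open scoped Topology RealInnerProductSpace ContDiff Manifold

set_option linter.unusedSectionVars false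

variable {V W M : Type*} [NormedAddCommGroup V] [InnerProductSpace ℝ V] [FiniteDimensional ℝ V]
  [NormedAddCommGroup W] [InnerProductSpace ℝ W] [FiniteDimensional ℝ W]
  [TopologicalSpace M] [ChartedSpace V M]

/-- the product of the two spheres of radius `1 / √2` in `K` and in its orthogonal complement -/
def Prd (K : Submodule ℝ W) : Set W :=
  {z | ‖K.starProjection z‖ ^ 2 = 1 / 2 ∧ ‖Kᗮ.starProjection z‖ ^ 2 = 1 / 2}

/-- the cone map in a chart -/
noncomputable def cone (K : Submodule ℝ W) (f : V → W) (p : V × ℝ × ℝ) : W :=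
  p.2.1 • K.starProjection (f p.1) + p.2.2 • Kᗮ.starProjection (f p.1)

/-- the derivative of the cone map at `(v, 1, 1)` -/
noncomputable def dcone (K : Submodule ℝ W) (D : V →L[ℝ] W) (w : W) : V × ℝ × ℝ →L[ℝ] W :=
  ((K.starProjection ∘L D) ∘L ContinuousLinearMap.fst ℝ V (ℝ × ℝ)
    + (ContinuousLinearMap.fst ℝ ℝ ℝ ∘L ContinuousLinearMap.snd ℝ V (ℝ × ℝ)).smulRight
      (K.starProjection w))
  + ((Kᗮ.starProjection ∘L D) ∘L ContinuousLinearMap.fst ℝ V (ℝ × ℝ)
    + (ContinuousLinearMap.snd ℝ ℝ ℝ ∘L ContinuousLinearMap.snd ℝ V (ℝ × ℝ)).smulRight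
      (Kᗮ.starProjection w))

lemma hasStrictFDerivAt_cone (K : Submodule ℝ W) {f : V → W} {D : V →L[ℝ] W} {v : V}
    (h : HasStrictFDerivAt f D v) :
    HasStrictFDerivAt (cone K f) (dcone K D (f v)) (v, 1, 1) := by
  have h0 : HasStrictFDerivAt (fun p : V × ℝ × ℝ => f p.1)
      (D ∘L ContinuousLinearMap.fst ℝ V (ℝ × ℝ)) (v, 1, 1) :=
    HasStrictFDerivAt.comp (v, (1 : ℝ), (1 : ℝ)) (g := f) (f := Prod.fst) h hasStrictFDerivAt_fst
  have h1 := (K.starProjection.hasStrictFDerivAt (x := f v)).comp (v, (1 : ℝ), (1 : ℝ)) h0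
  have h2 := (Kᗮ.starProjection.hasStrictFDerivAt (x := f v)).comp (v, (1 : ℝ), (1 : ℝ)) h0
  have ha : HasStrictFDerivAt (fun p : V × ℝ × ℝ => p.2.1)
      (ContinuousLinearMap.fst ℝ ℝ ℝ ∘L ContinuousLinearMap.snd ℝ V (ℝ × ℝ)) (v, 1, 1) :=
    (ContinuousLinearMap.fst ℝ ℝ ℝ ∘L ContinuousLinearMap.snd ℝ V (ℝ × ℝ)).hasStrictFDerivAt
  have hb : HasStrictFDerivAt (fun p : V × ℝ × ℝ => p.2.2)
      (ContinuousLinearMap.snd ℝ ℝ ℝ ∘L ContinuousLinearMap.snd ℝ V (ℝ × ℝ)) (v, 1, 1) :=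
    (ContinuousLinearMap.snd ℝ ℝ ℝ ∘L ContinuousLinearMap.snd ℝ V (ℝ × ℝ)).hasStrictFDerivAt
  have h3 := (ha.smul h1).add (hb.smul h2)
  refine h3.congr_fderiv ?_
  unfold dcone
  ext p <;> simp

lemma proj_add (K : Submodule ℝ W) (z : W) : K.starProjection z + Kᗮ.starProjection z = z := by
  simp

lemma inner_proj (K : Submodule ℝ W) (z w : W) : ⟪K.starProjection z, Kᗮ.starProjection w⟫ = 0 :=
  Submodule.inner_right_of_mem_orthogonal (Submodule.starProjection_apply_mem K z)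
    (Submodule.starProjection_apply_mem Kᗮ w)

lemma inner_proj' (K : Submodule ℝ W) (z w : W) : ⟪Kᗮ.starProjection z, K.starProjection w⟫ = 0 := by
  rw [real_inner_comm]
  exact inner_proj K w z

/-- a function of constant norm is orthogonal to its derivative -/
lemma inner_deriv {f : V → W} {D : V →L[ℝ] W} {v : V} (h : HasFDerivAt f D v)
    (P : W →L[ℝ] W) {c : ℝ} (hc : ∀ u, ‖P (f u)‖ ^ 2 = c) (w : V) : ⟪P (D w), P (f v)⟫ = 0 := by
  have h1 : HasFDerivAt (fun u => P (f u)) (P ∘L D) v := P.hasFDerivAt.comp v h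
  have h2 := h1.norm_sq
  have h3 : (fun u => ‖P (f u)‖ ^ 2) = fun _ => c := funext hc
  rw [h3] at h2
  have h4 := h2.unique (hasFDerivAt_const c v)
  have h5 := congrArg (fun L : V →L[ℝ] ℝ => L w) h4
  simp only [smul_apply, ContinuousLinearMap.comp_apply,
    zero_apply, innerSL_apply_apply, nsmul_eq_mul, Nat.cast_ofNat] at h5
  rw [real_inner_comm]
  linarith

lemma surj_dcone (hW : finrank ℝ W = finrank ℝ V + 2) (K : Submodule ℝ W) {f : V → W}
    {D : V →L[ℝ] W} {v : V} (h : HasFDerivAt f D v) (hD : Injective D)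
    (hf : ∀ u, f u ∈ Prd K) : (dcone K D (f v)).range = ⊤ := by
  have hinj : Injective (dcone K D (f v)) := by
    rw [injective_iff_map_eq_zero]
    rintro ⟨w, α, β⟩ h0
    have h1 : K.starProjection (D w) + α • K.starProjection (f v)
        + (Kᗮ.starProjection (D w) + β • Kᗮ.starProjection (f v)) = 0 := h0
    have hP := inner_deriv h K.starProjection (fun u => (hf u).1) w
    have hQ := inner_deriv h Kᗮ.starProjection (fun u => (hf u).2) w
    have n1 : ⟪K.starProjection (f v), K.starProjection (f v)⟫ = 1 / 2 := by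
      rw [real_inner_self_eq_norm_sq, (hf v).1]
    have n2 : ⟪Kᗮ.starProjection (f v), Kᗮ.starProjection (f v)⟫ = 1 / 2 := by
      rw [real_inner_self_eq_norm_sq, (hf v).2]
    have hα : α = 0 := by
      have h2 := congrArg (fun z => ⟪z, K.starProjection (f v)⟫) h1
      simp only [inner_add_left, real_inner_smul_left, inner_proj', hP, n1, inner_zero_left] at h2
      linarith
    have hβ : β = 0 := by
      have h2 := congrArg (fun z => ⟪z, Kᗮ.starProjection (f v)⟫) h1
      simp only [inner_add_left, real_inner_smul_left, inner_proj, hQ, n2, inner_zero_left] at h2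
      linarith
    subst hα hβ
    have h3 : D w = 0 := by
      rw [← proj_add K (D w)]
      simpa using h1
    have h4 : w = 0 := hD (by rw [h3, map_zero])
    rw [h4]
    rfl
  have hdim : finrank ℝ (V × ℝ × ℝ) = finrank ℝ W := by
    rw [Module.finrank_prod, Module.finrank_prod, Module.finrank_self, hW]
  have := (LinearMap.injective_iff_surjective_of_finrank_eq_finrank
    (f := (dcone K D (f v) : V × ℝ × ℝ →ₗ[ℝ] W)) hdim).1 hinj
  exact LinearMap.range_eq_top.2 this

/-- The range of an immersion into the product is relatively open. -/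
lemma open_range [IsManifold 𝓘(ℝ, V) ∞ M] (hW : finrank ℝ W = finrank ℝ V + 2)
    (K : Submodule ℝ W) {F : M → W} (hF : SphImm V F) (hK : ∀ x, F x ∈ Prd K) (x : M) :
    ∃ U : Set W, IsOpen U ∧ F x ∈ U ∧ ∀ z ∈ U, z ∈ Prd K → z ∈ range F := by
  set f : V → W := rep F x with hf
  set v0 := chartAt V x x with hv0
  have hT := immV_rep hF x
  have hmem : v0 ∈ (chartAt V x).target := (chartAt V x).map_source (mem_chart_source V x)
  have hfv : f v0 = F x := by
    rw [hf, hv0]
    unfold rep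
    rw [(chartAt V x).left_inv (mem_chart_source V x)]
  have hc : ContDiffAt ℝ ∞ f v0 := hT.smooth.contDiffAt (hT.isOpen.mem_nhds hmem)
  have hs : HasStrictFDerivAt f (fderiv ℝ f v0) v0 := hc.hasStrictFDerivAt (by simp)
  have hall : ∀ u, f u ∈ Prd K := fun u => hK _
  have hg := hasStrictFDerivAt_cone K hs
  have hsur := surj_dcone hW K hs.hasFDerivAt (hT.inj v0 hmem) hall
  have hmap := hg.map_nhds_eq_of_surj hsur
  have hg0 : cone K f (v0, 1, 1) = F x := by
    unfold cone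
    simp only [one_smul]
    rw [proj_add, hfv]
  rw [hg0] at hmap
  have hS : {p : V × ℝ × ℝ | 0 < p.2.1 ∧ 0 < p.2.2} ∈ 𝓝 (v0, (1 : ℝ), (1 : ℝ)) := by
    have c1 : Continuous fun p : V × ℝ × ℝ => p.2.1 := by fun_prop
    have c2 : Continuous fun p : V × ℝ × ℝ => p.2.2 := by fun_prop
    have m1 : {p : V × ℝ × ℝ | 0 < p.2.1} ∈ 𝓝 (v0, (1 : ℝ), (1 : ℝ)) :=
      (isOpen_lt continuous_const c1).mem_nhds (one_pos : (0 : ℝ) < 1)
    have m2 : {p : V × ℝ × ℝ | 0 < p.2.2} ∈ 𝓝 (v0, (1 : ℝ), (1 : ℝ)) :=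
      (isOpen_lt continuous_const c2).mem_nhds (one_pos : (0 : ℝ) < 1)
    exact inter_mem m1 m2
  have hI : cone K f '' {p : V × ℝ × ℝ | 0 < p.2.1 ∧ 0 < p.2.2} ∈ 𝓝 (F x) := by
    rw [← hmap]
    exact image_mem_map hS
  obtain ⟨U, hUs, hUo, hxU⟩ := mem_nhds_iff.1 hI
  refine ⟨U, hUo, hxU, fun z hz hzK => ?_⟩
  obtain ⟨⟨v, a, b⟩, ⟨ha, hb⟩, rfl⟩ := hUs hz
  simp only at ha hb
  have hzK' := hzK
  unfold Prd cone at hzK'
  simp only [mem_ofPred_eq, map_add, map_smul] at hzK'
  have p1 : ∀ w, K.starProjection (K.starProjection w) = K.starProjection w := fun w =>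
    Submodule.starProjection_eq_self_iff.2 (Submodule.starProjection_apply_mem K w)
  have p2 : ∀ w, Kᗮ.starProjection (Kᗮ.starProjection w) = Kᗮ.starProjection w := fun w =>
    Submodule.starProjection_eq_self_iff.2 (Submodule.starProjection_apply_mem Kᗮ w)
  have p3 : ∀ w, K.starProjection (Kᗮ.starProjection w) = 0 := fun w => by
    have h2 := congrArg K.starProjection (proj_add K w)
    rw [map_add, p1] at h2
    exact left_eq_add.1 h2.symm
  have p4 : ∀ w, Kᗮ.starProjection (K.starProjection w) = 0 := fun w => by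
    have h2 := congrArg Kᗮ.starProjection (proj_add K w)
    rw [map_add, p2] at h2
    exact right_eq_add.1 h2.symm
  rw [p1, p3, p4, p2, smul_zero, smul_zero, add_zero, zero_add, norm_smul, norm_smul, mul_pow,
    mul_pow, (hall v).1, (hall v).2, Real.norm_eq_abs, Real.norm_eq_abs, sq_abs, sq_abs] at hzK'
  have ha1 : a = 1 := by
    have : a ^ 2 = 1 := by linarith [hzK'.1]
    nlinarith
  have hb1 : b = 1 := by
    have : b ^ 2 = 1 := by linarith [hzK'.2]
    nlinarith
  subst ha1 hb1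
  refine ⟨(chartAt V x).symm v, ?_⟩
  unfold cone
  simp only [one_smul]
  rw [proj_add]
  rfl

/-- The product of two spheres of positive dimension is connected. -/
lemma preconn_prd (K : Submodule ℝ W) (h1 : 2 ≤ finrank ℝ K) (h2 : 2 ≤ finrank ℝ Kᗮ) :
    IsPreconnected (Prd K) := by
  have r1 : 1 < Module.rank ℝ K := by
    rw [← finrank_eq_rank]
    exact_mod_cast h1
  have r2 : 1 < Module.rank ℝ Kᗮ := by
    rw [← finrank_eq_rank]
    exact_mod_cast h2
  set ρ : ℝ := √(1 / 2) with hρ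
  have hρ0 : 0 ≤ ρ := Real.sqrt_nonneg _
  have hρ2 : ρ ^ 2 = 1 / 2 := Real.sq_sqrt (by norm_num)
  have c1 := isPreconnected_sphere r1 (0 : K) ρ
  have c2 := isPreconnected_sphere r2 (0 : Kᗮ) ρ
  have c3 := (c1.prod c2).image (fun p : K × Kᗮ => (p.1 : W) + (p.2 : W))
    (by fun_prop : Continuous fun p : K × Kᗮ => (p.1 : W) + (p.2 : W)).continuousOn
  have e : (fun p : K × Kᗮ => (p.1 : W) + (p.2 : W)) '' (Metric.sphere 0 ρ ×ˢ Metric.sphere 0 ρ)
      = Prd K := by
    ext z
    constructor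
    · rintro ⟨⟨a, b⟩, ⟨ha, hb⟩, rfl⟩
      simp only [mem_sphere_iff_norm, sub_zero] at ha hb
      have q1 : K.starProjection (a : W) = a := Submodule.starProjection_eq_self_iff.2 a.2
      have q2 : Kᗮ.starProjection (b : W) = b := Submodule.starProjection_eq_self_iff.2 b.2
      have q3 : K.starProjection (b : W) = 0 := by
        have := proj_add K (b : W)
        rw [q2] at this
        exact add_eq_right.1 this
      have q4 : Kᗮ.starProjection (a : W) = 0 := by
        have := proj_add K (a : W)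
        rw [q1] at this
        exact add_eq_left.1 this
      unfold Prd
      simp only [mem_ofPred_eq, map_add, q1, q2, q3, q4, add_zero, zero_add]
      rw [← Submodule.coe_norm, ← Submodule.coe_norm, ha, hb, hρ2]
      exact ⟨rfl, rfl⟩
    · rintro ⟨h1, h2⟩
      refine ⟨(⟨K.starProjection z, Submodule.starProjection_apply_mem K z⟩,
        ⟨Kᗮ.starProjection z, Submodule.starProjection_apply_mem Kᗮ z⟩), ⟨?_, ?_⟩, proj_add K z⟩
      · rw [mem_sphere_iff_norm, sub_zero]
        change ‖K.starProjection z‖ = ρ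
        rw [← abs_of_nonneg (norm_nonneg (K.starProjection z)), ← abs_of_nonneg hρ0]
        exact (sq_eq_sq_iff_abs_eq_abs _ _).1 (by rw [h1, hρ2])
      · rw [mem_sphere_iff_norm, sub_zero]
        change ‖Kᗮ.starProjection z‖ = ρ
        rw [← abs_of_nonneg (norm_nonneg (Kᗮ.starProjection z)), ← abs_of_nonneg hρ0]
        exact (sq_eq_sq_iff_abs_eq_abs _ _).1 (by rw [h2, hρ2])
  rwa [e] at c3

/-- **The range of an immersion of a closed manifold into the product of two spheres of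
complementary dimensions is the whole product.** -/
theorem range_eq_prd [IsManifold 𝓘(ℝ, V) ∞ M] [CompactSpace M] [Nonempty M]
    (hW : finrank ℝ W = finrank ℝ V + 2)
    (K : Submodule ℝ W) (h1 : 2 ≤ finrank ℝ K) (h2 : 2 ≤ finrank ℝ Kᗮ) {F : M → W}
    (hF : SphImm V F) (hK : ∀ x, F x ∈ Prd K) : range F = Prd K := by
  refine Subset.antisymm (by rintro _ ⟨x, rfl⟩; exact hK x) ?_
  choose U hUo hxU hU using open_range hW K hF hK
  have hcl : IsClosed (range F) := (isCompact_range hF.smooth.continuous).isClosed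
  have hpre := preconn_prd K h1 h2
  by_contra hcon
  rw [not_subset] at hcon
  obtain ⟨z, hz, hzn⟩ := hcon
  obtain ⟨x₀⟩ := ‹Nonempty M›
  have h3 := hpre (⋃ x, U x) (range F)ᶜ (isOpen_iUnion hUo) hcl.isOpen_compl ?_
    ⟨F x₀, hK x₀, mem_iUnion.2 ⟨x₀, hxU x₀⟩⟩ ⟨z, hz, hzn⟩
  · obtain ⟨w, hw, hw1, hw2⟩ := h3
    obtain ⟨x, hx⟩ := mem_iUnion.1 hw1
    exact hw2 (hU x w hx hw)
  · intro w hw
    by_cases h : w ∈ range F
    · obtain ⟨x, rfl⟩ := h
      exact Or.inl (mem_iUnion.2 ⟨x, hxU x⟩)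
    · exact Or.inr h

section

variable {E₁ E₂ : Type*} [NormedAddCommGroup E₁] [InnerProductSpace ℝ E₁] [NormedAddCommGroup E₂]
  [InnerProductSpace ℝ E₂]

/-- the first factor -/
def fac (φ : W ≃ₗᵢ[ℝ] WithLp 2 (E₁ × E₂)) : Submodule ℝ W where
  carrier := {w | (φ w).snd = 0}
  add_mem' {a b} ha hb := by
    change (φ (a + b)).snd = 0
    have ha' : (φ a).snd = 0 := ha
    have hb' : (φ b).snd = 0 := hb
    rw [map_add, WithLp.add_snd, ha', hb', add_zero]
  zero_mem' := by
    change (φ 0).snd = 0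
    rw [map_zero]
    rfl
  smul_mem' c a ha := by
    change (φ (c • a)).snd = 0
    have ha' : (φ a).snd = 0 := ha
    rw [map_smul, WithLp.smul_snd, ha', smul_zero]

lemma proj_fac (φ : W ≃ₗᵢ[ℝ] WithLp 2 (E₁ × E₂)) (z : W) :
    (fac φ).starProjection z = φ.symm (WithLp.toLp 2 ((φ z).fst, 0)) := by
  refine Submodule.eq_starProjection_of_mem_of_inner_eq_zero ?_ ?_
  · change (φ (φ.symm _)).snd = 0
    rw [φ.apply_symm_apply]
    rfl
  · intro w hw
    have hw' : (φ w).snd = 0 := hw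
    rw [← φ.inner_map_map, map_sub, φ.apply_symm_apply, WithLp.prod_inner_apply]
    simp [hw']

lemma proj_fac' (φ : W ≃ₗᵢ[ℝ] WithLp 2 (E₁ × E₂)) (z : W) :
    (fac φ)ᗮ.starProjection z = φ.symm (WithLp.toLp 2 (0, (φ z).snd)) := by
  rw [Submodule.starProjection_orthogonal_val, proj_fac]
  apply φ.injective
  rw [map_sub, φ.apply_symm_apply, φ.apply_symm_apply]
  refine (WithLp.ofLp_injective 2) (Prod.ext ?_ ?_)
  · change (φ z).fst - (φ z).fst = 0
    exact sub_self _
  · change (φ z).snd - 0 = (φ z).snd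
    exact sub_zero _

lemma norm_proj_fac (φ : W ≃ₗᵢ[ℝ] WithLp 2 (E₁ × E₂)) (z : W) :
    ‖(fac φ).starProjection z‖ ^ 2 = ‖(φ z).fst‖ ^ 2 := by
  rw [proj_fac, φ.symm.norm_map, WithLp.prod_norm_sq_eq_of_L2]
  simp

lemma norm_proj_fac' (φ : W ≃ₗᵢ[ℝ] WithLp 2 (E₁ × E₂)) (z : W) :
    ‖(fac φ)ᗮ.starProjection z‖ ^ 2 = ‖(φ z).snd‖ ^ 2 := by
  rw [proj_fac', φ.symm.norm_map, WithLp.prod_norm_sq_eq_of_L2]
  simp

/-- the first factor as a linear space -/
noncomputable def facEquiv (φ : W ≃ₗᵢ[ℝ] WithLp 2 (E₁ × E₂)) : fac φ ≃ₗ[ℝ] E₁ where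
  toFun w := (φ (w : W)).fst
  map_add' a b := by
    rw [Submodule.coe_add, map_add]
    rfl
  map_smul' c a := by
    rw [Submodule.coe_smul, map_smul]
    rfl
  invFun a := ⟨φ.symm (WithLp.toLp 2 (a, 0)), by
    change (φ (φ.symm _)).snd = 0
    rw [φ.apply_symm_apply]
    rfl⟩
  left_inv w := by
    apply Subtype.ext
    apply φ.injective
    simp only
    rw [φ.apply_symm_apply]
    have hw : (φ (w : W)).snd = 0 := w.2
    exact (WithLp.ofLp_injective 2) (Prod.ext rfl hw.symm)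
  right_inv a := by
    simp only
    rw [φ.apply_symm_apply]
    rfl

end

/-- **The image** (interface of the rigidity theorem). -/
theorem range_eq [IsManifold 𝓘(ℝ, V) ∞ M] [CompactSpace M] [ConnectedSpace M]
    {h : ℕ} (hh : 1 ≤ h) (hV : finrank ℝ V = 2 * h)
    (hW : finrank ℝ W = finrank ℝ V + 2) {F : M → W} (hF : SphImm V F)
    {A : W →ₗ[ℝ] W} (hN : ∀ x, IsUnitNormal V F x (A (F x)))
    (φ : W ≃ₗᵢ[ℝ] WithLp 2 (EuclideanSpace ℝ (Fin (h + 1)) × EuclideanSpace ℝ (Fin (h + 1))))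
    (hφ : ∀ w, φ (A w) = WithLp.toLp 2 ((φ w).fst, -(φ w).snd)) :
    φ '' range F = {z | ‖z.fst‖ ^ 2 = 1 / 2 ∧ ‖z.snd‖ ^ 2 = 1 / 2} := by
  have hk1 : finrank ℝ (fac φ) = h + 1 := by
    rw [(facEquiv φ).finrank_eq, finrank_euclideanSpace, Fintype.card_fin]
  have hk2 : finrank ℝ (fac φ)ᗮ = h + 1 := by
    have := (fac φ).finrank_add_finrank_orthogonal
    omega
  have hK : ∀ x, F x ∈ Prd (fac φ) := by
    intro x
    have h1 : ‖φ (F x)‖ ^ 2 = 1 := by rw [φ.norm_map, hF.unit, one_pow]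
    rw [WithLp.prod_norm_sq_eq_of_L2] at h1
    have h2 : ⟪φ (F x), φ (A (F x))⟫ = 0 := by rw [φ.inner_map_map, (hN x).2.1]
    have h3 : ⟪(φ (F x)).fst, (φ (F x)).fst⟫ + ⟪(φ (F x)).snd, -(φ (F x)).snd⟫ = 0 := by
      rw [hφ, WithLp.prod_inner_apply] at h2
      exact h2
    rw [inner_neg_right, real_inner_self_eq_norm_sq, real_inner_self_eq_norm_sq] at h3
    constructor
    · rw [norm_proj_fac]
      linarith
    · rw [norm_proj_fac']
      linarith
  have hr := range_eq_prd hW (fac φ) (by omega) (by omega) hF hK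
  rw [hr]
  ext z
  constructor
  · rintro ⟨w, ⟨h1, h2⟩, rfl⟩
    rw [norm_proj_fac] at h1
    rw [norm_proj_fac'] at h2
    exact ⟨h1, h2⟩
  · rintro ⟨h1, h2⟩
    refine ⟨φ.symm z, ⟨?_, ?_⟩, φ.apply_symm_apply z⟩
    · rw [norm_proj_fac, φ.apply_symm_apply]
      exact h1
    · rw [norm_proj_fac', φ.apply_symm_apply]
      exact h2

end Vale.Agent.P224.RIG
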