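import Vale.Agent.P224.MathlibUsed
import Vale.Agent.P224.Defs
import Vale.Agent.P224.Bdl.B2
import Mathlib.Analysis.InnerProductSpace.Trace

/-!
P224, rigidity, block R3b: a minimal immersion whose unit normal is `A ∘ F`, `A` a symmetric
linear involution, has `trace A = 0`.
-/

namespace Vale.Agent.P224.RIG

open scoped Manifold ContDiff RealInnerProductSpace Topology
open MeasureTheory Metric Module Set Filter Vale.Agent.P224.FV

variable {V W M : Type*} [NormedAddCommGroup V] [InnerProductSpace ℝ V] [FiniteDimensional ℝ V]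
  [NormedAddCommGroup W] [InnerProductSpace ℝ W] [FiniteDimensional ℝ W]
  [TopologicalSpace M] [ChartedSpace V M]
  [IsManifold 𝓘(ℝ, V) ∞ M] [CompactSpace M] [T2Space M] [ConnectedSpace M]

omit [CompactSpace M] [T2Space M] [ConnectedSpace M] in
/-- the second fundamental form with respect to the normal `A ∘ F` -/
lemma sff_eq {F : M → W} (hF : SphImm V F) {A : W →ₗ[ℝ] W}
    (hN : ∀ x, IsUnitNormal V F x (A (F x))) (p : M) (i j : Fin (finrank ℝ V)) :
    ⟪pd (pd (rep (V := V) F p) j) i (chartAt V p p), A (F p)⟫ =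
      -⟪pd (rep (V := V) F p) j (chartAt V p p), A (pd (rep (V := V) F p) i (chartAt V p p))⟫ := by
  set u := chartAt V p p with hu
  have hI := immV_rep hF p
  have hpT : u ∈ (chartAt V p).target := (chartAt V p).map_source (mem_chart_source _ p)
  set f := rep (V := V) F p with hf
  have hfu : f u = F p := by
    rw [hf]; unfold rep; rw [hu, (chartAt V p).left_inv (mem_chart_source _ p)]
  have hc2 : ContDiffAt ℝ 2 f u :=
    (hI.smooth.contDiffAt (hI.isOpen.mem_nhds hpT)).of_le (by norm_cast)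
  have hd : DifferentiableAt ℝ f u := hc2.differentiableAt (by norm_num)
  have hPd : DifferentiableAt ℝ (lP f j) u := (hasFDerivAt_lP hc2 j).differentiableAt
  let B : W →L[ℝ] W := LinearMap.toContinuousLinearMap A
  have hBd : HasFDerivAt (fun v => A (f v)) (B.comp (fderiv ℝ f u)) u :=
    B.hasFDerivAt.comp u hd.hasFDerivAt
  have h1 : fderiv ℝ (fun v => ⟪lP f j v, A (f v)⟫) u = fderiv ℝ (fun _ => (0 : ℝ)) u := by
    apply Filter.EventuallyEq.fderiv_eq
    filter_upwards [hI.isOpen.mem_nhds hpT] with v hv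
    exact normal_rep (N := fun x => A (F x)) hF hN p hv _
  have h2 := congrArg (fun L => L (stdOrthonormalBasis ℝ V i)) h1
  simp only [fderiv_inner_apply ℝ hPd hBd.differentiableAt, fderiv_fun_const, hBd.fderiv] at h2
  simp only [Pi.zero_apply, _root_.zero_apply] at h2
  have h3 : ⟪lP f j u, A (fderiv ℝ f u (stdOrthonormalBasis ℝ V i))⟫
      + ⟪fderiv ℝ (lP f j) u (stdOrthonormalBasis ℝ V i), A (f u)⟫ = 0 := h2
  rw [hfu] at h3
  change ⟪fderiv ℝ (lP f j) u (stdOrthonormalBasis ℝ V i), A (F p)⟫ =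
    -⟪lP f j u, A (fderiv ℝ f u (stdOrthonormalBasis ℝ V i))⟫
  linarith only [h3]

/-- R3b: minimality gives trace zero. -/
theorem trace_zero (hW : finrank ℝ W = finrank ℝ V + 2) {F : M → W} (hF : SphImm V F)
    (hmin : ∀ x n, IsUnitNormal V F x n → meanCurv V F x n = 0)
    {A : W →ₗ[ℝ] W} (hA : A.IsSymmetric) (hA2 : ∀ w, A (A w) = w)
    (hN : ∀ x, IsUnitNormal V F x (A (F x))) :
    LinearMap.trace ℝ W A = 0 := by
  obtain ⟨p⟩ : Nonempty M := inferInstance
  set u := chartAt V p p with hu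
  have hI := immV_rep hF p
  have hpT : u ∈ (chartAt V p).target := (chartAt V p).map_source (mem_chart_source _ p)
  set f := rep (V := V) F p with hf
  have hfn : ⟪F p, A (F p)⟫ = 0 := (hN p).2.1
  have hAA : ⟪A (F p), A (A (F p))⟫ = 0 := by rw [hA2, real_inner_comm]; exact hfn
  -- the mean curvature
  have hm := hmin p _ (hN p)
  have hS : (Matrix.of fun i j => ⟪pd (pd f j) i u, A (F p)⟫) =
      -(Matrix.of fun i j => ⟪A (lP f i u), lP f j u⟫) := by
    ext i j
    rw [Matrix.of_apply, Matrix.neg_apply, Matrix.of_apply, sff_eq hF hN p i j,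
      real_inner_comm]
    rfl
  have hm2 : ∑ i, ∑ j, (lG f u)⁻¹ i j * ⟪A (lP f j u), lP f i u⟫ = 0 := by
    have h1 : ((lG f u)⁻¹ * -(Matrix.of fun i j => ⟪A (lP f i u), lP f j u⟫)).trace = 0 := by
      rw [← hS]; exact hm
    rw [Matrix.mul_neg, Matrix.trace_neg, neg_eq_zero] at h1
    simpa only [Matrix.trace, Matrix.diag_apply, Matrix.mul_apply, Matrix.of_apply] using h1
  -- the decomposition
  have hdec : ∀ a : W, a = (∑ i, (∑ j, (lG f u)⁻¹ i j * ⟪a, lP f j u⟫) • lP f i u)
      + ⟪a, F p⟫ • F p + ⟪a, A (F p)⟫ • A (F p) := by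
    intro a
    have h1 := dl_F hW hF hN a p
    have h2 : dl V F a F p = lT f a u := fderiv_vW _ _ _
    have h3 : lT f a u = ∑ i, (∑ j, (lG f u)⁻¹ i j * ⟪a, lP f j u⟫) • lP f i u := rfl
    rw [← h3, ← h2, h1]
    abel
  set b := stdOrthonormalBasis ℝ W with hb
  rw [LinearMap.trace_eq_sum_inner A b]
  have hk : ∀ k, ⟪b k, A (b k)⟫ = (∑ i, ∑ j, (lG f u)⁻¹ i j *
      (⟪lP f j u, b k⟫ * ⟪b k, A (lP f i u)⟫))
      + ⟪F p, b k⟫ * ⟪b k, A (F p)⟫ + ⟪A (F p), b k⟫ * ⟪b k, A (A (F p))⟫ := by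
    intro k
    have e1 : ⟪b k, A (b k)⟫ = ⟪A (b k), b k⟫ := (hA _ _).symm
    rw [e1]
    have e2 := congrArg (fun z => ⟪A (b k), z⟫) (hdec (b k))
    simp only [inner_add_right, inner_sum, real_inner_smul_right] at e2
    rw [e2]
    congr 1
    · congr 1
      · refine Finset.sum_congr rfl fun i _ => ?_
        rw [Finset.sum_mul]
        refine Finset.sum_congr rfl fun j _ => ?_
        rw [hA (b k) (lP f i u), real_inner_comm (lP f j u) (b k)]
        ring
      · rw [hA (b k) (F p), real_inner_comm (F p) (b k)]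
    · rw [hA (b k) (A (F p)), real_inner_comm (A (F p)) (b k)]
  simp_rw [hk]
  rw [Finset.sum_add_distrib, Finset.sum_add_distrib, b.sum_inner_mul_inner,
    b.sum_inner_mul_inner, hfn, hAA, add_zero, add_zero, Finset.sum_comm, ← hm2]
  refine Finset.sum_congr rfl fun i _ => ?_
  rw [Finset.sum_comm]
  refine Finset.sum_congr rfl fun j _ => ?_
  rw [← Finset.mul_sum, b.sum_inner_mul_inner, ← hA (lP f j u) (lP f i u)]

end Vale.Agent.P224.RIG
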