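import Vale.Agent.P224.RIG.Alg
import Vale.Agent.P224.RIG.Trace
import Vale.Agent.P224.RIG.Sub
import Vale.Agent.P224.RIG.Range
import Vale.Agent.P224.RIG.Eq4
import Vale.Agent.P224.RIG.Eq6
import Vale.Agent.P224.RIG.Eq8
import Vale.Agent.P224.RIG.Eq10
import Vale.Agent.P224.RIG.Eq12
import Vale.Agent.P224.RIG.Eq14
import Vale.Agent.P224.RIG.Eq16

/-!
Rigidity: equality in the sharp volume bound in even dimensions from four to sixteen holds only
for the Clifford hypersurface.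
-/

namespace Vale.Agent.P224.RIG

open MeasureTheory Set Filter Function Module Vale.Agent.P224
open scoped Topology RealInnerProductSpace ENNReal ContDiff Manifold

set_option linter.unusedSectionVars false

lemma leastClifford_nonneg (m : ℕ) : 0 ≤ leastClifford m := by
  refine Real.iInf_nonneg fun k => ?_
  unfold cliffordVol
  have h1 := (sphereVol_pos' (k : ℕ)).le
  have h2 := (sphereVol_pos' (m - k)).le
  positivity

variable {V W M : Type*} [NormedAddCommGroup V] [InnerProductSpace ℝ V] [FiniteDimensional ℝ V]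
  [NormedAddCommGroup W] [InnerProductSpace ℝ W] [FiniteDimensional ℝ W]
  [TopologicalSpace M] [ChartedSpace V M]
  [MeasurableSpace V] [BorelSpace V] [MeasurableSpace M] [BorelSpace M]
  [IsManifold 𝓘(ℝ, V) ∞ M] [CompactSpace M] [T2Space M] [ConnectedSpace M]
  [MeasurableSpace W] [BorelSpace W]

/-- The identities between the pairs of points, in the case of equality. -/
theorem pairs (h2 : Even (finrank ℝ V)) (h4 : 4 ≤ finrank ℝ V) (h16 : finrank ℝ V ≤ 16)
    (hW : finrank ℝ W = finrank ℝ V + 2)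
    {F : M → W} (hF : SphImm V F) (hmin : ∀ x n, IsUnitNormal V F x n → meanCurv V F x n = 0)
    (hng : ¬ ∃ a : W, a ≠ 0 ∧ ∀ x, ⟪F x, a⟫ = 0)
    (hvol : (volM V F).real univ ≤ leastClifford (finrank ℝ V)) :
    Injective F ∧ ∃ N : M → W, ContMDiff 𝓘(ℝ, V) 𝓘(ℝ, W) ∞ N ∧ (∀ x, IsUnitNormal V F x (N x)) ∧
      (∀ x y, ⟪N x, N y⟫ = ⟪F x, F y⟫) ∧ ∀ x y, ⟪N x, F y⟫ = ⟪F x, N y⟫ := by
  obtain ⟨k, hk⟩ := h2
  have hk2 : 2 ≤ k := by omega
  have hk8 : k ≤ 8 := by omega
  interval_cases k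
  · exact M4.pairs hk hW hF hmin hng hvol
  · exact M6.pairs hk hW hF hmin hng hvol
  · exact M8.pairs hk hW hF hmin hng hvol
  · exact M10.pairs hk hW hF hmin hng hvol
  · exact M12.pairs hk hW hF hmin hng hvol
  · exact M14.pairs hk hW hF hmin hng hvol
  · exact M16.pairs hk hW hF hmin hng hvol

/-- In the case of equality there is a symmetric involution of trace zero which maps the points
to the normals. -/
theorem exists_invol_of_eq (h2 : Even (finrank ℝ V)) (h4 : 4 ≤ finrank ℝ V)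
    (h16 : finrank ℝ V ≤ 16) (hW : finrank ℝ W = finrank ℝ V + 2)
    {F : M → W} (hF : SphImm V F) (hmin : ∀ x n, IsUnitNormal V F x n → meanCurv V F x n = 0)
    (hng : ¬ ∃ a : W, a ≠ 0 ∧ ∀ x, ⟪F x, a⟫ = 0)
    (hvol : volM V F univ ≤ ENNReal.ofReal (leastClifford (finrank ℝ V))) :
    Injective F ∧ ∃ A : W →ₗ[ℝ] W, A.IsSymmetric ∧ (∀ w, A (A w) = w) ∧
      LinearMap.trace ℝ W A = 0 ∧ ∀ x, IsUnitNormal V F x (A (F x)) := by
  obtain ⟨hinj, N, -, hN, e1, e2⟩ := pairs h2 h4 h16 hW hF hmin hng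
    (ENNReal.toReal_le_of_le_ofReal (leastClifford_nonneg _) hvol)
  obtain ⟨A, hA, hA2, hAN⟩ := exists_invol e1 e2 hng
  have hN' : ∀ x, IsUnitNormal V F x (A (F x)) := fun x => by
    rw [← hAN x]
    exact hN x
  exact ⟨hinj, A, hA, hA2, trace_zero hW hF hmin hA hA2 hN', hN'⟩

/-- **Rigidity.** Equality in the sharp bound in the even dimensions from four to sixteen holds
only for embeddings onto the Clifford hypersurface, up to a linear isometry. -/
theorem rigid (h2 : Even (finrank ℝ V)) (h4 : 4 ≤ finrank ℝ V) (h16 : finrank ℝ V ≤ 16)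
    (hW : finrank ℝ W = finrank ℝ V + 2)
    {F : M → W} (hF : SphImm V F) (hmin : ∀ x n, IsUnitNormal V F x n → meanCurv V F x n = 0)
    (hng : ¬ ∃ a : W, a ≠ 0 ∧ ∀ x, ⟪F x, a⟫ = 0)
    (hvol : volM V F univ ≤ ENNReal.ofReal (leastClifford (finrank ℝ V))) :
    Injective F ∧ ∃ U : Submodule ℝ W, finrank ℝ U = finrank ℝ V / 2 + 1 ∧
      range F = {z | ‖U.starProjection z‖ ^ 2 = 1 / 2 ∧ ‖z - U.starProjection z‖ ^ 2 = 1 / 2} := by
  obtain ⟨hinj, A, hA, hA2, htr, hN⟩ := exists_invol_of_eq h2 h4 h16 hW hF hmin hng hvol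
  obtain ⟨k, hk⟩ := h2
  have hf : finrank ℝ (fixA A) = k + 1 := finrank_fixA (h := k) (by omega) hA2 htr
  have hf' : finrank ℝ (fixA A)ᗮ = k + 1 := by
    have := (fixA A).finrank_add_finrank_orthogonal
    omega
  have hK : ∀ x, ‖(fixA A).starProjection (F x)‖ ^ 2 = 1 / 2 ∧
      ‖F x - (fixA A).starProjection (F x)‖ ^ 2 = 1 / 2 := fun x =>
    mem_clifford hA hA2 (hF.unit x) (hN x).2.1
  have hset : {z | ‖(fixA A).starProjection z‖ ^ 2 = 1 / 2 ∧
      ‖z - (fixA A).starProjection z‖ ^ 2 = 1 / 2} = Prd (fixA A) := by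
    ext z
    have h : (fixA A)ᗮ.starProjection z = z - (fixA A).starProjection z := by
      rw [Submodule.starProjection_orthogonal_val]
    simp only [Prd, mem_setOf_eq, h]
  refine ⟨hinj, fixA A, by omega, ?_⟩
  rw [hset]
  refine range_eq_prd hW (fixA A) (by omega) (by omega) hF fun x => ?_
  rw [← hset]
  exact hK x

/-- The same with a linear isometry onto the product of two Euclidean spaces. -/
theorem rigid_iso {h : ℕ} (hV : finrank ℝ V = 2 * h) (h2 : 2 ≤ h) (h8 : h ≤ 8)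
    (hW : finrank ℝ W = finrank ℝ V + 2)
    {F : M → W} (hF : SphImm V F) (hmin : ∀ x n, IsUnitNormal V F x n → meanCurv V F x n = 0)
    (hng : ¬ ∃ a : W, a ≠ 0 ∧ ∀ x, ⟪F x, a⟫ = 0)
    (hvol : volM V F univ ≤ ENNReal.ofReal (leastClifford (finrank ℝ V))) :
    Injective F ∧
      ∃ φ : W ≃ₗᵢ[ℝ] WithLp 2 (EuclideanSpace ℝ (Fin (h + 1)) × EuclideanSpace ℝ (Fin (h + 1))),
        φ '' range F = {z | ‖z.fst‖ ^ 2 = 1 / 2 ∧ ‖z.snd‖ ^ 2 = 1 / 2} := by
  obtain ⟨hinj, A, hA, hA2, htr, hN⟩ := exists_invol_of_eq ⟨h, by omega⟩ (by omega) (by omega)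
    hW hF hmin hng hvol
  obtain ⟨φ, hφ⟩ := exists_iso (h := h) (by omega) hA hA2 htr
  exact ⟨hinj, φ, range_eq (by omega) hV hW hF hN φ hφ⟩

end Vale.Agent.P224.RIG
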