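import Vale.Agent.P224.RIG.Range
import Vale.Agent.P224.RIG.Sub
import Vale.Agent.P224.RIG.Trace

/-! The image of a minimal immersion with unit normal `A ∘ F`, `A` a symmetric involution, in the
Submodule form. -/

noncomputable section

open Set Module Vale.Agent.P224
open scoped RealInnerProductSpace ContDiff Manifold

namespace Vale.Agent.P224.RIG

variable {V W M : Type*} [NormedAddCommGroup V] [InnerProductSpace ℝ V] [FiniteDimensional ℝ V]
  [NormedAddCommGroup W] [InnerProductSpace ℝ W] [FiniteDimensional ℝ W]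
  [TopologicalSpace M] [ChartedSpace V M] [IsManifold 𝓘(ℝ, V) ∞ M] [CompactSpace M]

/-- `Prd` in the form with `z - P_U z`. -/
theorem prd_eq (U : Submodule ℝ W) :
    Prd U = {z | ‖U.starProjection z‖ ^ 2 = 1 / 2 ∧ ‖z - U.starProjection z‖ ^ 2 = 1 / 2} := by
  ext z
  have h : Uᗮ.starProjection z = z - U.starProjection z := Submodule.starProjection_orthogonal_val z
  change ‖U.starProjection z‖ ^ 2 = 1 / 2 ∧ ‖Uᗮ.starProjection z‖ ^ 2 = 1 / 2 ↔
    ‖U.starProjection z‖ ^ 2 = 1 / 2 ∧ ‖z - U.starProjection z‖ ^ 2 = 1 / 2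
  rw [h]

/-- **The image, Submodule form.** -/
theorem range_eq_sub [Nonempty M] {h : ℕ} (hh : 1 ≤ h) (hV : finrank ℝ V = 2 * h)
    (hW : finrank ℝ W = finrank ℝ V + 2) {F : M → W} (hF : SphImm V F)
    {A : W →ₗ[ℝ] W} (hA : A.IsSymmetric) (hA2 : ∀ w, A (A w) = w)
    (htr : LinearMap.trace ℝ W A = 0) (hN : ∀ x, IsUnitNormal V F x (A (F x))) :
    finrank ℝ (fixA A) = h + 1 ∧ range F =
      {z | ‖(fixA A).starProjection z‖ ^ 2 = 1 / 2 ∧
        ‖z - (fixA A).starProjection z‖ ^ 2 = 1 / 2} := by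
  have hW' : finrank ℝ W = 2 * h + 2 := by omega
  have hd1 : finrank ℝ (fixA A) = h + 1 := finrank_fixA hW' hA2 htr
  have hd2 : finrank ℝ (fixA A)ᗮ = h + 1 := by
    have := Submodule.finrank_add_finrank_orthogonal (fixA A)
    omega
  refine ⟨hd1, ?_⟩
  rw [← prd_eq]
  refine range_eq_prd hW (fixA A) (by omega) (by omega) hF fun x => ?_
  rw [prd_eq]
  exact mem_clifford hA hA2 (hF.unit x) (hN x).2.1

/-- The image of a minimal immersion with unit normal `A ∘ F`. -/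
theorem exists_range [ConnectedSpace M] [T2Space M] {h : ℕ} (hh : 1 ≤ h) (hV : finrank ℝ V = 2 * h)
    (hW : finrank ℝ W = finrank ℝ V + 2) {F : M → W} (hF : SphImm V F)
    (hmin : ∀ x n, IsUnitNormal V F x n → meanCurv V F x n = 0)
    {A : W →ₗ[ℝ] W} (hA : A.IsSymmetric) (hA2 : ∀ w, A (A w) = w)
    (hN : ∀ x, IsUnitNormal V F x (A (F x))) :
    ∃ U : Submodule ℝ W, finrank ℝ U = h + 1 ∧ range F =
      {z | ‖U.starProjection z‖ ^ 2 = 1 / 2 ∧ ‖z - U.starProjection z‖ ^ 2 = 1 / 2} :=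
  ⟨fixA A, range_eq_sub hh hV hW hF hA hA2 (trace_zero hW hF hmin hA hA2 hN) hN⟩

end Vale.Agent.P224.RIG
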