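import Vale.Agent.P224.RIG.Five

/-!
The volume of an injective immersion onto a product of two spheres.
-/

namespace Vale.Agent.P224.RIG

open Set Filter Function Module MeasureTheory Vale.Agent.P224
open scoped Topology RealInnerProductSpace ContDiff Manifold ENNReal

set_option linter.unusedSectionVars false

variable {V W M : Type*} [NormedAddCommGroup V] [InnerProductSpace ℝ V] [FiniteDimensional ℝ V]
  [NormedAddCommGroup W] [InnerProductSpace ℝ W] [FiniteDimensional ℝ W]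
  [TopologicalSpace M] [ChartedSpace V M]

section lin

variable (K : Submodule ℝ W)

lemma pKK (w : W) : K.starProjection (K.starProjection w) = K.starProjection w :=
  Submodule.starProjection_eq_self_iff.2 (Submodule.starProjection_apply_mem K w)

lemma pOO (w : W) : Kᗮ.starProjection (Kᗮ.starProjection w) = Kᗮ.starProjection w :=
  Submodule.starProjection_eq_self_iff.2 (Submodule.starProjection_apply_mem Kᗮ w)

lemma pKO (w : W) : K.starProjection (Kᗮ.starProjection w) = 0 := by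
  have h2 := congrArg K.starProjection (proj_add K w)
  rw [map_add, pKK] at h2
  exact left_eq_add.1 h2.symm

lemma pOK (w : W) : Kᗮ.starProjection (K.starProjection w) = 0 := by
  have h2 := congrArg Kᗮ.starProjection (proj_add K w)
  rw [map_add, pOO] at h2
  exact right_eq_add.1 h2.symm

/-- scaling of the two factors -/
noncomputable def sc (s t : ℝ) : W →L[ℝ] W := s • K.starProjection + t • Kᗮ.starProjection

lemma det_sc (s t : ℝ) : (sc K s t).det = s ^ finrank ℝ K * t ^ finrank ℝ Kᗮ := by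
  have hc : IsCompl K Kᗮ := Submodule.isCompl_orthogonal K
  set e := Submodule.prodEquivOfIsCompl K Kᗮ hc with he
  have h1 : ((sc K s t : W →L[ℝ] W) : W →ₗ[ℝ] W) = (e : (K × Kᗮ) →ₗ[ℝ] W) ∘ₗ
      (LinearMap.prodMap (s • (LinearMap.id : K →ₗ[ℝ] K))
        (t • (LinearMap.id : Kᗮ →ₗ[ℝ] Kᗮ))) ∘ₗ (e.symm : W →ₗ[ℝ] (K × Kᗮ)) := by
    ext w
    obtain ⟨z, rfl⟩ := e.surjective w
    obtain ⟨a, b⟩ := z
    have ha : K.starProjection (a : W) = a := Submodule.starProjection_eq_self_iff.2 a.2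
    have hb : Kᗮ.starProjection (b : W) = b := Submodule.starProjection_eq_self_iff.2 b.2
    have hab : Kᗮ.starProjection (a : W) = 0 := by rw [← ha, pOK]
    have hba : K.starProjection (b : W) = 0 := by rw [← hb, pKO]
    simp [he, sc, ha, hba]
  rw [ContinuousLinearMap.det, h1, LinearMap.det_conj, LinearMap.det_prodMap, LinearMap.det_smul,
    LinearMap.det_smul, LinearMap.det_id, LinearMap.det_id, mul_one, mul_one]

/-- the cone coordinates -/
noncomputable def cm (p r : ℝ) (f : V → W) (q : (V × ℝ) × ℝ) : W :=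
  (q.1.2 / p) • K.starProjection (f q.1.1) + (q.2 / r) • Kᗮ.starProjection (f q.1.1)

/-- the second factor of the derivative of the cone coordinates -/
noncomputable def dc (D : V →L[ℝ] W) (w : W) (q : (V × ℝ) × ℝ) : (V × ℝ) × ℝ →L[ℝ] W :=
  (D.comp (ContinuousLinearMap.fst ℝ V ℝ)
    + (ContinuousLinearMap.snd ℝ V ℝ).smulRight (q.1.2⁻¹ • K.starProjection w)).comp
      (ContinuousLinearMap.fst ℝ (V × ℝ) ℝ)
    + (ContinuousLinearMap.snd ℝ (V × ℝ) ℝ).smulRight (q.2⁻¹ • Kᗮ.starProjection w)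

lemma dc_apply (D : V →L[ℝ] W) (w : W) (q : (V × ℝ) × ℝ) (v : V) (a b : ℝ) :
    dc K D w q ((v, a), b) = D v + a • q.1.2⁻¹ • K.starProjection w
      + b • q.2⁻¹ • Kᗮ.starProjection w := rfl

lemma hasFDerivAt_cm {p r : ℝ} {f : V → W} {D : V →L[ℝ] W} {q : (V × ℝ) × ℝ}
    (h : HasFDerivAt f D q.1.1) (hs : q.1.2 ≠ 0) (ht : q.2 ≠ 0) :
    HasFDerivAt (cm K p r f) ((sc K (q.1.2 / p) (q.2 / r)).comp (dc K D (f q.1.1) q)) q := by
  have g1 : HasFDerivAt (fun q : (V × ℝ) × ℝ => q.1.1) ((ContinuousLinearMap.fst ℝ V ℝ).comp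
      (ContinuousLinearMap.fst ℝ (V × ℝ) ℝ)) q :=
    ((ContinuousLinearMap.fst ℝ V ℝ).comp (ContinuousLinearMap.fst ℝ (V × ℝ) ℝ)).hasFDerivAt
  have g2 : HasFDerivAt (fun q : (V × ℝ) × ℝ => q.1.2) ((ContinuousLinearMap.snd ℝ V ℝ).comp
      (ContinuousLinearMap.fst ℝ (V × ℝ) ℝ)) q :=
    ((ContinuousLinearMap.snd ℝ V ℝ).comp (ContinuousLinearMap.fst ℝ (V × ℝ) ℝ)).hasFDerivAt
  have g3 : HasFDerivAt (fun q : (V × ℝ) × ℝ => q.2) (ContinuousLinearMap.snd ℝ (V × ℝ) ℝ) q :=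
    (ContinuousLinearMap.snd ℝ (V × ℝ) ℝ).hasFDerivAt
  have h0 : HasFDerivAt (fun q : (V × ℝ) × ℝ => f q.1.1) (D.comp
      ((ContinuousLinearMap.fst ℝ V ℝ).comp (ContinuousLinearMap.fst ℝ (V × ℝ) ℝ))) q :=
    HasFDerivAt.comp q h g1
  have h1 := K.starProjection.hasFDerivAt.comp q h0
  have h2 := Kᗮ.starProjection.hasFDerivAt.comp q h0
  have h3 := ((g2.mul_const p⁻¹).smul h1).add ((g3.mul_const r⁻¹).smul h2)
  refine (h3.congr_fderiv ?_)
  refine ContinuousLinearMap.ext fun z => ?_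
  obtain ⟨⟨v, a⟩, b⟩ := z
  have e1 : (sc K (q.1.2 / p) (q.2 / r)).comp (dc K D (f q.1.1) q) ((v, a), b)
      = (q.1.2 / p) • K.starProjection (D v + a • q.1.2⁻¹ • K.starProjection (f q.1.1)
      + b • q.2⁻¹ • Kᗮ.starProjection (f q.1.1))
      + (q.2 / r) • Kᗮ.starProjection (D v + a • q.1.2⁻¹ • K.starProjection (f q.1.1)
      + b • q.2⁻¹ • Kᗮ.starProjection (f q.1.1)) := rfl
  rw [e1]
  simp only [map_add, map_smul, pKK, pKO, pOK, smul_zero, add_zero, smul_add, smul_smul]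
  have e2 : q.1.2 / p * (a * q.1.2⁻¹) = a * p⁻¹ := by field_simp
  have e3 : q.2 / r * (b * q.2⁻¹) = b * r⁻¹ := by field_simp
  rw [e2, e3]
  simp only [div_eq_mul_inv, add_apply, smul_apply,
    ContinuousLinearMap.comp_apply, ContinuousLinearMap.smulRight_apply, Function.comp_apply,
    ContinuousLinearMap.coe_fst', ContinuousLinearMap.coe_snd']
  module

end lin

section coord

variable {ι : Type*} [Fintype ι] [DecidableEq ι]

/-- the square of the determinant of an endomorphism is the Gram determinant of the image of an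
orthonormal basis -/
lemma det_sq_gram (e : OrthonormalBasis ι ℝ W) (A : W →L[ℝ] W) :
    A.det ^ 2 = (Matrix.gram ℝ fun i => A (e i)).det := by
  have h1 : A.det = (LinearMap.toMatrix e.toBasis e.toBasis (A : W →ₗ[ℝ] W)).det := by
    rw [ContinuousLinearMap.det, LinearMap.det_toMatrix]
  have h2 : (Matrix.gram ℝ fun i => A (e i)) =
      (LinearMap.toMatrix e.toBasis e.toBasis (A : W →ₗ[ℝ] W)).transpose *
        LinearMap.toMatrix e.toBasis e.toBasis (A : W →ₗ[ℝ] W) := by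
    ext i j
    rw [Matrix.mul_apply, Matrix.gram_apply, ← e.sum_inner_mul_inner]
    refine Finset.sum_congr rfl fun k _ => ?_
    rw [Matrix.transpose_apply, LinearMap.toMatrix_apply, LinearMap.toMatrix_apply]
    simp only [OrthonormalBasis.coe_toBasis, OrthonormalBasis.coe_toBasis_repr_apply,
      OrthonormalBasis.repr_apply_apply, ContinuousLinearMap.coe_coe]
    rw [real_inner_comm]
  rw [h2, Matrix.det_mul, Matrix.det_transpose, ← h1, sq]

variable [MeasurableSpace V] [BorelSpace V] [MeasurableSpace W] [BorelSpace W]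

/-- measure preserving linear coordinates adapted to an orthonormal basis -/
lemma exists_coordR (hW : finrank ℝ W = finrank ℝ V + 2) :
    ∃ (Ψ : W ≃L[ℝ] (V × ℝ) × ℝ)
      (e : OrthonormalBasis ((Fin (finrank ℝ V) ⊕ Unit) ⊕ Unit) ℝ W),
      MeasurePreserving Ψ ∧
      (∀ i, Ψ (e (Sum.inl (Sum.inl i))) = ((stdOrthonormalBasis ℝ V i, 0), 0)) ∧
      (∀ i, Ψ (e (Sum.inl (Sum.inr i))) = ((0, 1), 0)) ∧
      (∀ i, Ψ (e (Sum.inr i)) = ((0, 0), 1)) := by
  set eE : OrthonormalBasis ((Fin (finrank ℝ V) ⊕ Unit) ⊕ Unit) ℝ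
      (WithLp 2 (WithLp 2 (V × ℝ) × ℝ)) :=
    ((stdOrthonormalBasis ℝ V).prod (OrthonormalBasis.singleton Unit ℝ)).prod
      (OrthonormalBasis.singleton Unit ℝ) with heE
  have hcard : Fintype.card ((Fin (finrank ℝ V) ⊕ Unit) ⊕ Unit)
      = Fintype.card (Fin (finrank ℝ W)) := by
    simp [hW]
  set Λ : WithLp 2 (WithLp 2 (V × ℝ) × ℝ) ≃ₗᵢ[ℝ] W :=
    eE.equiv (stdOrthonormalBasis ℝ W) (Fintype.equivOfCardEq hcard) with hΛ
  set Ψ : W ≃L[ℝ] (V × ℝ) × ℝ :=
    Λ.symm.toContinuousLinearEquiv.trans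
      ((WithLp.prodContinuousLinearEquiv 2 ℝ (WithLp 2 (V × ℝ)) ℝ).trans
        ((WithLp.prodContinuousLinearEquiv 2 ℝ V ℝ).prodCongr (ContinuousLinearEquiv.refl ℝ ℝ)))
      with hΨ
  refine ⟨Ψ, eE.map Λ, ?_, ?_, ?_, ?_⟩
  · have h1 := Λ.symm.measurePreserving
    have h2 := WithLp.volume_preserving_ofLp (WithLp 2 (V × ℝ)) ℝ
    have h3 := (WithLp.volume_preserving_ofLp V ℝ).prod (MeasurePreserving.id (volume : Measure ℝ))
    exact h3.comp (h2.comp h1)
  · intro i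
    simp [hΨ, heE]
  · intro i
    simp [hΨ, heE]
  · intro i
    simp [hΨ, heE]
    rfl

end coord

/-- the absolute value of the Jacobian determinant -/
lemma abs_det_cm (K : Submodule ℝ W) {k l : ℕ} (hk : finrank ℝ K = k + 1)
    (hl : finrank ℝ Kᗮ = l + 1) {p r : ℝ} (hp : 0 < p) (hr : 0 < r)
    (Ψ : W ≃L[ℝ] (V × ℝ) × ℝ) (e : OrthonormalBasis ((Fin (finrank ℝ V) ⊕ Unit) ⊕ Unit) ℝ W)
    (e1 : ∀ i, Ψ (e (Sum.inl (Sum.inl i))) = ((stdOrthonormalBasis ℝ V i, 0), 0))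
    (e2 : ∀ i, Ψ (e (Sum.inl (Sum.inr i))) = ((0, 1), 0))
    (e3 : ∀ i, Ψ (e (Sum.inr i)) = ((0, 0), 1))
    {f : V → W} {q : (V × ℝ) × ℝ} (h : DifferentiableAt ℝ f q.1.1)
    (hf : ∀ u, ‖K.starProjection (f u)‖ = p ∧ ‖Kᗮ.starProjection (f u)‖ = r)
    (hs : 0 < q.1.2) (ht : 0 < q.2) (hG : 0 ≤ (metricMat f q.1.1).det) :
    |(((sc K (q.1.2 / p) (q.2 / r)).comp (dc K (fderiv ℝ f q.1.1) (f q.1.1) q)).comp
      (Ψ : W →L[ℝ] (V × ℝ) × ℝ)).det|
      = √(metricMat f q.1.1).det * (q.1.2 / p) ^ k * (q.2 / r) ^ l := by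
  set D := fderiv ℝ f q.1.1 with hD
  set w := f q.1.1 with hw
  have hPf := inner_deriv h.hasFDerivAt K.starProjection
    (c := p ^ 2) (fun u => by rw [(hf u).1])
  have hQf := inner_deriv h.hasFDerivAt Kᗮ.starProjection
    (c := r ^ 2) (fun u => by rw [(hf u).2])
  have hDK : ∀ v, ⟪D v, K.starProjection w⟫ = 0 := fun v => by
    rw [← proj_add K (D v), inner_add_left, inner_proj', add_zero]
    exact hPf v
  have hDO : ∀ v, ⟪D v, Kᗮ.starProjection w⟫ = 0 := fun v => by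
    rw [← proj_add K (D v), inner_add_left, inner_proj, zero_add]
    exact hQf v
  have hKK : ⟪K.starProjection w, K.starProjection w⟫ = p ^ 2 := by
    rw [real_inner_self_eq_norm_sq, (hf _).1]
  have hOO : ⟪Kᗮ.starProjection w, Kᗮ.starProjection w⟫ = r ^ 2 := by
    rw [real_inner_self_eq_norm_sq, (hf _).2]
  have hcomp : ((sc K (q.1.2 / p) (q.2 / r)).comp (dc K D w q)).comp
      (Ψ : W →L[ℝ] (V × ℝ) × ℝ) = (sc K (q.1.2 / p) (q.2 / r)).comp
        ((dc K D w q).comp (Ψ : W →L[ℝ] (V × ℝ) × ℝ)) := rfl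
  have hdm : ((sc K (q.1.2 / p) (q.2 / r)).comp
        ((dc K D w q).comp (Ψ : W →L[ℝ] (V × ℝ) × ℝ))).det
      = (sc K (q.1.2 / p) (q.2 / r)).det * ((dc K D w q).comp (Ψ : W →L[ℝ] (V × ℝ) × ℝ)).det := by
    simp only [ContinuousLinearMap.det]
    exact LinearMap.det_comp _ _
  have hdet := det_sq_gram e ((dc K D w q).comp (Ψ : W →L[ℝ] (V × ℝ) × ℝ))
  have hvec : (fun i => ((dc K D w q).comp (Ψ : W →L[ℝ] (V × ℝ) × ℝ)) (e i))
      = Sum.elim (Sum.elim (fun i => pd f i q.1.1)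
        (fun _ : Unit => q.1.2⁻¹ • K.starProjection w))
        (fun _ : Unit => q.2⁻¹ • Kᗮ.starProjection w) := by
    funext i
    rcases i with (i | i) | i
    · simp [dc_apply, e1, pd, hD]
    · simp [dc_apply, e2]
    · simp [dc_apply, e3]
  have hgram : Matrix.gram ℝ (Sum.elim (Sum.elim (fun i => pd f i q.1.1)
        (fun _ : Unit => q.1.2⁻¹ • K.starProjection w))
        (fun _ : Unit => q.2⁻¹ • Kᗮ.starProjection w))
      = Matrix.fromBlocks (Matrix.fromBlocks (metricMat f q.1.1) 0 0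
          (Matrix.of fun _ _ => (q.1.2⁻¹ * p) ^ 2)) 0 0 (Matrix.of fun _ _ => (q.2⁻¹ * r) ^ 2) := by
    ext i j
    rcases i with (i | i) | i <;> rcases j with (j | j) | j <;>
      simp only [Matrix.gram_apply, Sum.elim_inl, Sum.elim_inr, Matrix.fromBlocks_apply₁₁,
        Matrix.fromBlocks_apply₁₂, Matrix.fromBlocks_apply₂₁, Matrix.fromBlocks_apply₂₂,
        Matrix.zero_apply, Matrix.of_apply, real_inner_smul_left, real_inner_smul_right,
        inner_proj, inner_proj', hKK, hOO, mul_zero, metricMat]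
    · change q.1.2⁻¹ * ⟪D (stdOrthonormalBasis ℝ V i), K.starProjection w⟫ = 0
      rw [hDK, mul_zero]
    · change q.2⁻¹ * ⟪D (stdOrthonormalBasis ℝ V i), Kᗮ.starProjection w⟫ = 0
      rw [hDO, mul_zero]
    · change q.1.2⁻¹ * ⟪K.starProjection w, D (stdOrthonormalBasis ℝ V j)⟫ = 0
      rw [real_inner_comm, hDK, mul_zero]
    · ring
    · change q.2⁻¹ * ⟪Kᗮ.starProjection w, D (stdOrthonormalBasis ℝ V j)⟫ = 0
      rw [real_inner_comm, hDO, mul_zero]
    · ring
  have hd : (Matrix.fromBlocks (Matrix.fromBlocks (metricMat f q.1.1) 0 0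
          (Matrix.of fun (_ _ : Unit) => (q.1.2⁻¹ * p) ^ 2)) 0 0
          (Matrix.of fun (_ _ : Unit) => (q.2⁻¹ * r) ^ 2)).det
      = (√(metricMat f q.1.1).det * (q.1.2⁻¹ * p) * (q.2⁻¹ * r)) ^ 2 := by
    have hu : ∀ c : ℝ, (Matrix.of fun (_ _ : Unit) => c).det = c := fun c => by
      rw [Matrix.det_unique, Matrix.of_apply]
    have hq : (√(metricMat f q.1.1).det * (q.1.2⁻¹ * p) * (q.2⁻¹ * r)) ^ 2
        = √(metricMat f q.1.1).det ^ 2 * (q.1.2⁻¹ * p) ^ 2 * (q.2⁻¹ * r) ^ 2 := by ring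
    rw [Matrix.det_fromBlocks_zero₂₁, Matrix.det_fromBlocks_zero₂₁, hu, hu, hq,
      Real.sq_sqrt hG]
  rw [hvec, hgram, hd, sq_eq_sq_iff_abs_eq_abs] at hdet
  rw [hcomp, hdm, abs_mul, hdet, det_sc, hk, hl]
  have h1 : 0 ≤ √(metricMat f q.1.1).det := Real.sqrt_nonneg _
  rw [abs_of_nonneg (by positivity), abs_of_nonneg (by positivity)]
  have h2 : q.1.2 / p * (q.1.2⁻¹ * p) = 1 := by field_simp
  have h3 : q.2 / r * (q.2⁻¹ * r) = 1 := by field_simp
  calc (q.1.2 / p) ^ (k + 1) * (q.2 / r) ^ (l + 1)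
        * (√(metricMat f q.1.1).det * (q.1.2⁻¹ * p) * (q.2⁻¹ * r))
      = √(metricMat f q.1.1).det * ((q.1.2 / p) ^ k * (q.1.2 / p * (q.1.2⁻¹ * p)))
        * ((q.2 / r) ^ l * (q.2 / r * (q.2⁻¹ * r))) := by ring
    _ = _ := by rw [h2, h3, mul_one, mul_one]

section piece

variable [MeasurableSpace V] [BorelSpace V] [MeasurableSpace W] [BorelSpace W]

lemma norm_cm (K : Submodule ℝ W) {p r : ℝ} (hp : 0 < p) (hr : 0 < r) {f : V → W}
    (hf : ∀ u, ‖K.starProjection (f u)‖ = p ∧ ‖Kᗮ.starProjection (f u)‖ = r)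
    {q : (V × ℝ) × ℝ} (hs : 0 < q.1.2) (ht : 0 < q.2) :
    ‖K.starProjection (cm K p r f q)‖ = q.1.2 ∧ ‖Kᗮ.starProjection (cm K p r f q)‖ = q.2 := by
  unfold cm
  simp only [map_add, map_smul, pKK, pKO, pOK, smul_zero, add_zero, zero_add, norm_smul,
    (hf _).1, (hf _).2, Real.norm_eq_abs]
  constructor
  · rw [abs_of_pos (by positivity)]
    field_simp
  · rw [abs_of_pos (by positivity)]
    field_simp

lemma norm_sq_proj (K : Submodule ℝ W) (w : W) :
    ‖w‖ ^ 2 = ‖K.starProjection w‖ ^ 2 + ‖Kᗮ.starProjection w‖ ^ 2 := by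
  conv_lhs => rw [← proj_add K w]
  rw [← real_inner_self_eq_norm_sq, inner_add_left, inner_add_right, inner_add_right, inner_proj,
    inner_proj', real_inner_self_eq_norm_sq, real_inner_self_eq_norm_sq]
  ring

lemma injOn_cm (K : Submodule ℝ W) {p r : ℝ} (hp : 0 < p) (hr : 0 < r) {f : V → W}
    (hf : ∀ u, ‖K.starProjection (f u)‖ = p ∧ ‖Kᗮ.starProjection (f u)‖ = r)
    {E : Set V} (hE : InjOn f E) :
    InjOn (cm K p r f) ((E ×ˢ Ioi (0 : ℝ)) ×ˢ Ioi (0 : ℝ)) := by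
  rintro q ⟨⟨hq, hs⟩, ht⟩ q' ⟨⟨hq', hs'⟩, ht'⟩ h
  have n1 := norm_cm K hp hr hf hs ht
  have n2 := norm_cm K hp hr hf hs' ht'
  have e1 : q.1.2 = q'.1.2 := by rw [← n1.1, h, n2.1]
  have e2 : q.2 = q'.2 := by rw [← n1.2, h, n2.2]
  have h1 := congrArg K.starProjection h
  have h2 := congrArg Kᗮ.starProjection h
  unfold cm at h1 h2
  simp only [map_add, map_smul, pKK, pKO, pOK, smul_zero, add_zero, zero_add] at h1 h2
  rw [← e1] at h1
  rw [← e2] at h2
  have hs0 : q.1.2 / p ≠ 0 := by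
    have : (0 : ℝ) < q.1.2 := hs
    positivity
  have ht0 : q.2 / r ≠ 0 := by
    have : (0 : ℝ) < q.2 := ht
    positivity
  have h3 := smul_right_injective W hs0 h1
  have h4 := smul_right_injective W ht0 h2
  have h5 : f q.1.1 = f q'.1.1 := by
    rw [← proj_add K (f q.1.1), ← proj_add K (f q'.1.1), h3, h4]
  have h6 := hE hq hq' h5
  exact Prod.ext (Prod.ext h6 e1) e2

/-- the Gaussian measure of a piece of the cone -/
theorem piece (hW : finrank ℝ W = finrank ℝ V + 2) (K : Submodule ℝ W) {k l : ℕ}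
    (hk : finrank ℝ K = k + 1) (hl : finrank ℝ Kᗮ = l + 1) {p r : ℝ} (hp : 0 < p) (hr : 0 < r)
    {f : V → W} {T : Set V} (hT : ImmV f T)
    (hf : ∀ u, ‖K.starProjection (f u)‖ = p ∧ ‖Kᗮ.starProjection (f u)‖ = r)
    {E : Set V} (hE : InjOn f E) (hEm : MeasurableSet E) (hET : E ⊆ T)
    (hm : ContinuousOn (fun u : V => √(metricMat f u).det) T)
    (hpos : ∀ u ∈ T, 0 ≤ (metricMat f u).det) :
    MeasurableSet (cm K p r f '' ((E ×ˢ Ioi (0 : ℝ)) ×ˢ Ioi (0 : ℝ))) ∧
    ∫⁻ y in cm K p r f '' ((E ×ˢ Ioi (0 : ℝ)) ×ˢ Ioi (0 : ℝ)), ENNReal.ofReal (Real.exp (-‖y‖ ^ 2))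
      = (∫⁻ u in E, ENNReal.ofReal √(metricMat f u).det)
        * (∫⁻ s in Ioi (0 : ℝ), ENNReal.ofReal ((s / p) ^ k * Real.exp (-s ^ 2)))
        * ∫⁻ t in Ioi (0 : ℝ), ENNReal.ofReal ((t / r) ^ l * Real.exp (-t ^ 2)) := by
  obtain ⟨Ψ, e, hΨ, e1, e2, e3⟩ := exists_coordR (V := V) (W := W) hW
  set S : Set ((V × ℝ) × ℝ) := (E ×ˢ Ioi (0 : ℝ)) ×ˢ Ioi (0 : ℝ) with hS
  have hSm : MeasurableSet S := (hEm.prod measurableSet_Ioi).prod measurableSet_Ioi
  have hΨm : Measurable Ψ := Ψ.continuous.measurable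
  have hSm' : MeasurableSet (Ψ ⁻¹' S) := hΨm hSm
  have himg : cm K p r f '' S = (cm K p r f ∘ Ψ) '' (Ψ ⁻¹' S) := by
    rw [image_comp, image_preimage_eq _ Ψ.surjective]
  have hdiff : ∀ q ∈ S, DifferentiableAt ℝ f q.1.1 := fun q hq =>
    (hT.smooth.contDiffAt (hT.isOpen.mem_nhds (hET hq.1.1))).differentiableAt (by norm_num)
  have hder : ∀ y ∈ Ψ ⁻¹' S, HasFDerivWithinAt (cm K p r f ∘ Ψ)
      (((sc K ((Ψ y).1.2 / p) ((Ψ y).2 / r)).comp (dc K (fderiv ℝ f (Ψ y).1.1)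
        (f (Ψ y).1.1) (Ψ y))).comp (Ψ : W →L[ℝ] (V × ℝ) × ℝ)) (Ψ ⁻¹' S) y := by
    intro y hy
    have hy1 : (0 : ℝ) < (Ψ y).1.2 := hy.1.2
    have hy2 : (0 : ℝ) < (Ψ y).2 := hy.2
    exact ((hasFDerivAt_cm K (hdiff _ hy).hasFDerivAt hy1.ne' hy2.ne').comp y
      Ψ.hasFDerivAt).hasFDerivWithinAt
  have hinj : InjOn (cm K p r f ∘ Ψ) (Ψ ⁻¹' S) := by
    intro y hy z hz hyz
    exact Ψ.injective (injOn_cm K hp hr hf hE hy hz hyz)
  have hmeas : MeasurableSet (cm K p r f '' S) := by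
    rw [himg]
    exact measurable_image_of_fderivWithin hSm' hder hinj
  refine ⟨hmeas, ?_⟩
  rw [himg, lintegral_image_eq_lintegral_abs_det_fderiv_mul volume hSm' hder hinj]
  have hemb : MeasurableEmbedding Ψ := Ψ.toHomeomorph.measurableEmbedding
  have h4 := hΨ.setLIntegral_comp_preimage_emb hemb
    (fun q => ENNReal.ofReal |(((sc K (q.1.2 / p) (q.2 / r)).comp (dc K (fderiv ℝ f q.1.1)
        (f q.1.1) q)).comp (Ψ : W →L[ℝ] (V × ℝ) × ℝ)).det|
        * ENNReal.ofReal (Real.exp (-‖cm K p r f q‖ ^ 2))) S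
  refine (h4.trans ?_)
  have h5 : ∫⁻ q in S, ENNReal.ofReal |(((sc K (q.1.2 / p) (q.2 / r)).comp (dc K (fderiv ℝ f q.1.1)
        (f q.1.1) q)).comp (Ψ : W →L[ℝ] (V × ℝ) × ℝ)).det|
        * ENNReal.ofReal (Real.exp (-‖cm K p r f q‖ ^ 2))
      = ∫⁻ q in S, (ENNReal.ofReal √(metricMat f q.1.1).det
        * ENNReal.ofReal ((q.1.2 / p) ^ k * Real.exp (-q.1.2 ^ 2)))
        * ENNReal.ofReal ((q.2 / r) ^ l * Real.exp (-q.2 ^ 2)) := by
    refine setLIntegral_congr_fun hSm fun q hq => ?_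
    have hq1 : (0 : ℝ) < q.1.2 := hq.1.2
    have hq2 : (0 : ℝ) < q.2 := hq.2
    have n1 := norm_cm K hp hr hf hq1 hq2
    rw [abs_det_cm K hk hl hp hr Ψ e e1 e2 e3 (hdiff q hq) hf hq1 hq2 (hpos _ (hET hq.1.1)),
      norm_sq_proj K, n1.1, n1.2, ← ENNReal.ofReal_mul (by positivity),
      ← ENNReal.ofReal_mul (by positivity), ← ENNReal.ofReal_mul (by positivity), neg_add,
      Real.exp_add]
    congr 1
    ring
  rw [h5]
  have hv1 : (volume : Measure ((V × ℝ) × ℝ)).restrict S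
      = ((volume.restrict E).prod (volume.restrict (Ioi (0 : ℝ)))).prod
        (volume.restrict (Ioi (0 : ℝ))) := by
    rw [hS, Measure.volume_eq_prod, ← Measure.prod_restrict, Measure.volume_eq_prod,
      ← Measure.prod_restrict]
  have m1 : AEMeasurable (fun u : V => ENNReal.ofReal √(metricMat f u).det)
      (volume.restrict E) := ((hm.mono hET).aemeasurable hEm).ennreal_ofReal
  have m2 : Measurable (fun s : ℝ => ENNReal.ofReal ((s / p) ^ k * Real.exp (-s ^ 2))) := by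
    fun_prop
  have m3 : Measurable (fun s : ℝ => ENNReal.ofReal ((s / r) ^ l * Real.exp (-s ^ 2))) := by
    fun_prop
  rw [hv1]
  have h6 := lintegral_prod_mul (μ := (volume.restrict E).prod (volume.restrict (Ioi (0 : ℝ))))
    (ν := volume.restrict (Ioi (0 : ℝ)))
    (f := fun z : V × ℝ => ENNReal.ofReal √(metricMat f z.1).det
      * ENNReal.ofReal ((z.2 / p) ^ k * Real.exp (-z.2 ^ 2)))
    (g := fun t => ENNReal.ofReal ((t / r) ^ l * Real.exp (-t ^ 2)))
    ((m1.comp_quasiMeasurePreserving Measure.quasiMeasurePreserving_fst).mul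
      (m2.comp measurable_snd).aemeasurable) m3.aemeasurable
  rw [h6, lintegral_prod_mul m1 m2.aemeasurable]

end piece

section glob

variable [MeasurableSpace V] [BorelSpace V] [MeasurableSpace W] [BorelSpace W]
  [MeasurableSpace M] [BorelSpace M]

/-- the cone over a set of parameters -/
def cn (K : Submodule ℝ W) (p r : ℝ) (F : M → W) (A : Set M) : Set W :=
  {w | ∃ x ∈ A, ∃ s t : ℝ, 0 < s ∧ 0 < t ∧
    w = (s / p) • K.starProjection (F x) + (t / r) • Kᗮ.starProjection (F x)}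

lemma cn_eq (K : Submodule ℝ W) (p r : ℝ) (F : M → W) (x₀ : M) {A : Set M}
    (hA : A ⊆ (chartAt V x₀).source) :
    cn K p r F A = cm K p r (rep (V := V) F x₀) ''
      ((((chartAt V x₀).target ∩ (chartAt V x₀).symm ⁻¹' A) ×ˢ Ioi (0 : ℝ)) ×ˢ Ioi (0 : ℝ)) := by
  ext w
  constructor
  · rintro ⟨x, hx, s, t, hs, ht, rfl⟩
    refine ⟨((chartAt V x₀ x, s), t), ⟨⟨⟨(chartAt V x₀).map_source (hA hx), ?_⟩, hs⟩, ht⟩, ?_⟩
    · rw [mem_preimage, (chartAt V x₀).left_inv (hA hx)]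
      exact hx
    · unfold cm rep
      simp only [(chartAt V x₀).left_inv (hA hx)]
  · rintro ⟨⟨⟨u, s⟩, t⟩, ⟨⟨⟨hu, huA⟩, hs⟩, ht⟩, rfl⟩
    exact ⟨(chartAt V x₀).symm u, huA, s, t, hs, ht, rfl⟩

/-- the constant of the cone -/
noncomputable def cc (k : ℕ) (p : ℝ) : ℝ≥0∞ :=
  ∫⁻ s in Ioi (0 : ℝ), ENNReal.ofReal ((s / p) ^ k * Real.exp (-s ^ 2))

theorem cn_meas [IsManifold 𝓘(ℝ, V) ∞ M] (hW : finrank ℝ W = finrank ℝ V + 2)
    (K : Submodule ℝ W) {k l : ℕ}
    (hk : finrank ℝ K = k + 1) (hl : finrank ℝ Kᗮ = l + 1) {p r : ℝ} (hp : 0 < p) (hr : 0 < r)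
    {F : M → W} (hF : SphImm V F) (hinj : Injective F)
    (hK : ∀ x, ‖K.starProjection (F x)‖ = p ∧ ‖Kᗮ.starProjection (F x)‖ = r) (x₀ : M) {A : Set M}
    (hAm : MeasurableSet A) (hA : A ⊆ (chartAt V x₀).source) :
    MeasurableSet (cn K p r F A) ∧
      ∫⁻ y in cn K p r F A, ENNReal.ofReal (Real.exp (-‖y‖ ^ 2))
        = volM V F A * (cc k p * cc l r) := by
  have h1 : volM V F A = ∫⁻ u in (chartAt V x₀).target ∩ (chartAt V x₀).symm ⁻¹' A,
      ENNReal.ofReal √(metricMat (rep F x₀) u).det := by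
    rw [← chartMeas_apply x₀ hAm, ← volM_restrict_source hF x₀, Measure.restrict_apply hAm,
      inter_eq_left.2 hA]
  have hE : InjOn (rep (V := V) F x₀) ((chartAt V x₀).target ∩ (chartAt V x₀).symm ⁻¹' A) := by
    intro u hu u' hu' h
    exact (chartAt V x₀).symm.injOn hu.1 hu'.1 (hinj h)
  have h2 := piece hW K hk hl hp hr (immV_rep hF x₀) (fun u => hK _) hE
    (measurable_chart_preimage (V := V) x₀ hAm) inter_subset_left (measurable_rep_det hF x₀)
    (fun u _ => (Matrix.posSemidef_gram ℝ _).det_nonneg)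
  rw [← cn_eq K p r F x₀ hA, ← h1] at h2
  refine ⟨h2.1, ?_⟩
  rw [h2.2, mul_assoc]
  rfl

lemma cn_disj (K : Submodule ℝ W) {p r : ℝ} (hp : 0 < p) (hr : 0 < r) {F : M → W}
    (hinj : Injective F)
    (hK : ∀ x, ‖K.starProjection (F x)‖ = p ∧ ‖Kᗮ.starProjection (F x)‖ = r) {A B : Set M}
    (h : Disjoint A B) : Disjoint (cn K p r F A) (cn K p r F B) := by
  rw [Set.disjoint_left] at h ⊢
  rintro w ⟨x, hx, s, t, hs, ht, e1⟩ ⟨x', hx', s', t', hs', ht', e2⟩
  have e3 := e1.symm.trans e2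
  have h1 := congrArg K.starProjection e3
  have h2 := congrArg Kᗮ.starProjection e3
  simp only [map_add, map_smul, pKK, pKO, pOK, smul_zero, add_zero, zero_add] at h1 h2
  have n1 := congrArg norm h1
  have n2 := congrArg norm h2
  rw [norm_smul, norm_smul, (hK x).1, (hK x').1, Real.norm_eq_abs, Real.norm_eq_abs,
    abs_of_pos (by positivity), abs_of_pos (by positivity), div_mul_cancel₀ _ hp.ne',
    div_mul_cancel₀ _ hp.ne'] at n1
  rw [norm_smul, norm_smul, (hK x).2, (hK x').2, Real.norm_eq_abs, Real.norm_eq_abs,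
    abs_of_pos (by positivity), abs_of_pos (by positivity), div_mul_cancel₀ _ hr.ne',
    div_mul_cancel₀ _ hr.ne'] at n2
  subst n1 n2
  have h3 := smul_right_injective W (show s / p ≠ 0 by positivity) h1
  have h4 := smul_right_injective W (show t / r ≠ 0 by positivity) h2
  have h5 : F x = F x' := by
    rw [← proj_add K (F x), ← proj_add K (F x'), h3, h4]
  have h6 := hinj h5
  subst h6
  exact h hx hx'

theorem total [IsManifold 𝓘(ℝ, V) ∞ M] [CompactSpace M] [Nonempty M]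
    (hW : finrank ℝ W = finrank ℝ V + 2) (K : Submodule ℝ W) {k l : ℕ}
    (hk : finrank ℝ K = k + 1) (hl : finrank ℝ Kᗮ = l + 1) {p r : ℝ} (hp : 0 < p) (hr : 0 < r)
    {F : M → W} (hF : SphImm V F) (hinj : Injective F)
    (hK : ∀ x, ‖K.starProjection (F x)‖ = p ∧ ‖Kᗮ.starProjection (F x)‖ = r) :
    ∫⁻ y in cn K p r F univ, ENNReal.ofReal (Real.exp (-‖y‖ ^ 2))
        = volM V F univ * (cc k p * cc l r) := by
  obtain ⟨t, -, ht⟩ := (isCompact_univ (X := M)).elim_nhds_subcover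
    (fun x => (chartAt V x).source) (fun x _ => chart_source_mem_nhds V x)
  have htne : (t : Set M).Nonempty := by
    by_contra hcon
    rw [not_nonempty_iff_eq_empty, Finset.coe_eq_empty] at hcon
    subst hcon
    obtain ⟨x⟩ := ‹Nonempty M›
    have := ht (mem_univ x)
    simp at this
  obtain ⟨g, hg⟩ := t.countable_toSet.exists_eq_range htne
  set s : ℕ → Set M := fun i => (chartAt V (g i)).source with hs
  have hsu : ⋃ i, s i = univ := by
    rw [eq_univ_iff_forall]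
    intro x
    have hx := ht (mem_univ x)
    simp only [mem_iUnion] at hx
    obtain ⟨y, hy, hxy⟩ := hx
    have hy' : y ∈ range g := by
      rw [← hg]
      exact hy
    obtain ⟨i, rfl⟩ := hy'
    exact mem_iUnion.2 ⟨i, hxy⟩
  have hsm : ∀ i, MeasurableSet (s i) := fun i => (chartAt V (g i)).open_source.measurableSet
  have hdm : ∀ i, MeasurableSet (disjointed s i) := MeasurableSet.disjointed hsm
  have hc := fun i => cn_meas hW K hk hl hp hr hF hinj hK (g i) (hdm i) (disjointed_subset s i)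
  have hU : cn K p r F univ = ⋃ i, cn K p r F (disjointed s i) := by
    ext w
    rw [mem_iUnion]
    constructor
    · rintro ⟨x, -, a, b, ha, hb, rfl⟩
      have hx : x ∈ ⋃ i, disjointed s i := by rw [iUnion_disjointed, hsu]; exact mem_univ x
      obtain ⟨i, hi⟩ := mem_iUnion.1 hx
      exact ⟨i, x, hi, a, b, ha, hb, rfl⟩
    · rintro ⟨i, x, hx, a, b, ha, hb, rfl⟩
      exact ⟨x, mem_univ x, a, b, ha, hb, rfl⟩
  rw [hU, lintegral_iUnion (fun i => (hc i).1)
    (fun i j hij => cn_disj K hp hr hinj hK (disjoint_disjointed s hij))]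
  have h1 : ∀ i, ∫⁻ y in cn K p r F (disjointed s i), ENNReal.ofReal (Real.exp (-‖y‖ ^ 2))
      = volM V F (disjointed s i) * (cc k p * cc l r) := fun i => (hc i).2
  simp_rw [h1]
  rw [ENNReal.tsum_mul_right, ← measure_iUnion (disjoint_disjointed s) hdm, iUnion_disjointed, hsu]

/-- the cone is almost the whole space -/
lemma cn_ae (K : Submodule ℝ W) {k l : ℕ}
    (hk : finrank ℝ K = k + 1) (hl : finrank ℝ Kᗮ = l + 1) {p r : ℝ} (hp : 0 < p) (hr : 0 < r)
    {F : M → W} (hr' : ∀ z, ‖K.starProjection z‖ = p → ‖Kᗮ.starProjection z‖ = r → z ∈ range F) :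
    (cn K p r F univ : Set W) =ᵐ[volume] (univ : Set W) := by
  have hne1 : K ≠ ⊤ := by
    intro h
    subst h
    rw [Submodule.top_orthogonal_eq_bot, finrank_bot] at hl
    omega
  have hne2 : Kᗮ ≠ ⊤ := by
    intro h
    have h2 : K = ⊥ := by
      rw [← Submodule.orthogonal_orthogonal K, h, Submodule.top_orthogonal_eq_bot]
    subst h2
    rw [finrank_bot] at hk
    omega
  have z1 : volume (K : Set W) = 0 := Measure.addHaar_submodule volume K hne1
  have z2 : volume (Kᗮ : Set W) = 0 := Measure.addHaar_submodule volume Kᗮ hne2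
  rw [eventuallyEq_univ, mem_ae_iff]
  refine measure_mono_null (t := (K : Set W) ∪ (Kᗮ : Set W)) ?_ (measure_union_null z1 z2)
  intro w hw
  by_contra hcon
  rw [mem_union, not_or] at hcon
  apply hw
  have hK0 : K.starProjection w ≠ 0 := by
    intro h
    apply hcon.2
    rw [← proj_add K w, h, zero_add]
    exact Submodule.starProjection_apply_mem Kᗮ w
  have hO0 : Kᗮ.starProjection w ≠ 0 := by
    intro h
    apply hcon.1
    rw [← proj_add K w, h, add_zero]
    exact Submodule.starProjection_apply_mem K w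
  set a := ‖K.starProjection w‖ with ha
  set b := ‖Kᗮ.starProjection w‖ with hb
  have ha0 : 0 < a := norm_pos_iff.2 hK0
  have hb0 : 0 < b := norm_pos_iff.2 hO0
  set z : W := (p / a) • K.starProjection w + (r / b) • Kᗮ.starProjection w with hz
  have k1 : K.starProjection z = (p / a) • K.starProjection w := by
    rw [hz, map_add, map_smul, map_smul, pKK, pKO, smul_zero, add_zero]
  have k2 : Kᗮ.starProjection z = (r / b) • Kᗮ.starProjection w := by
    rw [hz, map_add, map_smul, map_smul, pOK, pOO, smul_zero, zero_add]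
  obtain ⟨x, hx⟩ := hr' z
    (by rw [k1, norm_smul, Real.norm_eq_abs, abs_of_pos (by positivity), ← ha]; field_simp)
    (by rw [k2, norm_smul, Real.norm_eq_abs, abs_of_pos (by positivity), ← hb]; field_simp)
  refine ⟨x, mem_univ x, a, b, ha0, hb0, ?_⟩
  rw [hx, k1, k2, smul_smul, smul_smul]
  have e1 : a / p * (p / a) = 1 := by field_simp
  have e2 : b / r * (r / b) = 1 := by field_simp
  rw [e1, e2, one_smul, one_smul, proj_add]

end glob

section const

lemma momentR (m : ℕ) :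
    ∫ s in Ioi (0 : ℝ), s ^ m * Real.exp (-s ^ 2) = Real.Gamma (((m : ℝ) + 1) / 2) / 2 := by
  have h := integral_rpow_mul_exp_neg_rpow (p := 2) (q := m) (by norm_num)
    (by have : (0 : ℝ) ≤ m := Nat.cast_nonneg m
        linarith)
  rw [show Real.Gamma (((m : ℝ) + 1) / 2) / 2 = 1 / 2 * Real.Gamma (((m : ℝ) + 1) / 2) by ring,
    ← h]
  refine setIntegral_congr_fun measurableSet_Ioi fun r _ => ?_
  simp only [Real.rpow_natCast, Real.rpow_two]

lemma momentR_integrable (m : ℕ) :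
    IntegrableOn (fun s : ℝ => s ^ m * Real.exp (-s ^ 2)) (Ioi 0) := by
  by_contra h
  have h1 := momentR m
  rw [integral_undef h] at h1
  have : 0 < Real.Gamma (((m : ℝ) + 1) / 2) / 2 := by
    have := Real.Gamma_pos_of_pos (s := ((m : ℝ) + 1) / 2) (by positivity)
    positivity
  rw [← h1] at this
  exact lt_irrefl _ this

lemma cc_eq (k : ℕ) {p : ℝ} (hp : 0 < p) :
    cc k p = ENNReal.ofReal (Real.Gamma (((k : ℝ) + 1) / 2) / 2 / p ^ k) := by
  have e : (fun s : ℝ => (s / p) ^ k * Real.exp (-s ^ 2))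
      = fun s => (p ^ k)⁻¹ * (s ^ k * Real.exp (-s ^ 2)) := by
    funext s
    rw [div_pow]
    ring
  have hint : Integrable (fun s : ℝ => (s / p) ^ k * Real.exp (-s ^ 2))
      (volume.restrict (Ioi 0)) := by
    rw [e]
    exact (momentR_integrable k).const_mul _
  have hnn : 0 ≤ᵐ[volume.restrict (Ioi (0 : ℝ))]
      (fun s : ℝ => (s / p) ^ k * Real.exp (-s ^ 2)) := by
    filter_upwards [ae_restrict_mem measurableSet_Ioi] with s hs
    have : (0 : ℝ) < s := hs
    simp only [Pi.zero_apply]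
    positivity
  unfold cc
  rw [← ofReal_integral_eq_lintegral_ofReal hint hnn, e, integral_const_mul, momentR]
  congr 1
  ring

variable [MeasurableSpace W] [BorelSpace W]

lemma gaussW : ∫⁻ y : W, ENNReal.ofReal (Real.exp (-‖y‖ ^ 2))
    = ENNReal.ofReal (Real.pi ^ ((finrank ℝ W : ℝ) / 2)) := by
  have h1 := GaussianFourier.integral_rexp_neg_mul_sq_norm (V := W) (b := 1) one_pos
  have e : (fun v : W => Real.exp (-1 * ‖v‖ ^ 2)) = fun v => Real.exp (-‖v‖ ^ 2) := by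
    funext v
    congr 1
    ring
  rw [e, div_one] at h1
  have hint : Integrable (fun v : W => Real.exp (-‖v‖ ^ 2)) := by
    by_contra h
    rw [integral_undef h] at h1
    have : (0 : ℝ) < Real.pi ^ ((finrank ℝ W : ℝ) / 2) := by positivity
    rw [← h1] at this
    exact lt_irrefl _ this
  rw [← ofReal_integral_eq_lintegral_ofReal hint
    (Eventually.of_forall fun v => (Real.exp_pos _).le), h1]

end const

section main

variable [MeasurableSpace V] [BorelSpace V] [MeasurableSpace W] [BorelSpace W]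
  [MeasurableSpace M] [BorelSpace M]

/-- **The volume of an injective immersion onto a product of two spheres.** -/
theorem volM_prd [IsManifold 𝓘(ℝ, V) ∞ M] [CompactSpace M] [Nonempty M]
    (hW : finrank ℝ W = finrank ℝ V + 2) (K : Submodule ℝ W) {k l : ℕ}
    (hk : finrank ℝ K = k + 1) (hl : finrank ℝ Kᗮ = l + 1) {p r : ℝ} (hp : 0 < p) (hr : 0 < r)
    {F : M → W} (hF : SphImm V F) (hinj : Injective F)
    (hK : ∀ x, ‖K.starProjection (F x)‖ = p ∧ ‖Kᗮ.starProjection (F x)‖ = r)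
    (hr' : ∀ z, ‖K.starProjection z‖ = p → ‖Kᗮ.starProjection z‖ = r → z ∈ range F) :
    volM V F univ = ENNReal.ofReal (p ^ k * r ^ l * sphereVol k * sphereVol l) := by
  have h1 := total hW K hk hl hp hr hF hinj hK
  rw [setLIntegral_congr (cn_ae K hk hl hp hr hr'), setLIntegral_univ, gaussW, cc_eq k hp,
    cc_eq l hr] at h1
  have g1 : 0 < Real.Gamma (((k : ℝ) + 1) / 2) := Real.Gamma_pos_of_pos (by positivity)
  have g2 : 0 < Real.Gamma (((l : ℝ) + 1) / 2) := Real.Gamma_pos_of_pos (by positivity)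
  set c1 := Real.Gamma (((k : ℝ) + 1) / 2) / 2 / p ^ k with hc1
  set c2 := Real.Gamma (((l : ℝ) + 1) / 2) / 2 / r ^ l with hc2
  have p1 : 0 < c1 := by positivity
  have p2 : 0 < c2 := by positivity
  have hdim : (finrank ℝ W : ℝ) / 2 = ((k : ℝ) + 1) / 2 + ((l : ℝ) + 1) / 2 := by
    have h2 := K.finrank_add_finrank_orthogonal
    rw [hk, hl] at h2
    rw [← h2]
    push_cast
    ring
  rw [← ENNReal.ofReal_mul p1.le] at h1
  have h3 : volM V F univ = ENNReal.ofReal (Real.pi ^ ((finrank ℝ W : ℝ) / 2))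
      / ENNReal.ofReal (c1 * c2) := by
    rw [h1, ENNReal.mul_div_cancel_right (ENNReal.ofReal_pos.2 (by positivity)).ne'
      ENNReal.ofReal_ne_top]
  rw [h3, ← ENNReal.ofReal_div_of_pos (by positivity), hdim, Real.rpow_add Real.pi_pos]
  congr 1
  unfold sphereVol
  rw [hc1, hc2]
  field_simp

/-- The volume of an injective immersion onto the minimal product of two spheres. -/
theorem volM_clifford [IsManifold 𝓘(ℝ, V) ∞ M] [CompactSpace M] [Nonempty M] {m k : ℕ}
    (hV : finrank ℝ V = m) (hk1 : 1 ≤ k) (hkm : k < m)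
    (hW : finrank ℝ W = finrank ℝ V + 2) (K : Submodule ℝ W)
    (hk : finrank ℝ K = k + 1)
    {F : M → W} (hF : SphImm V F) (hinj : Injective F)
    (hK : ∀ x, ‖K.starProjection (F x)‖ ^ 2 = (k : ℝ) / m ∧
      ‖F x - K.starProjection (F x)‖ ^ 2 = ((m - k : ℕ) : ℝ) / m) :
    volM V F univ = ENNReal.ofReal (cliffordVol m k) := by
  have hm0 : (0 : ℝ) < m := by
    have : 0 < m := by omega
    exact_mod_cast this
  have hk0 : (0 : ℝ) < k := by exact_mod_cast hk1
  have hl0 : (0 : ℝ) < ((m - k : ℕ) : ℝ) := by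
    have : 0 < m - k := by omega
    exact_mod_cast this
  have hl : finrank ℝ Kᗮ = (m - k) + 1 := by
    have := K.finrank_add_finrank_orthogonal
    omega
  have hsum : (k : ℝ) / m + ((m - k : ℕ) : ℝ) / m = 1 := by
    rw [← add_div, Nat.cast_sub hkm.le]
    field_simp
    ring
  have hO : ∀ z, Kᗮ.starProjection z = z - K.starProjection z := fun z =>
    Submodule.starProjection_orthogonal_val z
  set p := √((k : ℝ) / m) with hp
  set r := √(((m - k : ℕ) : ℝ) / m) with hr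
  have hp2 : p ^ 2 = (k : ℝ) / m := Real.sq_sqrt (by positivity)
  have hr2 : r ^ 2 = ((m - k : ℕ) : ℝ) / m := Real.sq_sqrt (by positivity)
  have hp0 : 0 < p := Real.sqrt_pos.2 (by positivity)
  have hr0 : 0 < r := Real.sqrt_pos.2 (by positivity)
  have hA : ∀ x, F x ∈ PrdA ((k : ℝ) / m) K := fun x => by
    refine ⟨(hK x).1, ?_⟩
    rw [hO, (hK x).2]
    linarith
  have hrg := range_eq_prdA (V := V) (a := (k : ℝ) / m) (by positivity) (by
    have : 0 < ((m - k : ℕ) : ℝ) / m := by positivity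
    linarith) hW K (by omega) (by omega) hF hA
  have key := volM_prd hW K hk hl hp0 hr0 hF hinj (fun x => by
    constructor
    · rw [hp, ← (hK x).1, Real.sqrt_sq (norm_nonneg _)]
    · rw [hO, hr, ← (hK x).2, Real.sqrt_sq (norm_nonneg _)]) (fun z h1 h2 => by
    rw [hrg]
    refine ⟨?_, ?_⟩
    · rw [h1, hp2]
    · rw [h2, hr2]
      linarith)
  rw [key]
  congr 1
  unfold cliffordVol
  have b1 : ((k : ℝ) / m) ^ ((k : ℝ) / 2) = p ^ k := by
    rw [hp, Real.sqrt_eq_rpow, ← Real.rpow_natCast, ← Real.rpow_mul (by positivity)]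
    congr 1
    ring
  have b2 : (((m - k : ℕ) : ℝ) / m) ^ (((m - k : ℕ) : ℝ) / 2) = r ^ (m - k) := by
    rw [hr, Real.sqrt_eq_rpow, ← Real.rpow_natCast, ← Real.rpow_mul (by positivity)]
    congr 1
    ring
  rw [b1, b2]

end main

end Vale.Agent.P224.RIG
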